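import Vale.Agent.Lib.P012.RepTo
import Vale.Agent.Lib.P012.Egyptian

/-! Module M2 of P012 v2: the Bleicher-Erdos reduction when only the numbers `m ≤ M` are known to
be sums of few divisors of `N`. -/

namespace Vale.Agent.Lib.P012

open Finset

theorem egyptian_of_repTo {N M T a b : ℕ} (hN : RepTo N M T) (hNpos : 0 < N) (ha : 1 ≤ a)
    (hab : a < b) (hsmall : a * N ≤ M * b) (hbM : b ≤ M) :
    ∃ S : Finset ℕ, (∀ n ∈ S, 2 ≤ n) ∧ S.card ≤ 2 * T ∧ ∑ n ∈ S, (1 : ℚ) / n = (a : ℚ) / b := by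
  have hbpos : 0 < b := by omega
  set q := a * N / b with hq
  set r := a * N % b with hr
  have hqr : b * q + r = a * N := Nat.div_add_mod (a * N) b
  have hrb : r < b := Nat.mod_lt _ hbpos
  have hqN : q < N := by
    rw [hq, Nat.div_lt_iff_lt_mul hbpos, mul_comm N b]
    exact Nat.mul_lt_mul_of_pos_right hab hNpos
  have hqM : q ≤ M := by
    rw [hq]
    exact Nat.div_le_of_le_mul (by rw [mul_comm b M]; exact hsmall)
  obtain ⟨D1, hD1, hc1, hs1⟩ := hN q hqM
  obtain ⟨D2, hD2, hc2, hs2⟩ := hN r (by omega)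
  have hle1 : ∀ d ∈ D1, d ≤ q := fun d hd => by
    rw [← hs1]; exact Finset.single_le_sum (f := fun x => x) (fun _ _ => Nat.zero_le _) hd
  have hle2 : ∀ d ∈ D2, d ≤ r := fun d hd => by
    rw [← hs2]; exact Finset.single_le_sum (f := fun x => x) (fun _ _ => Nat.zero_le _) hd
  have hI1 : ∀ n ∈ D1.image (fun d => 1 * (N / d)), 2 ≤ n ∧ n ≤ N := by
    intro n hn
    obtain ⟨d, hd, rfl⟩ := Finset.mem_image.1 hn
    have hd' := Nat.dvd_of_mem_divisors (hD1 hd)
    have hdpos : 0 < d := Nat.pos_of_dvd_of_pos hd' hNpos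
    have hdN : d < N := lt_of_le_of_lt (hle1 d hd) hqN
    rw [one_mul]
    refine ⟨?_, Nat.div_le_self _ _⟩
    obtain ⟨k, hk⟩ := hd'
    rw [hk, Nat.mul_div_cancel_left _ hdpos]
    by_contra hcon
    have : k ≤ 1 := by omega
    have : d * k ≤ d * 1 := Nat.mul_le_mul_left _ this
    omega
  have hI2 : ∀ n ∈ D2.image (fun d => b * (N / d)), N < n := by
    intro n hn
    obtain ⟨d, hd, rfl⟩ := Finset.mem_image.1 hn
    have hd' := Nat.dvd_of_mem_divisors (hD2 hd)
    have hdpos : 0 < d := Nat.pos_of_dvd_of_pos hd' hNpos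
    have hdb : d < b := lt_of_le_of_lt (hle2 d hd) hrb
    obtain ⟨k, hk⟩ := hd'
    have hkpos : 0 < k := by
      rcases Nat.eq_zero_or_pos k with h | h
      · rw [h, mul_zero] at hk; omega
      · exact h
    rw [hk, Nat.mul_div_cancel_left _ hdpos]
    exact Nat.mul_lt_mul_of_pos_right hdb hkpos
  have hdisj : Disjoint (D1.image (fun d => 1 * (N / d))) (D2.image (fun d => b * (N / d))) := by
    rw [Finset.disjoint_left]
    intro n h1 h2
    have := (hI1 n h1).2
    have := hI2 n h2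
    omega
  refine ⟨D1.image (fun d => 1 * (N / d)) ∪ D2.image (fun d => b * (N / d)), ?_, ?_, ?_⟩
  · intro n hn
    rcases Finset.mem_union.1 hn with h | h
    · exact (hI1 n h).1
    · have := hI2 n h
      omega
  · calc _ ≤ (D1.image (fun d => 1 * (N / d))).card + (D2.image (fun d => b * (N / d))).card :=
        Finset.card_union_le _ _
      _ ≤ D1.card + D2.card := Nat.add_le_add Finset.card_image_le Finset.card_image_le
      _ ≤ 2 * T := by omega
  · rw [Finset.sum_union hdisj, sum_inv_image hNpos one_pos hD1, sum_inv_image hNpos hbpos hD2,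
      hs1, hs2]
    have hNq : (N : ℚ) ≠ 0 := by exact_mod_cast hNpos.ne'
    have hbq : (b : ℚ) ≠ 0 := by exact_mod_cast hbpos.ne'
    have hcast : (b : ℚ) * q + r = a * N := by exact_mod_cast hqr
    field_simp
    push_cast
    linarith

end Vale.Agent.Lib.P012
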