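import Mathlib

namespace Vale.Agent.Lib.P012

open Finset

/-- one greedy (Fibonacci, Sylvester) step -/
theorem greedy_step {Y b a Pi : ℕ} (hab : a < b) (hPi : 1 ≤ Pi) (hbig : b * Pi < a * Y) :
    ∃ n a1 : ℕ, Pi < n ∧ n ≤ Y ∧ Pi < Y ∧ a1 < a ∧
      (a : ℚ) / ((b : ℚ) * Pi) = 1 / (n : ℚ) + (a1 : ℚ) / ((b : ℚ) * ((Pi * n : ℕ) : ℚ)) := by
  have ha : 0 < a := by
    rcases Nat.eq_zero_or_pos a with h | h
    · subst h; simp at hbig
    · exact h
  set n := (b * Pi + a - 1) / a with hn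
  have h1 : b * Pi ≤ a * n := by
    have h := Nat.div_add_mod (b * Pi + a - 1) a
    have h2 := Nat.mod_lt (b * Pi + a - 1) ha
    rw [← hn] at h
    omega
  have h2 : a * n < b * Pi + a := by
    have h := Nat.div_add_mod (b * Pi + a - 1) a
    rw [← hn] at h
    omega
  have h3 : Pi < n := by
    have : a * Pi < a * n := by
      calc a * Pi < b * Pi := Nat.mul_lt_mul_of_pos_right hab hPi
        _ ≤ a * n := h1
    exact lt_of_mul_lt_mul_left this (Nat.zero_le _)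
  have h4 : n ≤ Y := by
    have : a * n < a * (Y + 1) := by
      calc a * n < b * Pi + a := h2
        _ < a * Y + a := by omega
        _ = a * (Y + 1) := by ring
    have := lt_of_mul_lt_mul_left this (Nat.zero_le _)
    omega
  have h5 : Pi < Y := lt_of_lt_of_le h3 h4
  refine ⟨n, a * n - b * Pi, h3, h4, h5, by omega, ?_⟩
  have hb : (0 : ℚ) < b := by exact_mod_cast (lt_of_le_of_lt (Nat.zero_le _) hab)
  have hP : (0 : ℚ) < Pi := by exact_mod_cast hPi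
  have hnq : (0 : ℚ) < n := by exact_mod_cast (lt_of_le_of_lt (Nat.zero_le _) h3)
  rw [Nat.cast_sub h1]
  push_cast
  field_simp
  ring

theorem greedy_aux (Y b : ℕ) : ∀ (t a Pi : ℕ), a < b → 1 ≤ Pi → Pi ≤ Y ^ 2 → Y ≤ Pi ^ 2 ^ t →
    ∃ (S : Finset ℕ) (a' Pi' : ℕ), (∀ n ∈ S, Pi < n ∧ n ≤ Pi') ∧ S.card ≤ t ∧
      a' < b ∧ Pi ≤ Pi' ∧ Pi' ≤ Y ^ 2 ∧ a' * Y ≤ b * Pi' ∧
      (a : ℚ) / ((b : ℚ) * Pi) = ∑ n ∈ S, (1 : ℚ) / n + (a' : ℚ) / ((b : ℚ) * Pi') := by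
  intro t
  induction t with
  | zero =>
    intro a Pi hab hPi hPiY hY
    refine ⟨∅, a, Pi, by simp, by simp, hab, le_rfl, hPiY, ?_, by simp⟩
    simp at hY
    calc a * Y ≤ a * Pi := Nat.mul_le_mul_left _ hY
      _ ≤ b * Pi := Nat.mul_le_mul_right _ hab.le
  | succ t ih =>
    intro a Pi hab hPi hPiY hY
    by_cases hstop : a * Y ≤ b * Pi
    · exact ⟨∅, a, Pi, by simp, by simp, hab, le_rfl, hPiY, hstop, by simp⟩
    · have hbig : b * Pi < a * Y := not_le.1 hstop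
      obtain ⟨n, a1, hn1, hn2, hPY, ha1, heq⟩ := greedy_step hab hPi hbig
      have hP1 : 1 ≤ Pi * n := by
        have : 1 ≤ n := by omega
        exact Nat.mul_pos hPi this
      have hP2 : Pi * n ≤ Y ^ 2 := by
        rw [sq]; exact Nat.mul_le_mul hPY.le hn2
      have hP3 : Y ≤ (Pi * n) ^ 2 ^ t := by
        calc Y ≤ Pi ^ 2 ^ (t + 1) := hY
          _ = (Pi * Pi) ^ 2 ^ t := by rw [pow_succ, mul_comm, pow_mul, sq]
          _ ≤ (Pi * n) ^ 2 ^ t := Nat.pow_le_pow_left (Nat.mul_le_mul_left _ hn1.le) _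
      obtain ⟨S1, a', Pi', hS1, hc1, ha', hPP, hPY', hfin, heq1⟩ :=
        ih a1 (Pi * n) (by omega) hP1 hP2 hP3
      have hnP : n ≤ Pi * n := Nat.le_mul_of_pos_left _ hPi
      have hnS : n ∉ S1 := by
        intro h
        have := (hS1 n h).1
        omega
      refine ⟨insert n S1, a', Pi', ?_, ?_, ha', ?_, hPY', hfin, ?_⟩
      · intro m hm
        rcases Finset.mem_insert.1 hm with rfl | hm
        · exact ⟨hn1, hnP.trans hPP⟩
        · have := hS1 m hm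
          exact ⟨by omega, this.2⟩
      · rw [Finset.card_insert_of_notMem hnS]; omega
      · have : Pi ≤ Pi * n := Nat.le_mul_of_pos_right _ (by omega)
        omega
      · rw [Finset.sum_insert hnS, heq, heq1]; ring

theorem greedy_reduce (Y t b a : ℕ) (hY : 1 ≤ Y) (hYt : Y ≤ 2 ^ 2 ^ t) (hab : a < b) :
    ∃ (S : Finset ℕ) (a' Pi : ℕ), (∀ n ∈ S, 2 ≤ n ∧ n ≤ Pi) ∧ S.card ≤ t + 1 ∧
      a' < b ∧ 1 ≤ Pi ∧ Pi ≤ Y ^ 2 ∧ a' * Y ≤ b * Pi ∧
      (a : ℚ) / b = ∑ n ∈ S, (1 : ℚ) / n + (a' : ℚ) / ((b : ℚ) * Pi) := by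
  by_cases hstop : a * Y ≤ b * 1
  · exact ⟨∅, a, 1, by simp, by simp, hab, le_rfl, Nat.one_le_pow _ _ hY, hstop, by simp⟩
  · have hbig : b * 1 < a * Y := not_le.1 hstop
    obtain ⟨n, a1, hn1, hn2, hPY, ha1, heq⟩ := greedy_step hab le_rfl hbig
    have hP2 : 1 * n ≤ Y ^ 2 := by
      rw [sq, one_mul]
      calc n ≤ Y := hn2
        _ ≤ Y * Y := Nat.le_mul_of_pos_left _ hY
    have hP3 : Y ≤ (1 * n) ^ 2 ^ t := by
      rw [one_mul]
      exact hYt.trans (Nat.pow_le_pow_left (by omega) _)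
    obtain ⟨S1, a', Pi', hS1, hc1, ha', hPP, hPY', hfin, heq1⟩ :=
      greedy_aux Y b t a1 (1 * n) (by omega) (by omega) hP2 hP3
    have hnS : n ∉ S1 := by
      intro h
      have := (hS1 n h).1
      omega
    refine ⟨insert n S1, a', Pi', ?_, ?_, ha', by omega, hPY', hfin, ?_⟩
    · intro m hm
      rcases Finset.mem_insert.1 hm with rfl | hm
      · exact ⟨by omega, by omega⟩
      · have := hS1 m hm
        exact ⟨by omega, this.2⟩
    · rw [Finset.card_insert_of_notMem hnS]; omega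
    · rw [Finset.sum_insert hnS]
      have h0 : (a : ℚ) / b = (a : ℚ) / ((b : ℚ) * ((1 : ℕ) : ℚ)) := by simp
      rw [h0, heq, heq1]; ring

end Vale.Agent.Lib.P012
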