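import Vale.Agent.Lib.P012.Iterate2
import Vale.Agent.Lib.P012.Egyptian2
import Vale.Agent.Lib.P012.Greedy

/-! P012 v2: greedy steps close the gap, then the divisor representation finishes. -/

namespace Vale.Agent.Lib.P012

open Finset

theorem egyptian_G (G : ℕ) (hG : 64 ≤ G) (a b : ℕ) (ha : 1 ≤ a) (hab : a < b)
    (hb : b ≤ 2 ^ 2 ^ G) :
    ∃ S : Finset ℕ, (∀ n ∈ S, 2 ≤ n) ∧ ∑ n ∈ S, (1 : ℚ) / n = (a : ℚ) / b ∧
      S.card ≤ 2 * G + 1 + 2 * TT G := by
  obtain ⟨N, M, Y, hNpos, hNM, hY1, hYt, hM, hrep⟩ := exists_repTo G hG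
  obtain ⟨S0, a', Pi, hS0, hS0c, ha'b, hPi1, hPiY, hstop, hsum⟩ :=
    greedy_reduce Y (2 * G) b a hY1 hYt hab
  have hbpos : 0 < b := by omega
  rcases Nat.eq_zero_or_pos a' with h0 | hpos
  · refine ⟨S0, fun n hn => (hS0 n hn).1, ?_, by omega⟩
    rw [hsum, h0]
    simp
  · have hab' : a' < b * Pi := lt_of_lt_of_le ha'b (Nat.le_mul_of_pos_right _ hPi1)
    have hsmall : a' * N ≤ M * (b * Pi) := by
      rw [hNM]
      calc a' * (M * Y) = M * (a' * Y) := by ring
        _ ≤ M * (b * Pi) := Nat.mul_le_mul_left _ hstop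
    have hbM : b * Pi ≤ M := le_trans (Nat.mul_le_mul hb hPiY) hM
    obtain ⟨S1, hS1, hS1c, hS1s⟩ := egyptian_of_repTo hrep hNpos hpos hab' hsmall hbM
    have hbig : ∀ n ∈ S1, Pi < n := by
      intro n hn
      have hn2 := hS1 n hn
      have hnpos : (0 : ℚ) < n := by exact_mod_cast (by omega : 0 < n)
      have h1 : (1 : ℚ) / n ≤ ∑ m ∈ S1, (1 : ℚ) / m :=
        Finset.single_le_sum (f := fun m : ℕ => (1 : ℚ) / m) (fun m _ => by positivity) hn
      rw [hS1s] at h1
      have hbP : (0 : ℚ) < ((b * Pi : ℕ) : ℚ) := by exact_mod_cast Nat.mul_pos hbpos hPi1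
      rw [div_le_div_iff₀ hnpos hbP] at h1
      rw [one_mul] at h1
      have h2 : b * Pi ≤ a' * n := by exact_mod_cast h1
      by_contra hcon
      have h3 : n ≤ Pi := by omega
      have h4 : a' * n ≤ a' * Pi := Nat.mul_le_mul_left _ h3
      have h5 : a' * Pi < b * Pi := Nat.mul_lt_mul_of_pos_right ha'b hPi1
      omega
    have hdisj : Disjoint S0 S1 := by
      rw [Finset.disjoint_left]
      intro n h0 h1
      have := (hS0 n h0).2
      have := hbig n h1
      omega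
    refine ⟨S0 ∪ S1, ?_, ?_, ?_⟩
    · intro n hn
      rcases Finset.mem_union.1 hn with h | h
      · exact (hS0 n h).1
      · exact hS1 n h
    · rw [Finset.sum_union hdisj, hS1s, hsum]
      push_cast
      ring
    · rw [Finset.card_union_of_disjoint hdisj]
      omega

end Vale.Agent.Lib.P012
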