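import Vale.Agent.Lib.P012.Defs3
import Vale.Agent.Lib.P012.Greedy

/-! Module F1 of P012 v3: greedy steps, then the quotient part and the remainder part. -/

open Classical

namespace Vale.Agent.Lib.P012

theorem egyptian_of_expa (F RB m t T a b : ℕ) (hF : 1 ≤ F) (hRB : 1 ≤ RB)
    (hYt : 2 * (F * RB) ≤ 2 ^ 2 ^ t) (hm : b * (2 * (F * RB)) ^ 2 < 2 ^ m)
    (hexp : ∀ M0 E, 1 ≤ M0 → E < 2 ^ m → Expa E (M0 * 2 ^ m * F * RB) T)
    (ha : 1 ≤ a) (hab : a < b) :
    ∃ S : Finset ℕ, (∀ n ∈ S, 2 ≤ n) ∧ ∑ n ∈ S, (1 : ℚ) / n = (a : ℚ) / b ∧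
      S.card ≤ t + 1 + 2 * T := by
  set Y := 2 * (F * RB) with hY
  have hFRB : 1 ≤ F * RB := Nat.mul_pos hF hRB
  have hY1 : 1 ≤ Y := by omega
  obtain ⟨S0, a', Pi, hS0, hS0c, ha'b, hPi1, hPiY, hstop, hsum⟩ :=
    greedy_reduce Y t b a hY1 hYt hab
  have hbpos : 0 < b := by omega
  set B' := b * Pi with hB'
  have hB'pos : 0 < B' := Nat.mul_pos hbpos hPi1
  set R := 2 ^ m * F * RB with hR
  have hRpos : 0 < R := by positivity
  have hB'm : B' < 2 ^ m := lt_of_le_of_lt (Nat.mul_le_mul_left _ hPiY) hm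
  have h2mR : 2 ^ m ≤ R := by
    rw [hR, mul_assoc]
    exact Nat.le_mul_of_pos_right _ hFRB
  have hPiB : Pi ≤ B' := Nat.le_mul_of_pos_left _ hbpos
  have hPiR : Pi < R := by omega
  have hm1 : 1 ≤ m := by
    rcases Nat.eq_zero_or_pos m with h | h
    · rw [h] at hB'm
      simp at hB'm
      omega
    · exact h
  set q := a' * R / B' with hq
  set r := a' * R % B' with hr
  have hqr : a' * R = q * B' + r := by
    rw [hq, hr, mul_comm (a' * R / B')]
    exact (Nat.div_add_mod _ _).symm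
  have hrB : r < B' := Nat.mod_lt _ hB'pos
  have hrm : r < 2 ^ m := lt_trans hrB hB'm
  have hqm : q < 2 ^ m := by
    have h1 : a' * R ≤ B' * 2 ^ (m - 1) := by
      have h2 : 2 ^ m = 2 * 2 ^ (m - 1) := by
        rw [← pow_succ']
        congr 1
        omega
      calc a' * R = a' * Y * 2 ^ (m - 1) := by rw [hR, hY, h2]; ring
        _ ≤ B' * 2 ^ (m - 1) := Nat.mul_le_mul_right _ hstop
    have h3 : q ≤ 2 ^ (m - 1) := by
      rw [hq]
      exact Nat.div_le_of_le_mul h1
    have h4 : 2 ^ (m - 1) < 2 ^ m := Nat.pow_lt_pow_right (by norm_num) (by omega)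
    omega
  obtain ⟨S1, hS1c, hS1b, hS1s⟩ := hexp 1 q le_rfl hqm
  obtain ⟨S2, hS2c, hS2b, hS2s⟩ := hexp B' r hB'pos hrm
  have hden1 : 1 * 2 ^ m * F * RB = R := by rw [hR]; ring
  have hden2 : B' * 2 ^ m * F * RB = B' * R := by rw [hR]; ring
  rw [hden1] at hS1b hS1s
  rw [hden2] at hS2b hS2s
  -- sizes
  have hbig1 : ∀ n ∈ S1, Pi < n ∧ n ≤ R := by
    intro n hn
    obtain ⟨h1, h2, h3⟩ := hS1b n hn
    refine ⟨?_, h2⟩
    have hqpos : 0 < q := by
      rcases Nat.eq_zero_or_pos q with h | h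
      · rw [h] at h1
        simp at h1
        omega
      · exact h
    -- q * B' ≤ a' * R ≤ a' * (n * q)
    have h4 : q * B' ≤ q * (a' * n) := by
      calc q * B' ≤ a' * R := by omega
        _ ≤ a' * (n * q) := Nat.mul_le_mul_left _ h1
        _ = q * (a' * n) := by ring
    have h5 : B' ≤ a' * n := Nat.le_of_mul_le_mul_left h4 hqpos
    by_contra hcon
    have h6 : n ≤ Pi := by omega
    have h7 : a' * n ≤ a' * Pi := Nat.mul_le_mul_left _ h6
    have h8 : a' * Pi < b * Pi := Nat.mul_lt_mul_of_pos_right ha'b hPi1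
    omega
  have hbig2 : ∀ n ∈ S2, R < n := by
    intro n hn
    obtain ⟨h1, h2, h3⟩ := hS2b n hn
    by_contra hcon
    have h4 : n ≤ R := by omega
    have h5 : n * r ≤ R * r := Nat.mul_le_mul_right _ h4
    have h6 : R * r < R * B' := Nat.mul_lt_mul_of_pos_left hrB hRpos
    have h7 : B' * R = R * B' := by ring
    omega
  have hd01 : Disjoint S0 S1 := by
    rw [Finset.disjoint_left]
    intro n h0 h1
    have := (hS0 n h0).2
    have := (hbig1 n h1).1
    omega
  have hd02 : Disjoint S0 S2 := by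
    rw [Finset.disjoint_left]
    intro n h0 h1
    have := (hS0 n h0).2
    have := hbig2 n h1
    omega
  have hd12 : Disjoint S1 S2 := by
    rw [Finset.disjoint_left]
    intro n h0 h1
    have := (hbig1 n h0).2
    have := hbig2 n h1
    omega
  have hd012 : Disjoint S0 (S1 ∪ S2) := Finset.disjoint_union_right.mpr ⟨hd01, hd02⟩
  refine ⟨S0 ∪ (S1 ∪ S2), ?_, ?_, ?_⟩
  · intro n hn
    rcases Finset.mem_union.1 hn with h | h
    · exact (hS0 n h).1
    · rcases Finset.mem_union.1 h with h | h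
      · have := (hbig1 n h).1
        omega
      · have := hbig2 n h
        omega
  · rw [Finset.sum_union hd012, Finset.sum_union hd12, hS1s, hS2s, hsum]
    congr 1
    have hRQ : (R : ℚ) ≠ 0 := by exact_mod_cast hRpos.ne'
    have hBQ : (B' : ℚ) ≠ 0 := by exact_mod_cast hB'pos.ne'
    have hBeq : (b : ℚ) * Pi = (B' : ℚ) := by rw [hB']; push_cast; ring
    have hqrQ : (a' : ℚ) * R = q * B' + r := by exact_mod_cast hqr
    rw [hBeq]
    push_cast
    field_simp
    linarith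
  · rw [Finset.card_union_of_disjoint hd012, Finset.card_union_of_disjoint hd12]
    omega

end Vale.Agent.Lib.P012
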