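import Vale.Agent.Lib.P012.Defs3

/-! P012 v3: weighted sums of the collision numbers `off X d` (swap of summation). -/

open Classical

namespace Vale.Agent.Lib.P012

open Finset

/-- congruence of naturals in terms of the absolute difference -/
theorem modEq_iff_dvd_dist (x y d : ℕ) : x ≡ y [MOD d] ↔ d ∣ (x - y) + (y - x) := by
  rcases le_total x y with h | h
  · rw [Nat.sub_eq_zero_of_le h, zero_add]
    exact Nat.modEq_iff_dvd' h
  · rw [Nat.sub_eq_zero_of_le h, add_zero]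
    constructor
    · intro h'
      exact (Nat.modEq_iff_dvd' h).1 h'.symm
    · intro h'
      exact ((Nat.modEq_iff_dvd' h).2 h').symm

theorem off_eq_sum (X : Finset ℕ) (d : ℕ) :
    (off X d : ℝ) = ∑ p ∈ (X ×ˢ X).filter (fun p => p.1 ≠ p.2),
      (if p.1 ≡ p.2 [MOD d] then (1 : ℝ) else 0) := by
  unfold off
  rw [Finset.sum_boole, Finset.filter_filter]

theorem sum_off_mul_le (X : Finset ℕ) (W : ℕ) (hX : ∀ a ∈ X, a < 2 ^ W) (D : Finset ℕ)
    (g : ℕ → ℝ) (_hg : ∀ d, 0 ≤ g d) (Bd : ℝ) (hB0 : 0 ≤ Bd)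
    (hB : ∀ n, 0 < n → n < 2 ^ W → ∑ d ∈ D.filter (fun d => d ∣ n), g d ≤ Bd) :
    ∑ d ∈ D, (off X d : ℝ) * g d ≤ (X.card : ℝ) ^ 2 * Bd := by
  simp_rw [off_eq_sum, Finset.sum_mul]
  rw [Finset.sum_comm]
  have hpt : ∀ p ∈ (X ×ˢ X).filter (fun p => p.1 ≠ p.2),
      ∑ d ∈ D, (if p.1 ≡ p.2 [MOD d] then (1 : ℝ) else 0) * g d ≤ Bd := by
    intro p hp
    rw [Finset.mem_filter, Finset.mem_product] at hp
    set n := (p.1 - p.2) + (p.2 - p.1) with hn
    have hnpos : 0 < n := by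
      have := hp.2
      omega
    have hnW : n < 2 ^ W := by
      have h1 := hX _ hp.1.1
      have h2 := hX _ hp.1.2
      omega
    refine le_trans (le_of_eq ?_) (hB n hnpos hnW)
    rw [Finset.sum_filter]
    refine Finset.sum_congr rfl fun d _ => ?_
    by_cases h : p.1 ≡ p.2 [MOD d]
    · rw [if_pos h, if_pos ((modEq_iff_dvd_dist _ _ _).1 h), one_mul]
    · rw [if_neg h, if_neg (fun h' => h ((modEq_iff_dvd_dist _ _ _).2 h')), zero_mul]
  calc _ ≤ ∑ _p ∈ (X ×ˢ X).filter (fun p => p.1 ≠ p.2), Bd := Finset.sum_le_sum hpt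
    _ = (((X ×ˢ X).filter (fun p => p.1 ≠ p.2)).card : ℝ) * Bd := by
        rw [Finset.sum_const, nsmul_eq_mul]
    _ ≤ (X.card : ℝ) ^ 2 * Bd := by
        apply mul_le_mul_of_nonneg_right _ hB0
        have : ((X ×ˢ X).filter (fun p => p.1 ≠ p.2)).card ≤ X.card ^ 2 := by
          refine (Finset.card_filter_le _ _).trans ?_
          rw [Finset.card_product, sq]
        exact_mod_cast this

end Vale.Agent.Lib.P012
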