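import Vale.Agent.Lib.P012.DivSum
import Vale.Agent.Lib.P012.OffSum

/-! P012 v3: few rough numbers of a short interval have a bad divisor. -/

open Classical

namespace Vale.Agent.Lib.P012

open Finset

/-- number of multiples of `d` in `(X0 - s, X0]` -/
theorem card_multiples_le (X0 s d : ℕ) (hs : s ≤ X0) :
    (((Finset.Ioc (X0 - s) X0).filter (fun Q => d ∣ Q)).card : ℝ) ≤ (s : ℝ) / d + 1 := by
  have ha : X0 - s ≤ X0 := Nat.sub_le _ _
  have h : (Finset.Ioc 0 X0).filter (fun Q => d ∣ Q) =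
      (Finset.Ioc 0 (X0 - s)).filter (fun Q => d ∣ Q) ∪
        (Finset.Ioc (X0 - s) X0).filter (fun Q => d ∣ Q) := by
    rw [← Finset.filter_union, Finset.Ioc_union_Ioc_eq_Ioc (Nat.zero_le _) ha]
  have hdis : Disjoint ((Finset.Ioc 0 (X0 - s)).filter (fun Q => d ∣ Q))
      ((Finset.Ioc (X0 - s) X0).filter (fun Q => d ∣ Q)) :=
    Finset.disjoint_filter_filter (Finset.Ioc_disjoint_Ioc_of_le le_rfl)
  have hc := congrArg Finset.card h
  rw [Finset.card_union_of_disjoint hdis, Nat.Ioc_filter_dvd_card_eq_div,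
    Nat.Ioc_filter_dvd_card_eq_div] at hc
  have h2 : X0 / d ≤ (X0 - s) / d + s / d + 1 := by
    have h3 : X0 = (X0 - s) + s := by omega
    have h4 := Nat.add_div (a := X0 - s) (b := s) (c := d)
    rcases Nat.eq_zero_or_pos d with hd | hd
    · subst hd; simp
    · have h5 := h4 hd
      rw [← h3] at h5
      rw [h5]
      split_ifs <;> omega
  have h6 : ((Finset.Ioc (X0 - s) X0).filter (fun Q => d ∣ Q)).card ≤ s / d + 1 := by omega
  calc (((Finset.Ioc (X0 - s) X0).filter (fun Q => d ∣ Q)).card : ℝ) ≤ ((s / d + 1 : ℕ) : ℝ) := by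
        exact_mod_cast h6
    _ = ((s / d : ℕ) : ℝ) + 1 := by push_cast; ring
    _ ≤ (s : ℝ) / d + 1 := by
        have := @Nat.cast_div_le ℝ _ _ _ s d
        linarith

/-- `(1 + 1 / (w + 1)) ^ w ≤ 3` -/
theorem one_add_inv_pow_le_three (w : ℕ) : (1 + 1 / ((w + 1 : ℕ) : ℝ)) ^ w ≤ 3 := by
  have hw : (0 : ℝ) < ((w + 1 : ℕ) : ℝ) := by positivity
  have h1 : 1 + 1 / ((w + 1 : ℕ) : ℝ) ≤ Real.exp (1 / ((w + 1 : ℕ) : ℝ)) := by
    have := Real.add_one_le_exp (1 / ((w + 1 : ℕ) : ℝ))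
    linarith
  calc (1 + 1 / ((w + 1 : ℕ) : ℝ)) ^ w ≤ (Real.exp (1 / ((w + 1 : ℕ) : ℝ))) ^ w :=
        pow_le_pow_left₀ (by positivity) h1 w
    _ = Real.exp ((w : ℝ) * (1 / ((w + 1 : ℕ) : ℝ))) := by rw [← Real.exp_nat_mul]
    _ ≤ Real.exp 1 := by
        apply Real.exp_le_exp.2
        rw [mul_one_div, div_le_one hw]
        push_cast
        linarith
    _ ≤ 3 := by
        have := Real.exp_one_lt_d9
        linarith

/-- the pointwise bound for the weight -/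
theorem weight_le (u' X0 s w d : ℕ) (hu' : 1 ≤ u') (hd1 : 1 < d) (hdX : d ≤ X0)
    (hr : Rough (6 * u') d) :
    (2 : ℝ) ^ (5 * Nat.log 2 d / 6) * ((s : ℝ) / d + 1) ≤
      (s : ℝ) * (1 / 2 ^ u') ^ d.primeFactorsList.length +
        2 ^ (5 * Nat.log 2 X0 / 6) * ((w + 1 : ℕ) : ℝ) ^ ((Nat.log 2 X0 + 1) / (6 * u')) *
          (1 / ((w + 1 : ℕ) : ℝ)) ^ d.primeFactorsList.length := by
  have hd0 : 0 < d := by omega
  set Om := d.primeFactorsList.length with hOm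
  set l := Nat.log 2 d with hl
  have h1 : 2 ^ (6 * u' * Om) ≤ d := two_pow_omega_le (6 * u') d hd0 hr
  have h2 : 6 * u' * Om ≤ l := Nat.le_log_of_pow_le (by norm_num) h1
  have h3 : 2 ^ l ≤ d := Nat.pow_log_le_self 2 (by omega)
  have h4 : l ≤ Nat.log 2 X0 := Nat.log_mono_right hdX
  have hdR : (0 : ℝ) < d := by exact_mod_cast hd0
  have hw : (0 : ℝ) < ((w + 1 : ℕ) : ℝ) := by positivity
  have hw1 : (1 : ℝ) ≤ ((w + 1 : ℕ) : ℝ) := by
    exact_mod_cast Nat.succ_le_succ (Nat.zero_le w)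
  -- first part
  have hA : (2 : ℝ) ^ (5 * l / 6) * ((s : ℝ) / d) ≤ (s : ℝ) * (1 / 2 ^ u') ^ Om := by
    have h5 : 5 * l / 6 + u' * Om ≤ l := by
      have : 6 * (u' * Om) ≤ l := by rw [← mul_assoc]; exact h2
      omega
    have h6 : (2 : ℝ) ^ (5 * l / 6) * 2 ^ (u' * Om) ≤ d := by
      rw [← pow_add]
      calc (2 : ℝ) ^ (5 * l / 6 + u' * Om) ≤ 2 ^ l := pow_le_pow_right₀ (by norm_num) h5
        _ ≤ d := by exact_mod_cast h3
    have h7 : (2 : ℝ) ^ (5 * l / 6) / d ≤ 1 / 2 ^ (u' * Om) := by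
      rw [div_le_div_iff₀ hdR (by positivity)]
      linarith
    calc (2 : ℝ) ^ (5 * l / 6) * ((s : ℝ) / d) = (s : ℝ) * ((2 : ℝ) ^ (5 * l / 6) / d) := by ring
      _ ≤ (s : ℝ) * (1 / 2 ^ (u' * Om)) := mul_le_mul_of_nonneg_left h7 (Nat.cast_nonneg _)
      _ = (s : ℝ) * (1 / 2 ^ u') ^ Om := by rw [one_div_pow, ← pow_mul]
  -- second part
  have hB : (2 : ℝ) ^ (5 * l / 6) ≤
      2 ^ (5 * Nat.log 2 X0 / 6) * ((w + 1 : ℕ) : ℝ) ^ ((Nat.log 2 X0 + 1) / (6 * u')) *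
          (1 / ((w + 1 : ℕ) : ℝ)) ^ Om := by
    have h8 : 5 * l / 6 ≤ 5 * Nat.log 2 X0 / 6 := by omega
    have h9 : Om ≤ (Nat.log 2 X0 + 1) / (6 * u') := by
      rw [Nat.le_div_iff_mul_le (by omega)]
      calc Om * (6 * u') = 6 * u' * Om := by ring
        _ ≤ Nat.log 2 X0 + 1 := by omega
    have h10 : (1 : ℝ) ≤ ((w + 1 : ℕ) : ℝ) ^ ((Nat.log 2 X0 + 1) / (6 * u')) *
          (1 / ((w + 1 : ℕ) : ℝ)) ^ Om := by
      rw [one_div_pow, mul_one_div, le_div_iff₀ (by positivity), one_mul]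
      exact pow_le_pow_right₀ hw1 h9
    calc (2 : ℝ) ^ (5 * l / 6) ≤ 2 ^ (5 * Nat.log 2 X0 / 6) := pow_le_pow_right₀ (by norm_num) h8
      _ = 2 ^ (5 * Nat.log 2 X0 / 6) * 1 := by ring
      _ ≤ 2 ^ (5 * Nat.log 2 X0 / 6) * (((w + 1 : ℕ) : ℝ) ^ ((Nat.log 2 X0 + 1) / (6 * u')) *
          (1 / ((w + 1 : ℕ) : ℝ)) ^ Om) := mul_le_mul_of_nonneg_left h10 (by positivity)
      _ = _ := by ring
  calc (2 : ℝ) ^ (5 * l / 6) * ((s : ℝ) / d + 1)
      = (2 : ℝ) ^ (5 * l / 6) * ((s : ℝ) / d) + (2 : ℝ) ^ (5 * l / 6) := by ring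
    _ ≤ _ := add_le_add hA hB

theorem bad_count (X : Finset ℕ) (W u' X0 s : ℕ) (hu' : 1 ≤ u') (hX : ∀ a ∈ X, a < 2 ^ W)
    (hs : s ≤ X0) :
    (((Finset.Ioc (X0 - s) X0).filter
        (fun Q => Rough (6 * u') Q ∧ ∃ d, d ∣ Q ∧ 1 < d ∧ ¬ GoodD X d)).card : ℝ)
      ≤ s * ((1 + 1 / 2 ^ u') ^ (W / (6 * u')) - 1)
        + 3 * 2 ^ (5 * Nat.log 2 X0 / 6) *
          ((W / (6 * u') + 1 : ℕ) : ℝ) ^ ((Nat.log 2 X0 + 1) / (6 * u')) := by
  set u := 6 * u' with hu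
  set w := W / u with hw
  set L0 := Nat.log 2 X0 with hL0
  set K := (L0 + 1) / u with hK
  set y : ℝ := 1 / 2 ^ u' with hy
  set z : ℝ := 1 / ((w + 1 : ℕ) : ℝ) with hz
  set C : ℝ := 2 ^ (5 * L0 / 6) * ((w + 1 : ℕ) : ℝ) ^ K with hC
  set Bd : ℝ := s * ((1 + y) ^ w - 1) + 3 * 2 ^ (5 * L0 / 6) * ((w + 1 : ℕ) : ℝ) ^ K with hBd
  have hy0 : 0 ≤ y := by positivity
  have hz0 : 0 ≤ z := by positivity
  have hC0 : 0 ≤ C := by positivity
  have hupos : 0 < u := by omega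
  have hBd0 : 0 ≤ Bd := by
    have h1 : (1 : ℝ) ≤ (1 + y) ^ w := one_le_pow₀ (by linarith)
    have h2 : (0 : ℝ) ≤ s * ((1 + y) ^ w - 1) :=
      mul_nonneg (Nat.cast_nonneg _) (by linarith)
    have h3 : (0 : ℝ) ≤ 3 * 2 ^ (5 * L0 / 6) * ((w + 1 : ℕ) : ℝ) ^ K := by positivity
    linarith
  set I := Finset.Ioc (X0 - s) X0 with hI
  set D := (Finset.Ioc 1 X0).filter (fun d => Rough u d ∧ ¬ GoodD X d) with hD
  set g : ℕ → ℝ := fun d => (2 : ℝ) ^ (5 * Nat.log 2 d / 6) * ((s : ℝ) / d + 1) with hg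
  have hg0 : ∀ d, 0 ≤ g d := fun d => by positivity
  -- step 1 and 2
  have hsub : I.filter (fun Q => Rough u Q ∧ ∃ d, d ∣ Q ∧ 1 < d ∧ ¬ GoodD X d) ⊆
      D.biUnion (fun d => I.filter (fun Q => d ∣ Q)) := by
    intro Q hQ
    rw [Finset.mem_filter] at hQ
    obtain ⟨hQI, hQr, d, hdQ, hd1, hdb⟩ := hQ
    have hQI' := Finset.mem_Ioc.1 hQI
    rw [Finset.mem_biUnion]
    refine ⟨d, ?_, Finset.mem_filter.2 ⟨hQI, hdQ⟩⟩
    rw [hD, Finset.mem_filter, Finset.mem_Ioc]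
    exact ⟨⟨hd1, (Nat.le_of_dvd (by omega) hdQ).trans hQI'.2⟩, hQr.of_dvd hdQ, hdb⟩
  have hcard : ((I.filter (fun Q => Rough u Q ∧ ∃ d, d ∣ Q ∧ 1 < d ∧ ¬ GoodD X d)).card : ℝ) ≤
      ∑ d ∈ D, ((s : ℝ) / d + 1) := by
    calc ((I.filter (fun Q => Rough u Q ∧ ∃ d, d ∣ Q ∧ 1 < d ∧ ¬ GoodD X d)).card : ℝ)
        ≤ ((D.biUnion (fun d => I.filter (fun Q => d ∣ Q))).card : ℝ) := by
          exact_mod_cast Finset.card_le_card hsub
      _ ≤ ((∑ d ∈ D, (I.filter (fun Q => d ∣ Q)).card : ℕ) : ℝ) := by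
          exact_mod_cast Finset.card_biUnion_le
      _ = ∑ d ∈ D, ((I.filter (fun Q => d ∣ Q)).card : ℝ) := by push_cast; rfl
      _ ≤ ∑ d ∈ D, ((s : ℝ) / d + 1) :=
          Finset.sum_le_sum fun d _ => card_multiples_le X0 s d hs
  refine hcard.trans ?_
  -- step 4
  have hB : ∀ n, 0 < n → n < 2 ^ W → ∑ d ∈ D.filter (fun d => d ∣ n), g d ≤ Bd := by
    intro n hn hnW
    have hnW' : n < 2 ^ (u * (w + 1)) :=
      lt_of_lt_of_le hnW (Nat.pow_le_pow_right (by norm_num) (Nat.lt_mul_div_succ W hupos).le)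
    set T := (n.divisors.filter (Rough u)).filter (fun d => 1 < d) with hT
    have hDT : D.filter (fun d => d ∣ n) ⊆ T := by
      intro d hd
      rw [Finset.mem_filter, hD, Finset.mem_filter, Finset.mem_Ioc] at hd
      rw [hT, Finset.mem_filter, Finset.mem_filter, Nat.mem_divisors]
      exact ⟨⟨⟨hd.2, by omega⟩, hd.1.2.1⟩, hd.1.1.1⟩
    have h1 : ∑ d ∈ D.filter (fun d => d ∣ n), g d ≤
        ∑ d ∈ D.filter (fun d => d ∣ n),
          ((s : ℝ) * y ^ d.primeFactorsList.length + C * z ^ d.primeFactorsList.length) := by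
      refine Finset.sum_le_sum fun d hd => ?_
      rw [Finset.mem_filter, hD, Finset.mem_filter, Finset.mem_Ioc] at hd
      exact weight_le u' X0 s w d hu' hd.1.1.1 hd.1.1.2 hd.1.2.1
    have h2 : ∑ d ∈ D.filter (fun d => d ∣ n),
          ((s : ℝ) * y ^ d.primeFactorsList.length + C * z ^ d.primeFactorsList.length) ≤
        ∑ d ∈ T,
          ((s : ℝ) * y ^ d.primeFactorsList.length + C * z ^ d.primeFactorsList.length) :=
      Finset.sum_le_sum_of_subset_of_nonneg hDT fun d _ _ => by positivity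
    have h3 : ∑ d ∈ T, y ^ d.primeFactorsList.length ≤ (1 + y) ^ w - 1 :=
      sum_rough_divisors_gt_one_omega_le u y hy0 n w hn hnW'
    have h4 : ∑ d ∈ T, z ^ d.primeFactorsList.length ≤ 3 := by
      calc ∑ d ∈ T, z ^ d.primeFactorsList.length
          ≤ ∑ d ∈ n.divisors.filter (Rough u), z ^ d.primeFactorsList.length :=
            Finset.sum_le_sum_of_subset_of_nonneg (Finset.filter_subset _ _)
              fun d _ _ => by positivity
        _ ≤ (1 + z) ^ w := sum_rough_divisors_omega_le u z hz0 n w hn hnW'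
        _ ≤ 3 := one_add_inv_pow_le_three w
    calc ∑ d ∈ D.filter (fun d => d ∣ n), g d
        ≤ ∑ d ∈ T,
          ((s : ℝ) * y ^ d.primeFactorsList.length + C * z ^ d.primeFactorsList.length) :=
          h1.trans h2
      _ = (s : ℝ) * ∑ d ∈ T, y ^ d.primeFactorsList.length +
            C * ∑ d ∈ T, z ^ d.primeFactorsList.length := by
          rw [Finset.sum_add_distrib, Finset.mul_sum, Finset.mul_sum]
      _ ≤ (s : ℝ) * ((1 + y) ^ w - 1) + C * 3 :=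
          add_le_add (mul_le_mul_of_nonneg_left h3 (Nat.cast_nonneg _))
            (mul_le_mul_of_nonneg_left h4 hC0)
      _ = Bd := by rw [hBd, hC]; ring
  have hswap := sum_off_mul_le X W hX D g hg0 Bd hBd0 hB
  -- step 3
  rcases Nat.eq_zero_or_pos X.card with hX0 | hXpos
  · have hXe : X = ∅ := Finset.card_eq_zero.1 hX0
    have hDe : D = ∅ := by
      rw [hD, Finset.filter_eq_empty_iff]
      intro d _ hd
      apply hd.2
      unfold GoodD off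
      rw [hXe]
      simp
    rw [hDe, Finset.sum_empty]
    exact hBd0
  · have hXR : (0 : ℝ) < (X.card : ℝ) ^ 2 := by positivity
    have h5 : (X.card : ℝ) ^ 2 * ∑ d ∈ D, ((s : ℝ) / d + 1) ≤ ∑ d ∈ D, (off X d : ℝ) * g d := by
      rw [Finset.mul_sum]
      refine Finset.sum_le_sum fun d hd => ?_
      rw [hD, Finset.mem_filter] at hd
      have h6 : X.card ^ 2 < off X d * 2 ^ (5 * Nat.log 2 d / 6) := by
        have := hd.2.2
        unfold GoodD at this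
        omega
      have h7 : (X.card : ℝ) ^ 2 ≤ (off X d : ℝ) * 2 ^ (5 * Nat.log 2 d / 6) := by
        exact_mod_cast h6.le
      calc (X.card : ℝ) ^ 2 * ((s : ℝ) / d + 1)
          ≤ ((off X d : ℝ) * 2 ^ (5 * Nat.log 2 d / 6)) * ((s : ℝ) / d + 1) :=
            mul_le_mul_of_nonneg_right h7 (by positivity)
        _ = (off X d : ℝ) * g d := by rw [hg]; ring
    exact le_of_mul_le_mul_left (h5.trans hswap) hXR

end Vale.Agent.Lib.P012
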