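import Mathlib

/-! Module M4 of P012 v2: products of exactly `k` primes of a group. -/

namespace Vale.Agent.Lib.P012

open Finset

/-- products of exactly `k` elements of `G` -/
def kp (G : Finset ℕ) (k : ℕ) : Finset ℕ := (G.powersetCard k).image (fun U => ∏ p ∈ U, p)

theorem mem_kp {G : Finset ℕ} {k x : ℕ} :
    x ∈ kp G k ↔ ∃ U ⊆ G, U.card = k ∧ ∏ p ∈ U, p = x := by
  unfold kp
  simp only [Finset.mem_image, Finset.mem_powersetCard]
  constructor
  · rintro ⟨U, ⟨h1, h2⟩, h3⟩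
    exact ⟨U, h1, h2, h3⟩
  · rintro ⟨U, h1, h2, h3⟩
    exact ⟨U, ⟨h1, h2⟩, h3⟩

theorem card_kp {G : Finset ℕ} (hG : ∀ p ∈ G, p.Prime) (k : ℕ) :
    (kp G k).card = G.card.choose k := by
  unfold kp
  rw [Finset.card_image_of_injOn, Finset.card_powersetCard]
  intro U hU V hV h
  have hU' : U ⊆ G := (Finset.mem_powersetCard.1 hU).1
  have hV' : V ⊆ G := (Finset.mem_powersetCard.1 hV).1
  have h1 := Nat.primeFactors_prod (fun p hp => hG p (hU' hp))
  have h2 := Nat.primeFactors_prod (fun p hp => hG p (hV' hp))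
  simp only at h
  rw [← h1, ← h2, h]

theorem pow_le_choose_of_mul_le (c : ℕ) : ∀ r n : ℕ, c * r ≤ n → c ^ r ≤ n.choose r := by
  intro r
  induction r with
  | zero => intro n _; simp
  | succ r ih =>
    intro n hn
    rcases Nat.eq_zero_or_pos c with rfl | hc
    · simp
    · obtain ⟨n', rfl⟩ : ∃ n', n = n' + 1 := ⟨n - 1, by
        have : c * (r + 1) = c * r + c := by ring
        omega⟩
      have h1 : c * r ≤ n' := by
        have : c * (r + 1) = c * r + c := by ring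
        omega
      have h2 := ih n' h1
      have h3 := Nat.add_one_mul_choose_eq n' r
      -- (n'+1) * C(n',r) = C(n'+1,r+1) * (r+1)
      have h4 : (r + 1) * c ^ (r + 1) ≤ (r + 1) * (n' + 1).choose (r + 1) := by
        calc (r + 1) * c ^ (r + 1) = (c * (r + 1)) * c ^ r := by ring
          _ ≤ (n' + 1) * n'.choose r := Nat.mul_le_mul hn h2
          _ = (n' + 1).choose (r + 1) * (r + 1) := h3
          _ = (r + 1) * (n' + 1).choose (r + 1) := Nat.mul_comm _ _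
      exact Nat.le_of_mul_le_mul_left h4 (Nat.succ_pos r)

theorem pow_le_choose_mul (c r : ℕ) : c ^ r ≤ (c * r).choose r :=
  pow_le_choose_of_mul_le c r (c * r) (le_refl _)

theorem le_of_mem_kp {G : Finset ℕ} {z k x : ℕ} (hz : ∀ p ∈ G, p ≤ 2 ^ z) (hx : x ∈ kp G k) :
    x ≤ 2 ^ (z * k) := by
  obtain ⟨U, hU, hc, rfl⟩ := mem_kp.1 hx
  rw [pow_mul, ← hc]
  exact Finset.prod_le_pow_card U (fun p => p) (2 ^ z) (fun p hp => hz p (hU hp))

theorem one_lt_of_mem_kp {G : Finset ℕ} (hG : ∀ p ∈ G, p.Prime) {k x : ℕ} (hk : 1 ≤ k)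
    (hx : x ∈ kp G k) : 1 < x := by
  obtain ⟨U, hU, hc, rfl⟩ := mem_kp.1 hx
  have hne : U.Nonempty := by rw [← Finset.card_pos]; omega
  obtain ⟨p, hp⟩ := hne
  have h1 : p ∣ ∏ p ∈ U, p := Finset.dvd_prod_of_mem _ hp
  have h2 : 0 < ∏ p ∈ U, p := Finset.prod_pos (fun q hq => (hG q (hU hq)).pos)
  have h3 := Nat.le_of_dvd h2 h1
  have h4 := (hG p (hU hp)).two_le
  omega

theorem dvd_of_mem_kp {G : Finset ℕ} {k x : ℕ} (hx : x ∈ kp G k) : x ∣ ∏ p ∈ G, p := by
  obtain ⟨U, hU, _, rfl⟩ := mem_kp.1 hx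
  exact Finset.prod_dvd_prod_of_subset _ _ _ hU

end Vale.Agent.Lib.P012
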