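import Mathlib

/-! P012 v3: the cofactor identity. If `Q` divides `G = ∑ e i` where the `e i` are six distinct
divisors of `RB` within a factor two of each other, then `Q / (M * RB)` is a sum of six distinct
unit fractions, each at least one twelfth of the total. -/

namespace Vale.Agent.Lib.P012

open Finset

theorem six_terms (e : Fin 6 → ℕ) (RB M Q : ℕ) (hQ0 : 0 < Q) (hM : 0 < M) (hRB : 0 < RB)
    (hdiv : ∀ i, e i ∣ RB) (hinj : Function.Injective e)
    (hwin : ∀ i j, e i ≤ 2 * e j) (hQ : Q ∣ ∑ i, e i) :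
    ∃ S : Finset ℕ, S.card ≤ 6 ∧ (∀ n ∈ S, 1 ≤ n ∧ n * Q ≤ 12 * (M * RB)) ∧
      ∑ n ∈ S, (1 : ℚ) / n = (Q : ℚ) / ((M * RB : ℕ) : ℚ) := by
  obtain ⟨c, hc⟩ := hQ
  have hepos : ∀ i, 0 < e i := fun i => Nat.pos_of_dvd_of_pos (hdiv i) hRB
  have hGpos : 0 < ∑ i, e i :=
    Finset.sum_pos (fun i _ => hepos i) ⟨0, Finset.mem_univ _⟩
  have hcpos : 0 < c := by
    rcases Nat.eq_zero_or_pos c with h | h
    · rw [h, mul_zero] at hc; omega
    · exact h
  have hmul : ∀ i, RB / e i * e i = RB := fun i => Nat.div_mul_cancel (hdiv i)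
  have hqpos : ∀ i, 0 < RB / e i := fun i => Nat.div_pos (Nat.le_of_dvd hRB (hdiv i)) (hepos i)
  set n : Fin 6 → ℕ := fun i => c * M * (RB / e i) with hn
  have hninj : Function.Injective n := by
    intro i j hij
    have h1 : RB / e i = RB / e j :=
      Nat.eq_of_mul_eq_mul_left (Nat.mul_pos hcpos hM) hij
    apply hinj
    have h2 := hmul i
    have h3 := hmul j
    rw [h1] at h2
    exact Nat.eq_of_mul_eq_mul_left (hqpos j) (h2.trans h3.symm)
  refine ⟨Finset.univ.image n, ?_, ?_, ?_⟩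
  · exact le_trans Finset.card_image_le (by simp)
  · intro k hk
    obtain ⟨i, -, rfl⟩ := Finset.mem_image.1 hk
    refine ⟨Nat.mul_pos (Nat.mul_pos hcpos hM) (hqpos i), ?_⟩
    have hG : ∑ j, e j ≤ 12 * e i := by
      calc ∑ j, e j ≤ ∑ _j : Fin 6, 2 * e i := Finset.sum_le_sum (fun j _ => hwin j i)
        _ = 12 * e i := by simp; ring
    calc n i * Q = (Q * c) * (M * (RB / e i)) := by simp only [hn]; ring
      _ = (∑ j, e j) * (M * (RB / e i)) := by rw [hc]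
      _ ≤ (12 * e i) * (M * (RB / e i)) := Nat.mul_le_mul_right _ hG
      _ = 12 * (M * (RB / e i * e i)) := by ring
      _ = 12 * (M * RB) := by rw [hmul i]
  · rw [Finset.sum_image (fun i _ j _ h => hninj h)]
    have hcQ : (c : ℚ) ≠ 0 := by exact_mod_cast hcpos.ne'
    have hMQ : (M : ℚ) ≠ 0 := by exact_mod_cast hM.ne'
    have hRQ : (RB : ℚ) ≠ 0 := by exact_mod_cast hRB.ne'
    have hterm : ∀ i, (1 : ℚ) / (n i : ℚ) = (e i : ℚ) / ((c : ℚ) * M * RB) := by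
      intro i
      have he : (e i : ℚ) ≠ 0 := by exact_mod_cast (hepos i).ne'
      have hq : ((RB / e i : ℕ) : ℚ) ≠ 0 := by exact_mod_cast (hqpos i).ne'
      have h1 : ((RB / e i : ℕ) : ℚ) * (e i : ℚ) = (RB : ℚ) := by exact_mod_cast hmul i
      simp only [hn]
      push_cast
      rw [← h1]
      field_simp
    rw [Finset.sum_congr rfl (fun i _ => hterm i), ← Finset.sum_div]
    have h2 : (∑ i, (e i : ℚ)) = (Q : ℚ) * c := by exact_mod_cast hc
    rw [h2]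
    push_cast
    field_simp

/-- the shape used by the digit expansion: `D = M0 * 2 ^ m * N0 * RB`. -/
theorem six_terms_digit (e : Fin 6 → ℕ) (RB M0 N0 m Q i : ℕ) (hQ0 : 0 < Q) (hM0 : 0 < M0)
    (hN0 : 0 < N0) (hRB : 0 < RB) (hi : i ≤ m)
    (hdiv : ∀ j, e j ∣ RB) (hinj : Function.Injective e)
    (hwin : ∀ j k, e j ≤ 2 * e k) (hQ : Q ∣ ∑ j, e j) :
    ∃ S : Finset ℕ, S.card ≤ 6 ∧
      (∀ n ∈ S, 1 ≤ n ∧ n * (Q * 2 ^ i) ≤ 12 * (M0 * 2 ^ m * N0 * RB)) ∧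
      ∑ n ∈ S, (1 : ℚ) / n = ((Q * 2 ^ i : ℕ) : ℚ) / ((M0 * 2 ^ m * N0 * RB : ℕ) : ℚ) := by
  have hM : 0 < M0 * 2 ^ (m - i) * N0 :=
    Nat.mul_pos (Nat.mul_pos hM0 (Nat.two_pow_pos _)) hN0
  obtain ⟨S, h1, h2, h3⟩ := six_terms e RB (M0 * 2 ^ (m - i) * N0) Q hQ0 hM hRB hdiv hinj hwin hQ
  have hpow : 2 ^ m = 2 ^ (m - i) * 2 ^ i := by
    rw [← pow_add, Nat.sub_add_cancel hi]
  refine ⟨S, h1, ?_, ?_⟩
  · intro n hn
    refine ⟨(h2 n hn).1, ?_⟩
    calc n * (Q * 2 ^ i) = (n * Q) * 2 ^ i := by ring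
      _ ≤ (12 * (M0 * 2 ^ (m - i) * N0 * RB)) * 2 ^ i := Nat.mul_le_mul_right _ (h2 n hn).2
      _ = 12 * (M0 * (2 ^ (m - i) * 2 ^ i) * N0 * RB) := by ring
      _ = _ := by rw [← hpow]
  · rw [h3, hpow]
    have h4 : ((2 : ℚ) ^ i) ≠ 0 := by positivity
    have h5 : ((M0 * 2 ^ (m - i) * N0 * RB : ℕ) : ℚ) ≠ 0 := by
      exact_mod_cast (Nat.mul_pos hM hRB).ne'
    push_cast at h5 ⊢
    field_simp

/-- general window factor `κ`, with the lower bound as well (shape of `Digit` in Defs3) -/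
theorem six_terms_gen (κ : ℕ) (e : Fin 6 → ℕ) (RB M Q : ℕ) (hQ0 : 0 < Q) (hM : 0 < M)
    (hRB : 0 < RB) (hdiv : ∀ i, e i ∣ RB) (hinj : Function.Injective e)
    (hwin : ∀ i j, e i ≤ κ * e j) (hQ : Q ∣ ∑ i, e i) :
    ∃ S : Finset ℕ, S.card ≤ 6 ∧
      (∀ n ∈ S, M * RB ≤ n * Q ∧ n * Q ≤ 6 * κ * (M * RB) ∧ 1 ≤ n) ∧
      ∑ n ∈ S, (1 : ℚ) / n = (Q : ℚ) / ((M : ℚ) * RB) := by
  obtain ⟨c, hc⟩ := hQ
  have hepos : ∀ i, 0 < e i := fun i => Nat.pos_of_dvd_of_pos (hdiv i) hRB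
  have hGpos : 0 < ∑ i, e i :=
    Finset.sum_pos (fun i _ => hepos i) ⟨0, Finset.mem_univ _⟩
  have hcpos : 0 < c := by
    rcases Nat.eq_zero_or_pos c with h | h
    · rw [h, mul_zero] at hc; omega
    · exact h
  have hmul : ∀ i, RB / e i * e i = RB := fun i => Nat.div_mul_cancel (hdiv i)
  have hqpos : ∀ i, 0 < RB / e i := fun i => Nat.div_pos (Nat.le_of_dvd hRB (hdiv i)) (hepos i)
  set n : Fin 6 → ℕ := fun i => c * M * (RB / e i) with hn
  have hninj : Function.Injective n := by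
    intro i j hij
    have h1 : RB / e i = RB / e j :=
      Nat.eq_of_mul_eq_mul_left (Nat.mul_pos hcpos hM) hij
    apply hinj
    have h2 := hmul i
    have h3 := hmul j
    rw [h1] at h2
    exact Nat.eq_of_mul_eq_mul_left (hqpos j) (h2.trans h3.symm)
  refine ⟨Finset.univ.image n, ?_, ?_, ?_⟩
  · exact le_trans Finset.card_image_le (by simp)
  · intro k hk
    obtain ⟨i, -, rfl⟩ := Finset.mem_image.1 hk
    have hG : ∑ j, e j ≤ 6 * κ * e i := by
      calc ∑ j, e j ≤ ∑ _j : Fin 6, κ * e i := Finset.sum_le_sum (fun j _ => hwin j i)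
        _ = 6 * κ * e i := by simp; ring
    have hG' : e i ≤ ∑ j, e j :=
      Finset.single_le_sum (f := e) (fun j _ => Nat.zero_le _) (Finset.mem_univ i)
    have hnQ : n i * Q = (∑ j, e j) * (M * (RB / e i)) := by
      calc n i * Q = (Q * c) * (M * (RB / e i)) := by simp only [hn]; ring
        _ = (∑ j, e j) * (M * (RB / e i)) := by rw [hc]
    refine ⟨?_, ?_, Nat.mul_pos (Nat.mul_pos hcpos hM) (hqpos i)⟩
    · calc M * RB = e i * (M * (RB / e i)) := by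
            conv_lhs => rw [← hmul i]
            ring
        _ ≤ (∑ j, e j) * (M * (RB / e i)) := Nat.mul_le_mul_right _ hG'
        _ = n i * Q := hnQ.symm
    · calc n i * Q = (∑ j, e j) * (M * (RB / e i)) := hnQ
        _ ≤ (6 * κ * e i) * (M * (RB / e i)) := Nat.mul_le_mul_right _ hG
        _ = 6 * κ * (M * (RB / e i * e i)) := by ring
        _ = 6 * κ * (M * RB) := by rw [hmul i]
  · rw [Finset.sum_image (fun i _ j _ h => hninj h)]
    have hcQ : (c : ℚ) ≠ 0 := by exact_mod_cast hcpos.ne'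
    have hMQ : (M : ℚ) ≠ 0 := by exact_mod_cast hM.ne'
    have hRQ : (RB : ℚ) ≠ 0 := by exact_mod_cast hRB.ne'
    have hterm : ∀ i, (1 : ℚ) / (n i : ℚ) = (e i : ℚ) / ((c : ℚ) * M * RB) := by
      intro i
      have he : (e i : ℚ) ≠ 0 := by exact_mod_cast (hepos i).ne'
      have hq : ((RB / e i : ℕ) : ℚ) ≠ 0 := by exact_mod_cast (hqpos i).ne'
      have h1 : ((RB / e i : ℕ) : ℚ) * (e i : ℚ) = (RB : ℚ) := by exact_mod_cast hmul i
      simp only [hn]
      push_cast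
      rw [← h1]
      field_simp
    rw [Finset.sum_congr rfl (fun i _ => hterm i), ← Finset.sum_div]
    have h2 : (∑ i, (e i : ℚ)) = (Q : ℚ) * c := by exact_mod_cast hc
    rw [h2]
    field_simp

end Vale.Agent.Lib.P012
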