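import Vale.Agent.Lib.P012.Defs3
import Vale.Agent.Lib.P012.KProd
import Vale.Agent.Lib.P012.Six

/-! P012 v3, module D2: the six term identity for products of reservoir primes. -/

open Classical

namespace Vale.Agent.Lib.P012

open Finset

theorem succ_pow_le_three_mul (n : ℕ) (hn : 1 ≤ n) : (n + 1) ^ n ≤ 3 * n ^ n := by
  have hn0 : (0 : ℝ) < n := by exact_mod_cast hn
  have h1 : (1 + 1 / (n : ℝ)) ≤ Real.exp (1 / (n : ℝ)) := by
    have := Real.add_one_le_exp (1 / (n : ℝ))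
    linarith
  have h2 : (1 + 1 / (n : ℝ)) ^ n ≤ Real.exp 1 := by
    calc (1 + 1 / (n : ℝ)) ^ n ≤ (Real.exp (1 / (n : ℝ))) ^ n :=
          pow_le_pow_left₀ (by positivity) h1 n
      _ = Real.exp (n * (1 / (n : ℝ))) := by rw [← Real.exp_nat_mul]
      _ = Real.exp 1 := by
          congr 1
          field_simp
  have h3 : Real.exp 1 < 3 := by
    have := Real.exp_one_lt_d9
    linarith
  have h4 : ((n : ℝ) + 1) ^ n = (1 + 1 / (n : ℝ)) ^ n * (n : ℝ) ^ n := by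
    rw [← mul_pow]
    congr 1
    field_simp
  have h5 : ((n : ℝ) + 1) ^ n ≤ 3 * (n : ℝ) ^ n := by
    rw [h4]
    have : (0 : ℝ) ≤ (n : ℝ) ^ n := by positivity
    nlinarith
  exact_mod_cast h5

theorem kp_window {G : Finset ℕ} {t h x : ℕ}
    (hG : ∀ p ∈ G, p.Prime ∧ t ≤ p ∧ 2 * h * p ≤ (2 * h + 1) * t) (hx : x ∈ kp G h) :
    t ^ h ≤ x ∧ (2 * h) ^ h * x ≤ ((2 * h + 1) * t) ^ h := by
  obtain ⟨U, hU, hc, rfl⟩ := mem_kp.1 hx
  constructor
  · rw [← hc]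
    exact Finset.pow_card_le_prod U (fun p => p) t (fun p hp => (hG p (hU hp)).2.1)
  · have h1 : ∏ p ∈ U, (2 * h * p) = (2 * h) ^ h * ∏ p ∈ U, p := by
      rw [Finset.prod_mul_distrib, Finset.prod_const, hc]
    rw [← h1]
    have h2 := Finset.prod_le_pow_card U (fun p => 2 * h * p) _ (fun p hp => (hG p (hU hp)).2.2)
    rwa [hc] at h2

theorem prime_mem_of_dvd_kp {G : Finset ℕ} {h x q : ℕ} (hG : ∀ p ∈ G, p.Prime)
    (hx : x ∈ kp G h) (hq : q.Prime) (hd : q ∣ x) : q ∈ G := by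
  obtain ⟨U, hU, _, rfl⟩ := mem_kp.1 hx
  obtain ⟨p, hp, hqp⟩ := (Prime.dvd_finsetProd_iff hq.prime _).1 hd
  have : q = p := (Nat.prime_dvd_prime_iff_eq hq (hG p (hU hp))).1 hqp
  rw [this]
  exact hU hp

theorem exists_prime_dvd_kp {G : Finset ℕ} {h x : ℕ} (hG : ∀ p ∈ G, p.Prime) (hh : 1 ≤ h)
    (hx : x ∈ kp G h) : ∃ q ∈ G, q.Prime ∧ q ∣ x := by
  obtain ⟨U, hU, hc, rfl⟩ := mem_kp.1 hx
  have hne : U.Nonempty := by rw [← Finset.card_pos]; omega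
  obtain ⟨p, hp⟩ := hne
  exact ⟨p, hU hp, hG p (hU hp), Finset.dvd_prod_of_mem _ hp⟩

theorem block (GA GB : Fin 6 → Finset ℕ) (t h : ℕ) (ht : 1 ≤ t) (hh : 1 ≤ h)
    (hGA : ∀ i, ∀ p ∈ GA i, p.Prime ∧ t ≤ p ∧ 2 * h * p ≤ (2 * h + 1) * t)
    (hGB : ∀ i, ∀ p ∈ GB i, p.Prime ∧ t ≤ p ∧ 2 * h * p ≤ (2 * h + 1) * t)
    (hdA : ∀ i j, i ≠ j → Disjoint (GA i) (GA j)) (hdB : ∀ i j, i ≠ j → Disjoint (GB i) (GB j))
    (hdAB : ∀ i j, Disjoint (GA i) (GB j))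
    (a b : Fin 6 → ℕ) (ha : ∀ i, a i ∈ kp (GA i) h) (hb : ∀ i, b i ∈ kp (GB i) h)
    (Q : ℕ) (hQ : 1 ≤ Q) (hdvd : Q ∣ ∑ i, a i * b i) :
    Digit ((∏ i, ∏ p ∈ GA i, p) * ∏ i, ∏ p ∈ GB i, p) Q := by
  intro M hM
  have hpA : ∀ i, ∀ p ∈ GA i, p.Prime := fun i p hp => (hGA i p hp).1
  have hpB : ∀ i, ∀ p ∈ GB i, p.Prime := fun i p hp => (hGB i p hp).1
  have hRB : 0 < (∏ i, ∏ p ∈ GA i, p) * ∏ i, ∏ p ∈ GB i, p := by
    apply Nat.mul_pos
    · exact Finset.prod_pos (fun i _ => Finset.prod_pos (fun p hp => (hpA i p hp).pos))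
    · exact Finset.prod_pos (fun i _ => Finset.prod_pos (fun p hp => (hpB i p hp).pos))
  have hdiv : ∀ i, a i * b i ∣ (∏ i, ∏ p ∈ GA i, p) * ∏ i, ∏ p ∈ GB i, p := by
    intro i
    apply Nat.mul_dvd_mul
    · exact (dvd_of_mem_kp (ha i)).trans
        (Finset.dvd_prod_of_mem (fun i => ∏ p ∈ GA i, p) (Finset.mem_univ i))
    · exact (dvd_of_mem_kp (hb i)).trans
        (Finset.dvd_prod_of_mem (fun i => ∏ p ∈ GB i, p) (Finset.mem_univ i))
  have hinj : Function.Injective (fun i => a i * b i) := by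
    intro i j hij
    by_contra hne
    obtain ⟨q, hqG, hqp, hqd⟩ := exists_prime_dvd_kp (hpA i) hh (ha i)
    have h1 : q ∣ a j * b j := by
      have : q ∣ a i * b i := Dvd.dvd.mul_right hqd _
      simp only at hij
      rwa [hij] at this
    rcases (Nat.Prime.dvd_mul hqp).1 h1 with h2 | h2
    · have := prime_mem_of_dvd_kp (hpA j) (ha j) hqp h2
      exact (Finset.disjoint_left.1 (hdA i j hne)) hqG this
    · have := prime_mem_of_dvd_kp (hpB j) (hb j) hqp h2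
      exact (Finset.disjoint_left.1 (hdAB i j)) hqG this
  have hwin : ∀ i j, a i * b i ≤ 3 * (a j * b j) := by
    intro i j
    obtain ⟨-, hai⟩ := kp_window (hGA i) (ha i)
    obtain ⟨-, hbi⟩ := kp_window (hGB i) (hb i)
    obtain ⟨haj, -⟩ := kp_window (hGA j) (ha j)
    obtain ⟨hbj, -⟩ := kp_window (hGB j) (hb j)
    have h3 := succ_pow_le_three_mul (2 * h) (by omega)
    have hpos : 0 < (2 * h) ^ (2 * h) := by positivity
    have key : (2 * h) ^ (2 * h) * (a i * b i) ≤ (2 * h) ^ (2 * h) * (3 * (a j * b j)) := by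
      calc (2 * h) ^ (2 * h) * (a i * b i)
          = ((2 * h) ^ h * a i) * ((2 * h) ^ h * b i) := by
            rw [two_mul h, pow_add]; ring
        _ ≤ ((2 * h + 1) * t) ^ h * ((2 * h + 1) * t) ^ h := Nat.mul_le_mul hai hbi
        _ = (2 * h + 1) ^ (2 * h) * (t ^ h * t ^ h) := by
            rw [mul_pow, two_mul h, pow_add]; ring
        _ ≤ (3 * (2 * h) ^ (2 * h)) * (a j * b j) :=
            Nat.mul_le_mul h3 (Nat.mul_le_mul haj hbj)
        _ = (2 * h) ^ (2 * h) * (3 * (a j * b j)) := by ring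
    exact Nat.le_of_mul_le_mul_left key hpos
  have := six_terms_gen 3 (fun i => a i * b i) _ M Q hQ hM hRB hdiv hinj hwin hdvd
  simpa using this

end Vale.Agent.Lib.P012
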