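import Vale.Agent.Lib.P012.CoverGen

/-! P012: the general covering lemma in the agreed shape. -/

namespace Vale.Agent.Lib.P012

open Finset

theorem cover {Q : ℕ} (hQ : 0 < Q) (A B : Fin 6 → Finset ℕ) (ε : ℕ → ℝ) (hε : ∀ d, 0 ≤ ε d)
    (hne : ∀ i, (A i).Nonempty ∧ (B i).Nonempty)
    (hA : ∀ d ∈ Q.divisors, 1 < d → ∀ i, (energy (A i) d : ℝ) ≤ ε d * ((A i).card : ℝ) ^ 2)
    (hB : ∀ d ∈ Q.divisors, 1 < d → ∀ i, (energy (B i) d : ℝ) ≤ ε d * ((B i).card : ℝ) ^ 2)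
    (hsum : ∑ d ∈ Q.divisors.filter (fun d => 1 < d), (d : ℝ) ^ 4 * ε d ^ 6 < 1) (x : ℕ) :
    ∃ a b : Fin 6 → ℕ, (∀ i, a i ∈ A i ∧ b i ∈ B i) ∧ (∑ i, a i * b i) ≡ x [MOD Q] := by
  have hset : Q.divisors.erase 1 = Q.divisors.filter (fun d => 1 < d) := by
    ext d
    simp only [Finset.mem_erase, Finset.mem_filter, Nat.mem_divisors]
    constructor
    · rintro ⟨h1, h2, h3⟩
      have : 0 < d := Nat.pos_of_dvd_of_pos h2 hQ
      exact ⟨⟨h2, h3⟩, by omega⟩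
    · rintro ⟨⟨h2, h3⟩, h1⟩
      exact ⟨by omega, h2, h3⟩
  obtain ⟨a, b, ha, hb, hab⟩ := cover_general Q hQ A B (fun i => (hne i).1) (fun i => (hne i).2)
    ε hε
    (fun i d hd h1 => by
      rw [mul_comm]
      exact hA d (Nat.mem_divisors.2 ⟨hd, hQ.ne'⟩) h1 i)
    (fun i d hd h1 => by
      rw [mul_comm]
      exact hB d (Nat.mem_divisors.2 ⟨hd, hQ.ne'⟩) h1 i)
    (by rw [hset]; exact hsum) x
  exact ⟨a, b, fun i => ⟨ha i, hb i⟩, hab⟩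

end Vale.Agent.Lib.P012
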