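import Vale.Agent.Lib.P012.Fourier

/-! P012: the covering lemma by additive characters for an arbitrary modulus `Q`.
Frequencies are grouped by their reduced modulus `Q / gcd (ξ, Q)`. -/

namespace Vale.Agent.Lib.P012

open Finset

theorem gen_arith1 (Q v : ℕ) :
    ((Q / Nat.gcd Q v : ℕ) : ZMod Q) * (v : ZMod Q) = 0 := by
  rw [← Nat.cast_mul, ZMod.natCast_eq_zero_iff]
  set g := Nat.gcd Q v with hg
  obtain ⟨k, hk⟩ : g ∣ v := Nat.gcd_dvd_right Q v
  have h1 : Q / g * v = Q / g * g * k := by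
    rw [hk]
    ring
  rw [h1, Nat.div_mul_cancel (Nat.gcd_dvd_left Q v)]
  exact Dvd.intro _ rfl

theorem gen_arith2 (Q : ℕ) (hQ : 0 < Q) (v a a' : ℕ)
    (h : (v : ZMod Q) * (a : ZMod Q) = (v : ZMod Q) * (a' : ZMod Q)) :
    a ≡ a' [MOD (Q / Nat.gcd Q v)] := by
  rw [← Nat.cast_mul, ← Nat.cast_mul, ZMod.natCast_eq_natCast_iff] at h
  exact Nat.ModEq.cancel_left_div_gcd hQ h

theorem gen_fibre_card (Q : ℕ) [NeZero Q] (d : ℕ) (hd : d ∣ Q) :
    ((univ : Finset (ZMod Q)).filter (fun ξ => Q / Nat.gcd Q ξ.val = d)).card ≤ d := by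
  have hQ : 0 < Q := Nat.pos_of_ne_zero (NeZero.ne Q)
  have hdpos : 0 < d := Nat.pos_of_dvd_of_pos hd hQ
  have hgpos : 0 < Q / d := Nat.div_pos (Nat.le_of_dvd hQ hd) hdpos
  have hg : ∀ ξ ∈ (univ : Finset (ZMod Q)).filter (fun ξ => Q / Nat.gcd Q ξ.val = d),
      (Q / d) ∣ ξ.val := by
    intro ξ hξ
    rw [Finset.mem_filter] at hξ
    rw [← hξ.2, Nat.div_div_self (Nat.gcd_dvd_left Q ξ.val) hQ.ne']
    exact Nat.gcd_dvd_right Q ξ.val
  have hcr : (Finset.range d).card = d := Finset.card_range d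
  refine le_trans ?_ hcr.le
  apply Finset.card_le_card_of_injOn (fun ξ => ξ.val / (Q / d))
  · intro ξ _
    rw [Finset.mem_coe, Finset.mem_range]
    apply Nat.div_lt_of_lt_mul
    rw [Nat.div_mul_cancel hd]
    exact ZMod.val_lt ξ
  · intro ξ hξ ξ' hξ' h
    have h1 := hg ξ (Finset.mem_coe.1 hξ)
    have h2 := hg ξ' (Finset.mem_coe.1 hξ')
    apply ZMod.val_injective
    have h' : ξ.val / (Q / d) = ξ'.val / (Q / d) := h
    rw [← Nat.div_mul_cancel h1, ← Nat.div_mul_cancel h2, h']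

theorem gen_red_mem (Q : ℕ) [NeZero Q] (ξ : ZMod Q) (hξ : ξ ≠ 0) :
    Q / Nat.gcd Q ξ.val ∈ Q.divisors.erase 1 := by
  have hQ : 0 < Q := Nat.pos_of_ne_zero (NeZero.ne Q)
  rw [Finset.mem_erase, Nat.mem_divisors]
  refine ⟨?_, Nat.div_dvd_of_dvd (Nat.gcd_dvd_left Q ξ.val), hQ.ne'⟩
  intro h
  apply hξ
  rw [← ZMod.val_eq_zero]
  apply Nat.eq_zero_of_dvd_of_lt _ (ZMod.val_lt ξ)
  have h1 : Nat.gcd Q ξ.val = Q := by
    have h2 := Nat.div_mul_cancel (Nat.gcd_dvd_left Q ξ.val)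
    rw [h, one_mul] at h2
    exact h2
  have h3 := Nat.gcd_dvd_right Q ξ.val
  rwa [h1] at h3

/-- Covering lemma for a general modulus: if the twelve sets have small energy modulo every
divisor `d > 1` of `Q`, then every residue class mod `Q` contains a sum `∑ a i * b i`. -/
theorem cover_general (Q : ℕ) (hQ : 0 < Q)
    (A B : Fin 6 → Finset ℕ) (hAne : ∀ i, (A i).Nonempty) (hBne : ∀ i, (B i).Nonempty)
    (τ : ℕ → ℝ) (hτ : ∀ d, 0 ≤ τ d)
    (hA : ∀ i, ∀ d, d ∣ Q → 1 < d → (energy (A i) d : ℝ) ≤ ((A i).card : ℝ) ^ 2 * τ d)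
    (hB : ∀ i, ∀ d, d ∣ Q → 1 < d → (energy (B i) d : ℝ) ≤ ((B i).card : ℝ) ^ 2 * τ d)
    (hsmall : ∑ d ∈ Q.divisors.erase 1, (d : ℝ) ^ 4 * τ d ^ 6 < 1) (m : ℕ) :
    ∃ a b : Fin 6 → ℕ, (∀ i, a i ∈ A i) ∧ (∀ i, b i ∈ B i) ∧
      (∑ i, a i * b i) ≡ m [MOD Q] := by
  have hne : NeZero Q := ⟨hQ.ne'⟩
  by_contra hcon
  push Not at hcon
  set main : ℝ := ∏ i, (((A i).card : ℝ) * ((B i).card : ℝ)) with hmain
  have hmainpos : 0 < main := by
    apply Finset.prod_pos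
    intro i _
    have h1 : (0 : ℝ) < (A i).card := by exact_mod_cast (hAne i).card_pos
    have h2 : (0 : ℝ) < (B i).card := by exact_mod_cast (hBne i).card_pos
    positivity
  have hno : ∀ f ∈ Fintype.piFinset (fun i => A i ×ˢ B i),
      (∑ i, ((f i).1 : ZMod Q) * ((f i).2 : ZMod Q)) ≠ (m : ZMod Q) := by
    intro f hf h
    rw [Fintype.mem_piFinset] at hf
    apply hcon (fun i => (f i).1) (fun i => (f i).2)
      (fun i => (Finset.mem_product.1 (hf i)).1) (fun i => (Finset.mem_product.1 (hf i)).2)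
    rw [← ZMod.natCast_eq_natCast_iff]
    push_cast
    exact h
  have hle := main_le_of_not_hit A B (m : ZMod Q) hno
  set F : ℕ → ℝ := fun d => (d : ℝ) ^ 3 * τ d ^ 6 * main with hF
  have hFnn : ∀ d : ℕ, 0 ≤ F d := by
    intro d
    have := hτ d
    simp only [hF]
    positivity
  have hpt : ∀ ξ ∈ (univ : Finset (ZMod Q)).erase 0,
      ∏ i, ‖bsum (A i) (B i) ξ‖ ≤ F (Q / Nat.gcd Q ξ.val) := by
    intro ξ hξ
    have hmem := gen_red_mem Q ξ (Finset.ne_of_mem_erase hξ)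
    set d := Q / Nat.gcd Q ξ.val with hd
    have hdQ : d ∣ Q := Nat.dvd_of_mem_divisors (Finset.mem_of_mem_erase hmem)
    have hdpos : 0 < d := Nat.pos_of_dvd_of_pos hdQ hQ
    have hd1 : 1 < d := by
      have := Finset.ne_of_mem_erase hmem
      omega
    have e1 : ((d : ℕ) : ZMod Q) * ξ = 0 := by
      have := gen_arith1 Q ξ.val
      rwa [ZMod.natCast_zmod_val] at this
    have e2 : ∀ a a' : ℕ, ξ * (a : ZMod Q) = ξ * (a' : ZMod Q) → a ≡ a' [MOD d] := by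
      intro a a' h
      apply gen_arith2 Q hQ ξ.val a a'
      rwa [ZMod.natCast_zmod_val]
    have hτd := hτ d
    have hb : ∀ i, ‖bsum (A i) (B i) ξ‖ ^ 2 ≤
        (Real.sqrt (d : ℝ) * τ d) ^ 2 * (((A i).card : ℝ) * ((B i).card : ℝ)) ^ 2 := by
      intro i
      have h1 := bsum_norm_sq_le (A i) (B i) ξ d hdpos e1 e2
      have h2 := hA i d hdQ hd1
      have h3 := hB i d hdQ hd1
      have h4 : (0 : ℝ) ≤ (d : ℝ) := Nat.cast_nonneg _
      have h5 : (0 : ℝ) ≤ ((A i).card : ℝ) ^ 2 * τ d := by positivity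
      calc ‖bsum (A i) (B i) ξ‖ ^ 2
          ≤ (d : ℝ) * energy (A i) d * energy (B i) d := h1
        _ ≤ (d : ℝ) * (((A i).card : ℝ) ^ 2 * τ d) * (((B i).card : ℝ) ^ 2 * τ d) := by
            apply mul_le_mul _ h3 (Nat.cast_nonneg _) (mul_nonneg h4 h5)
            exact mul_le_mul_of_nonneg_left h2 h4
        _ = _ := by
            rw [mul_pow, Real.sq_sqrt h4]
            ring
    have := prod_bound (fun i => ‖bsum (A i) (B i) ξ‖)
      (fun i => ((A i).card : ℝ) * ((B i).card : ℝ))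
      (Real.sqrt (d : ℝ) * τ d)
      (fun i => norm_nonneg _) (fun i => by positivity) (by positivity) hb
    refine this.trans (le_of_eq ?_)
    have h4 : (0 : ℝ) ≤ (d : ℝ) := Nat.cast_nonneg _
    have h6 : Real.sqrt (d : ℝ) ^ 6 = (d : ℝ) ^ 3 := by
      calc Real.sqrt (d : ℝ) ^ 6 = (Real.sqrt (d : ℝ) ^ 2) ^ 3 := by ring
        _ = _ := by rw [Real.sq_sqrt h4]
    simp only [hF]
    rw [mul_pow, h6]
  have hsum1 : ∑ ξ ∈ (univ : Finset (ZMod Q)).erase 0, F (Q / Nat.gcd Q ξ.val) ≤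
      ∑ d ∈ Q.divisors.erase 1, (d : ℝ) * F d := by
    rw [← Finset.sum_fiberwise_of_maps_to (s := (univ : Finset (ZMod Q)).erase 0)
      (t := Q.divisors.erase 1) (g := fun ξ => Q / Nat.gcd Q ξ.val)
      (fun ξ hξ => gen_red_mem Q ξ (Finset.ne_of_mem_erase hξ))]
    refine Finset.sum_le_sum fun d hd => ?_
    have hdQ : d ∣ Q := Nat.dvd_of_mem_divisors (Finset.mem_of_mem_erase hd)
    have h1 : ∑ ξ ∈ ((univ : Finset (ZMod Q)).erase 0).filter
        (fun ξ => Q / Nat.gcd Q ξ.val = d), F (Q / Nat.gcd Q ξ.val) =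
        ((((univ : Finset (ZMod Q)).erase 0).filter
        (fun ξ => Q / Nat.gcd Q ξ.val = d)).card : ℝ) * F d := by
      rw [← nsmul_eq_mul, ← Finset.sum_const]
      refine Finset.sum_congr rfl fun ξ hξ => ?_
      rw [(Finset.mem_filter.1 hξ).2]
    rw [h1]
    apply mul_le_mul_of_nonneg_right _ (hFnn d)
    have h2 : (((univ : Finset (ZMod Q)).erase 0).filter
        (fun ξ => Q / Nat.gcd Q ξ.val = d)).card ≤ d :=
      le_trans (Finset.card_le_card (Finset.filter_subset_filter _ (Finset.erase_subset _ _)))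
        (gen_fibre_card Q d hdQ)
    exact_mod_cast h2
  have hsum2 : ∑ d ∈ Q.divisors.erase 1, (d : ℝ) * F d =
      (∑ d ∈ Q.divisors.erase 1, (d : ℝ) ^ 4 * τ d ^ 6) * main := by
    rw [Finset.sum_mul]
    refine Finset.sum_congr rfl fun d _ => ?_
    simp only [hF]
    ring
  have hfinal : main ≤ (∑ d ∈ Q.divisors.erase 1, (d : ℝ) ^ 4 * τ d ^ 6) * main := by
    calc main ≤ _ := hle
      _ ≤ _ := Finset.sum_le_sum hpt
      _ ≤ _ := hsum1
      _ = _ := hsum2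
  have : (∑ d ∈ Q.divisors.erase 1, (d : ℝ) ^ 4 * τ d ^ 6) * main < 1 * main :=
    mul_lt_mul_of_pos_right hsmall hmainpos
  linarith

end Vale.Agent.Lib.P012
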