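import Mathlib

/-! Basic definitions for P012 (short Egyptian fractions). -/

namespace Vale.Agent.Lib.P012

/-- `m` is a sum of at most `T` distinct divisors of `N`. -/
def Rep (N T m : ℕ) : Prop :=
  ∃ S : Finset ℕ, S ⊆ N.divisors ∧ S.card ≤ T ∧ ∑ d ∈ S, d = m

/-- Every `m ≤ N` is a sum of at most `T` distinct divisors of `N`. -/
def Prac (N T : ℕ) : Prop := ∀ m ≤ N, Rep N T m

/-- Number of ordered pairs of elements of `X` that are congruent mod `m` (diagonal included). -/
def energy (X : Finset ℕ) (m : ℕ) : ℕ :=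
  ((X ×ˢ X).filter (fun p => p.1 ≡ p.2 [MOD m])).card

/-- Number of ordered pairs of distinct elements of `X` that are congruent mod `m`. -/
def off (X : Finset ℕ) (m : ℕ) : ℕ :=
  ((X ×ˢ X).filter (fun p => p.1 ≠ p.2 ∧ p.1 ≡ p.2 [MOD m])).card

end Vale.Agent.Lib.P012
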