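import Vale.Agent.Lib.P012.Defs

/-! P012 v3 (order `log log b`): definitions. -/

namespace Vale.Agent.Lib.P012

/-- all prime factors of `n` are at least `2^u` -/
def Rough (u n : ℕ) : Prop := ∀ p : ℕ, p.Prime → p ∣ n → 2 ^ u ≤ p

/-- `d` is a good modulus for the set `X` (few collisions mod `d`) -/
def GoodD (X : Finset ℕ) (d : ℕ) : Prop := off X d * 2 ^ (5 * Nat.log 2 d / 6) ≤ X.card ^ 2

/-- `Q` is rough and all its divisors `> 1` are good for all the sets `A i`, `B i` -/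
def GoodQ (A B : Fin 6 → Finset ℕ) (u Q : ℕ) : Prop :=
  Rough u Q ∧ ∀ i d, d ∣ Q → 1 < d → GoodD (A i) d ∧ GoodD (B i) d

/-- `Q / (M * RB)` is, for every `M`, a sum of at most six distinct unit fractions of comparable
size -/
def Digit (RB Q : ℕ) : Prop :=
  ∀ M : ℕ, 1 ≤ M → ∃ S : Finset ℕ, S.card ≤ 6 ∧
    (∀ n ∈ S, M * RB ≤ n * Q ∧ n * Q ≤ 18 * (M * RB) ∧ 1 ≤ n) ∧
    ∑ n ∈ S, (1 : ℚ) / n = (Q : ℚ) / ((M : ℚ) * RB)

/-- `num / den` is a sum of at most `T` distinct unit fractions with denominators in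
`[den / num, den]` -/
def Expa (num den T : ℕ) : Prop :=
  ∃ S : Finset ℕ, S.card ≤ T ∧ (∀ n ∈ S, den ≤ n * num ∧ n ≤ den ∧ 1 ≤ n) ∧
    ∑ n ∈ S, (1 : ℚ) / n = (num : ℚ) / den

/-- bit length reachable with `t` digits -/
def fstep (lmin LY : ℕ) : ℕ → ℕ
  | 0 => lmin
  | t + 1 => fstep lmin LY t + min (fstep lmin LY t) LY / 16

/-- upper bound for the sum of `1/p` over the primes below `2^k` (sieve module) -/
def LL (k : ℕ) : ℕ := 4 * (Nat.log 2 k + 1) + 2

end Vale.Agent.Lib.P012
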