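import Vale.Agent.Lib.P012.Defs3

/-! Module E of P012 v3: digit expansion with distinctness by size. -/

open Classical

namespace Vale.Agent.Lib.P012

theorem Expa.mono {num den T T' : ℕ} (h : Expa num den T) (hT : T ≤ T') : Expa num den T' := by
  obtain ⟨S, h1, h2, h3⟩ := h
  exact ⟨S, le_trans h1 hT, h2, h3⟩

theorem tail_expa (β J den E : ℕ) (hβ : 2 ≤ β) (hden0 : 0 < den)
    (hden : (β - 1).factorial * β ^ J ∣ den) (hE : E < β ^ J) : Expa E den J := by
  induction J generalizing E with
  | zero =>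
    have hE0 : E = 0 := by simpa using hE
    subst hE0
    exact ⟨∅, by simp, by simp, by simp⟩
  | succ J ih =>
    have hβJ : 0 < β ^ J := by positivity
    have hden' : (β - 1).factorial * β ^ J ∣ den := by
      refine dvd_trans ?_ hden
      exact Nat.mul_dvd_mul_left _ (pow_dvd_pow β (Nat.le_succ J))
    set c := E / β ^ J with hc
    set E' := E % β ^ J with hE'
    have hE'lt : E' < β ^ J := Nat.mod_lt _ hβJ
    have hsplit : E = c * β ^ J + E' := by
      rw [hc, hE', mul_comm]
      exact (Nat.div_add_mod E (β ^ J)).symm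
    have hcβ : c < β := by
      rw [hc, Nat.div_lt_iff_lt_mul hβJ, mul_comm, ← pow_succ]
      exact hE
    obtain ⟨S', hS'c, hS'b, hS's⟩ := ih E' hden' hE'lt
    rcases Nat.eq_zero_or_pos c with hc0 | hcpos
    · have : E = E' := by rw [hsplit, hc0]; simp
      rw [this]
      exact ⟨S', by omega, hS'b, hS's⟩
    · -- the new denominator
      have hcdvd : c ∣ (β - 1).factorial := Nat.dvd_factorial hcpos (by omega)
      have hdvd : c * β ^ J ∣ den := dvd_trans (Nat.mul_dvd_mul_right hcdvd _) hden'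
      obtain ⟨n, hn⟩ := hdvd
      have hnpos : 0 < n := by
        rcases Nat.eq_zero_or_pos n with h | h
        · rw [h] at hn; simp at hn; omega
        · exact h
      have hcJ : 0 < c * β ^ J := Nat.mul_pos hcpos hβJ
      have hnotin : n ∉ S' := by
        intro hmem
        obtain ⟨h1, _, _⟩ := hS'b n hmem
        have h2 : n * E' < n * (c * β ^ J) := by
          apply Nat.mul_lt_mul_of_pos_left _ hnpos
          calc E' < β ^ J := hE'lt
            _ ≤ c * β ^ J := Nat.le_mul_of_pos_left _ hcpos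
        have h3 : n * (c * β ^ J) = den := by rw [hn]; ring
        omega
      refine ⟨insert n S', ?_, ?_, ?_⟩
      · rw [Finset.card_insert_of_notMem hnotin]
        omega
      · intro k hk
        rcases Finset.mem_insert.mp hk with h | h
        · subst h
          refine ⟨?_, ?_, hnpos⟩
          · calc den = k * (c * β ^ J) := by rw [hn]; ring
              _ ≤ k * E := Nat.mul_le_mul_left _ (by rw [hsplit]; exact Nat.le_add_right _ _)
          · rw [hn]
            exact Nat.le_mul_of_pos_left _ hcJ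
        · obtain ⟨h1, h2, h3⟩ := hS'b k h
          refine ⟨le_trans h1 (Nat.mul_le_mul_left _ (Nat.mod_le _ _)), h2, h3⟩
      · rw [Finset.sum_insert hnotin, hS's]
        have hdenQ : (den : ℚ) = (c * β ^ J : ℕ) * (n : ℚ) := by
          rw [hn]; push_cast; ring
        have hnQ : (n : ℚ) ≠ 0 := by exact_mod_cast hnpos.ne'
        have hcJQ : ((c * β ^ J : ℕ) : ℚ) ≠ 0 := by exact_mod_cast hcJ.ne'
        have hEQ : (E : ℚ) = (c * β ^ J : ℕ) + (E' : ℚ) := by
          exact_mod_cast hsplit
        rw [hEQ, add_div]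
        congr 1
        rw [hdenQ]
        field_simp

lemma fstep_le_succ (lmin LY t : ℕ) : fstep lmin LY t ≤ fstep lmin LY (t + 1) := by
  simp [fstep]

lemma fstep_mono (lmin LY : ℕ) : Monotone (fstep lmin LY) :=
  monotone_nat_of_le_succ (fstep_le_succ lmin LY)

lemma lmin_le_fstep (lmin LY t : ℕ) : lmin ≤ fstep lmin LY t :=
  fstep_mono lmin LY (Nat.zero_le t)

theorem expansion (RB F m lmin LY T0 M0 : ℕ) (hRB : 1 ≤ RB) (hF : 1 ≤ F) (hM0 : 1 ≤ M0)
    (hl : 96 ≤ lmin) (hlL : lmin ≤ LY)
    (hdig : ∀ X0, lmin ≤ Nat.log 2 X0 → Nat.log 2 X0 ≤ LY →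
      ∃ Q, X0 - 2 ^ (Nat.log 2 X0 - Nat.log 2 X0 / 16) < Q ∧ Q ≤ X0 ∧ Digit RB Q)
    (htail : ∀ E, E < 2 ^ lmin → Expa E (M0 * 2 ^ m * F * RB) T0) :
    ∀ t E, E < 2 ^ fstep lmin LY t → E < 2 ^ m → Expa E (M0 * 2 ^ m * F * RB) (6 * t + T0) := by
  intro t
  induction t with
  | zero =>
    intro E hE _
    simpa using htail E hE
  | succ k ih =>
    intro E hE hEm
    set den := M0 * 2 ^ m * F * RB with hden
    set Lk := fstep lmin LY k with hLk
    by_cases hsmall : E < 2 ^ Lk
    · exact (ih E hsmall hEm).mono (by omega)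
    have hbig : 2 ^ Lk ≤ E := not_lt.mp hsmall
    have hE0 : E ≠ 0 := by
      have : 0 < 2 ^ Lk := by positivity
      omega
    set l := Nat.log 2 E with hl'
    have hl1 : 2 ^ l ≤ E := Nat.pow_log_le_self 2 hE0
    have hl2 : E < 2 ^ (l + 1) := Nat.lt_pow_succ_log_self (by norm_num) E
    have hLkl : Lk ≤ l := by
      have : 2 ^ Lk < 2 ^ (l + 1) := lt_of_le_of_lt hbig hl2
      have := (Nat.pow_lt_pow_iff_right (by norm_num : 1 < 2)).mp this
      omega
    have hlL' : l < Lk + min Lk LY / 16 := by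
      have h1 : 2 ^ l < 2 ^ fstep lmin LY (k + 1) := lt_of_le_of_lt hl1 hE
      have := (Nat.pow_lt_pow_iff_right (by norm_num : 1 < 2)).mp h1
      simpa [fstep] using this
    have hlm : l < m := by
      have h1 : 2 ^ l < 2 ^ m := lt_of_le_of_lt hl1 hEm
      exact (Nat.pow_lt_pow_iff_right (by norm_num : 1 < 2)).mp h1
    have hlminLk : lmin ≤ Lk := lmin_le_fstep lmin LY k
    set l0 := min l LY with hl0
    set i := l - l0 with hi
    have hl0l : l0 ≤ l := min_le_left _ _
    have hl0max : l0 ≤ LY := min_le_right _ _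
    have hl0min : lmin ≤ l0 := le_min (le_trans hlminLk hLkl) hlL
    have him : i ≤ m := by omega
    have hli : l = l0 + i := by omega
    set X0 := E / 2 ^ i with hX0
    have h2i : 0 < 2 ^ i := by positivity
    have hX1 : 2 ^ l0 ≤ X0 := by
      rw [hX0, Nat.le_div_iff_mul_le h2i, ← pow_add, ← hli]
      exact hl1
    have hX2 : X0 < 2 ^ (l0 + 1) := by
      rw [hX0, Nat.div_lt_iff_lt_mul h2i, ← pow_add]
      have : l0 + 1 + i = l + 1 := by omega
      rw [this]
      exact hl2
    have hXne : X0 ≠ 0 := by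
      have : 0 < 2 ^ l0 := by positivity
      omega
    have hlogX : Nat.log 2 X0 = l0 := by
      rw [Nat.log_eq_iff (Or.inr ⟨by norm_num, hXne⟩)]
      exact ⟨hX1, hX2⟩
    obtain ⟨Q, hQ2', hQ1, hQg⟩ := hdig X0 (by rw [hlogX]; exact hl0min) (by rw [hlogX]; exact hl0max)
    rw [hlogX] at hQ2'
    set c := l0 - l0 / 16 with hc
    have hQ2 : X0 < Q + 2 ^ c := by omega
    -- basic size facts
    have hXE : X0 * 2 ^ i ≤ E := Nat.div_mul_le_self E (2 ^ i)
    have hEX : E < (X0 + 1) * 2 ^ i := by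
      have := Nat.lt_mul_div_succ E h2i
      rw [mul_comm]
      exact this
    have hQE : Q * 2 ^ i ≤ E := le_trans (Nat.mul_le_mul_right _ hQ1) hXE
    set E' := E - Q * 2 ^ i with hE'
    have hEsplit : E = Q * 2 ^ i + E' := by omega
    have hE'lt : E' < 2 ^ c * 2 ^ i := by
      have h1 : (X0 + 1) * 2 ^ i ≤ (Q + 2 ^ c) * 2 ^ i := Nat.mul_le_mul_right _ (by omega)
      have h2 : (Q + 2 ^ c) * 2 ^ i = Q * 2 ^ i + 2 ^ c * 2 ^ i := by ring
      omega
    have hcLk : c + i ≤ Lk := by
      have h1 : min Lk LY / 16 ≤ l0 / 16 :=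
        Nat.div_le_div_right (min_le_min_right LY hLkl)
      have h2 : l0 / 16 ≤ l0 := Nat.div_le_self _ _
      omega
    have hE'Lk : E' < 2 ^ Lk := by
      calc E' < 2 ^ c * 2 ^ i := hE'lt
        _ = 2 ^ (c + i) := by rw [pow_add]
        _ ≤ 2 ^ Lk := Nat.pow_le_pow_right (by norm_num) hcLk
    have hE'm : E' < 2 ^ m := lt_of_le_of_lt (Nat.sub_le _ _) hEm
    -- Q is much larger than 2 ^ c
    have hQbig : 63 * 2 ^ c < Q := by
      have h5 : 6 ≤ l0 / 16 := by omega
      have h1 : 2 ^ l0 = 2 ^ (l0 / 16) * 2 ^ c := by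
        rw [← pow_add]
        congr 1
        have : l0 / 16 ≤ l0 := Nat.div_le_self _ _
        omega
      have h2 : 2 ^ 6 ≤ 2 ^ (l0 / 16) := Nat.pow_le_pow_right (by norm_num) h5
      have h3 : 64 * 2 ^ c ≤ 2 ^ l0 := by
        rw [h1]
        exact Nat.mul_le_mul_right _ (by simpa using h2)
      omega
    have hcpos : 0 < 2 ^ c := by positivity
    set M := M0 * 2 ^ (m - i) * F with hM
    have hMpos : 1 ≤ M := by
      have : 0 < M0 * 2 ^ (m - i) * F := by positivity
      exact this
    have hdenM : den = M * RB * 2 ^ i := by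
      have h2 : 2 ^ m = 2 ^ (m - i) * 2 ^ i := by
        rw [← pow_add]
        congr 1
        omega
      rw [hden, hM, h2]
      ring
    obtain ⟨S6, hS6c, hS6b, hS6s⟩ := hQg M hMpos
    obtain ⟨S', hS'c, hS'b, hS's⟩ := ih E' hE'Lk hE'm
    have hdisj : Disjoint S6 S' := by
      rw [Finset.disjoint_left]
      intro n hn6 hn'
      obtain ⟨_, hn2, hn1⟩ := hS6b n hn6
      obtain ⟨h2, _, _⟩ := hS'b n hn'
      have h3 : n * (Q * 2 ^ i) ≤ n * (18 * E') := by
        calc n * (Q * 2 ^ i) = n * Q * 2 ^ i := by ring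
          _ ≤ 18 * (M * RB) * 2 ^ i := Nat.mul_le_mul_right _ hn2
          _ = 18 * den := by rw [hdenM]; ring
          _ ≤ 18 * (n * E') := Nat.mul_le_mul_left _ h2
          _ = n * (18 * E') := by ring
      have h4 : Q * 2 ^ i ≤ 18 * E' := Nat.le_of_mul_le_mul_left h3 hn1
      have h5 : 63 * 2 ^ c * 2 ^ i ≤ Q * 2 ^ i := Nat.mul_le_mul_right _ hQbig.le
      have h7 : 63 * 2 ^ c * 2 ^ i = 63 * (2 ^ c * 2 ^ i) := by ring
      omega
    refine ⟨S6 ∪ S', ?_, ?_, ?_⟩
    · rw [Finset.card_union_of_disjoint hdisj]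
      omega
    · intro n hn
      rcases Finset.mem_union.mp hn with h | h
      · obtain ⟨hn0, hn2, hn1⟩ := hS6b n h
        refine ⟨?_, ?_, hn1⟩
        · calc den = M * RB * 2 ^ i := hdenM
            _ ≤ n * Q * 2 ^ i := Nat.mul_le_mul_right _ hn0
            _ = n * (Q * 2 ^ i) := by ring
            _ ≤ n * E := Nat.mul_le_mul_left _ hQE
        · have h18 : 18 ≤ Q := by omega
          have h3 : n * 18 ≤ 18 * (M * RB) := le_trans (Nat.mul_le_mul_left _ h18) hn2
          have h4 : n ≤ M * RB := by omega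
          calc n ≤ M * RB := h4
            _ ≤ M * RB * 2 ^ i := Nat.le_mul_of_pos_right _ h2i
            _ = den := hdenM.symm
      · obtain ⟨h1, h2, h3⟩ := hS'b n h
        exact ⟨le_trans h1 (Nat.mul_le_mul_left _ (Nat.sub_le _ _)), h2, h3⟩
    · rw [Finset.sum_union hdisj, hS6s, hS's]
      have hMRB : (0 : ℚ) < (M : ℚ) * RB := by
        have : 0 < M * RB := Nat.mul_pos hMpos hRB
        exact_mod_cast this
      have hdenQ : (den : ℚ) = (M : ℚ) * RB * 2 ^ i := by
        rw [hdenM]; push_cast; ring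
      have hEQ : (E : ℚ) = (Q : ℚ) * 2 ^ i + (E' : ℚ) := by
        exact_mod_cast hEsplit
      rw [hEQ, add_div]
      congr 1
      rw [hdenQ]
      have h2iQ : (2 : ℚ) ^ i ≠ 0 := by positivity
      field_simp

theorem fstep_add (lmin LY t j : ℕ) :
    fstep lmin LY t + j * (min (fstep lmin LY t) LY / 16) ≤ fstep lmin LY (t + j) := by
  induction j with
  | zero => simp
  | succ j ih =>
    have h1 : fstep lmin LY (t + (j + 1))
        = fstep lmin LY (t + j) + min (fstep lmin LY (t + j)) LY / 16 := by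
      rw [← add_assoc]
      rfl
    have h2 : min (fstep lmin LY t) LY / 16 ≤ min (fstep lmin LY (t + j)) LY / 16 :=
      Nat.div_le_div_right (min_le_min_right LY (fstep_mono lmin LY (Nat.le_add_right t j)))
    rw [h1]
    have h3 : (j + 1) * (min (fstep lmin LY t) LY / 16)
        = j * (min (fstep lmin LY t) LY / 16) + min (fstep lmin LY t) LY / 16 := by ring
    omega

/-- the heights double every seventeen steps until they reach `LY` -/
lemma fstep_double (lmin LY : ℕ) (hl : 272 ≤ lmin) (j : ℕ) :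
    min (2 ^ j * lmin) LY ≤ fstep lmin LY (17 * j) := by
  induction j with
  | zero => simp [fstep]
  | succ j ih =>
    set L := fstep lmin LY (17 * j) with hL
    have hmono : L ≤ fstep lmin LY (17 * (j + 1)) :=
      fstep_mono lmin LY (by omega)
    rcases le_or_gt LY L with h | h
    · exact le_trans (min_le_right _ _) (le_trans h hmono)
    · have hmin : min L LY = L := min_eq_left h.le
      have h1 := fstep_add lmin LY (17 * j) 17
      rw [← hL, hmin] at h1
      have h2 : 17 * (j + 1) = 17 * j + 17 := by ring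
      rw [h2]
      have hL64 : 272 ≤ L := le_trans hl (lmin_le_fstep lmin LY _)
      have h3 : 2 * L ≤ L + 17 * (L / 16) := by omega
      have h4 : 2 ^ j * lmin ≤ L := by
        rcases le_total (2 ^ j * lmin) LY with h5 | h5
        · rwa [min_eq_left h5] at ih
        · rw [min_eq_right h5] at ih
          omega
      have h5 : 2 ^ (j + 1) * lmin = 2 * (2 ^ j * lmin) := by ring
      refine le_trans (min_le_left _ _) ?_
      rw [h5]
      omega

/-- after `17 K1 + K2` digits every `E < 2^m` is reached -/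
theorem fstep_reach (lmin LY K1 K2 m : ℕ) (hl : 272 ≤ lmin) (hK1 : LY ≤ 2 ^ K1 * lmin)
    (hK2 : m ≤ K2 * (LY / 16)) : m ≤ fstep lmin LY (17 * K1 + K2) := by
  have h1 : LY ≤ fstep lmin LY (17 * K1) := by
    have h2 := fstep_double lmin LY hl K1
    rwa [min_eq_right hK1] at h2
  have h4 := fstep_add lmin LY (17 * K1) K2
  rw [min_eq_right h1] at h4
  omega

end Vale.Agent.Lib.P012
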