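import Vale.Agent.Lib.P012.Defs3

/-! P012 v3, module C1: sums over rough divisors (`Rough u n`: all prime factors are `≥ 2 ^ u`). -/

open Classical

namespace Vale.Agent.Lib.P012

open Finset

theorem rough_one (u : ℕ) : Rough u 1 := by
  intro p hp h
  exact absurd (Nat.dvd_one.1 h) hp.one_lt.ne'

theorem Rough.of_dvd {u n d : ℕ} (h : Rough u n) (hd : d ∣ n) : Rough u d :=
  fun p hp hpd => h p hp (hpd.trans hd)

/-- Main lemma: `f` nonnegative, `f 1 ≤ 1`, `f (p * d) ≤ c * f d` for primes `p ≥ 2 ^ u`, `d > 0`.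
Then the sum of `f` over the rough divisors of `n < 2 ^ (u * (w + 1))` is at most `(1 + c) ^ w`. -/
theorem sum_rough_divisors_le (u : ℕ) (f : ℕ → ℝ) (c : ℝ) (hc : 0 ≤ c)
    (hf0 : ∀ d, 0 ≤ f d) (hf1 : f 1 ≤ 1)
    (hfp : ∀ p d, p.Prime → 2 ^ u ≤ p → 0 < d → f (p * d) ≤ c * f d) :
    ∀ (n w : ℕ), 0 < n → n < 2 ^ (u * (w + 1)) →
      ∑ d ∈ n.divisors.filter (Rough u), f d ≤ (1 + c) ^ w := by
  intro n
  induction n using Nat.strong_induction_on with
  | _ n ih =>
    intro w hn hnw
    rcases Nat.lt_or_ge 1 n with h1 | h1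
    · have hne : n ≠ 1 := h1.ne'
      set p := n.minFac with hp
      have hpp : p.Prime := Nat.minFac_prime hne
      obtain ⟨n', hn'⟩ : p ∣ n := Nat.minFac_dvd n
      have hn'pos : 0 < n' := by
        rcases Nat.eq_zero_or_pos n' with h | h
        · rw [h, mul_zero] at hn'; omega
        · exact h
      have hn'lt : n' < n := by
        rw [hn']
        exact lt_mul_of_one_lt_left hn'pos hpp.one_lt
      have hsplit : ∀ d, d ∣ n → ¬ p ∣ d → d ∣ n' := by
        intro d hd hpd
        rw [hn'] at hd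
        exact Nat.Coprime.dvd_of_dvd_mul_left
          ((Nat.Prime.coprime_iff_not_dvd hpp).2 hpd).symm hd
      rcases Nat.lt_or_ge p (2 ^ u) with hpP | hpP
      · -- small prime: rough divisors of `n` are rough divisors of `n'`
        have hsub : n.divisors.filter (Rough u) ⊆ n'.divisors.filter (Rough u) := by
          intro d hd
          rw [Finset.mem_filter, Nat.mem_divisors] at hd ⊢
          refine ⟨⟨hsplit d hd.1.1 ?_, hn'pos.ne'⟩, hd.2⟩
          intro hpd
          have := hd.2 p hpp hpd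
          omega
        calc ∑ d ∈ n.divisors.filter (Rough u), f d
            ≤ ∑ d ∈ n'.divisors.filter (Rough u), f d :=
              Finset.sum_le_sum_of_subset_of_nonneg hsub (fun d _ _ => hf0 d)
          _ ≤ (1 + c) ^ w := ih n' hn'lt w hn'pos (hn'lt.trans hnw)
      · -- large prime
        obtain ⟨w', rfl⟩ : ∃ w', w = w' + 1 := by
          rcases w with _ | w'
          · exfalso
            have h2 : p ≤ n := Nat.le_of_dvd hn (Nat.minFac_dvd n)
            simp at hnw
            omega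
          · exact ⟨w', rfl⟩
        have hn'w : n' < 2 ^ (u * (w' + 1)) := by
          have h2 : 2 ^ u * n' < 2 ^ u * 2 ^ (u * (w' + 1)) := by
            calc 2 ^ u * n' ≤ p * n' := Nat.mul_le_mul_right _ hpP
              _ = n := hn'.symm
              _ < 2 ^ (u * (w' + 1 + 1)) := hnw
              _ = 2 ^ u * 2 ^ (u * (w' + 1)) := by rw [← pow_add]; congr 1; ring
          exact Nat.lt_of_mul_lt_mul_left h2
        have hsub : n.divisors.filter (Rough u) ⊆
            n'.divisors.filter (Rough u) ∪ (n'.divisors.filter (Rough u)).image (fun e => p * e) := by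
          intro d hd
          rw [Finset.mem_filter, Nat.mem_divisors] at hd
          rw [Finset.mem_union]
          by_cases hpd : p ∣ d
          · right
            obtain ⟨e, rfl⟩ := hpd
            rw [Finset.mem_image]
            refine ⟨e, ?_, rfl⟩
            rw [Finset.mem_filter, Nat.mem_divisors]
            refine ⟨⟨?_, hn'pos.ne'⟩, hd.2.of_dvd (Dvd.intro_left _ rfl)⟩
            have h3 := hd.1.1
            rw [hn'] at h3
            exact Nat.dvd_of_mul_dvd_mul_left hpp.pos h3
          · left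
            rw [Finset.mem_filter, Nat.mem_divisors]
            exact ⟨⟨hsplit d hd.1.1 hpd, hn'pos.ne'⟩, hd.2⟩
        have hIH := ih n' hn'lt w' hn'pos hn'w
        set S' := ∑ d ∈ n'.divisors.filter (Rough u), f d with hS'
        have himg : ∑ d ∈ (n'.divisors.filter (Rough u)).image (fun e => p * e), f d ≤ c * S' := by
          rw [Finset.sum_image (fun a _ b _ hab => Nat.eq_of_mul_eq_mul_left hpp.pos hab), hS',
            Finset.mul_sum]
          refine Finset.sum_le_sum fun e he => hfp p e hpp hpP ?_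
          exact Nat.pos_of_mem_divisors (Finset.mem_filter.1 he).1
        calc ∑ d ∈ n.divisors.filter (Rough u), f d
            ≤ ∑ d ∈ n'.divisors.filter (Rough u) ∪
                (n'.divisors.filter (Rough u)).image (fun e => p * e), f d :=
              Finset.sum_le_sum_of_subset_of_nonneg hsub (fun d _ _ => hf0 d)
          _ ≤ S' + ∑ d ∈ (n'.divisors.filter (Rough u)).image (fun e => p * e), f d := by
              have h5 := Finset.sum_union_inter (s₁ := n'.divisors.filter (Rough u))
                (s₂ := (n'.divisors.filter (Rough u)).image (fun e => p * e)) (f := f)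
              have h6 : 0 ≤ ∑ d ∈ n'.divisors.filter (Rough u) ∩
                  (n'.divisors.filter (Rough u)).image (fun e => p * e), f d :=
                Finset.sum_nonneg fun d _ => hf0 d
              linarith
          _ ≤ S' + c * S' := by linarith
          _ = (1 + c) * S' := by ring
          _ ≤ (1 + c) * (1 + c) ^ w' := mul_le_mul_of_nonneg_left hIH (by linarith)
          _ = (1 + c) ^ (w' + 1) := by rw [pow_succ]; ring
    · have hn1 : n = 1 := by omega
      subst hn1
      have : (Nat.divisors 1).filter (Rough u) = {1} := by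
        rw [Nat.divisors_one]
        ext d
        simp only [Finset.mem_filter, Finset.mem_singleton]
        constructor
        · exact fun h => h.1
        · rintro rfl; exact ⟨rfl, rough_one u⟩
      rw [this, Finset.sum_singleton]
      exact hf1.trans (one_le_pow₀ (by linarith))

/-- the same without the divisor `1` -/
theorem sum_rough_divisors_gt_one_le (u : ℕ) (f : ℕ → ℝ) (c : ℝ)
    (hc : 0 ≤ c) (hf0 : ∀ d, 0 ≤ f d) (hf1 : f 1 = 1)
    (hfp : ∀ p d, p.Prime → 2 ^ u ≤ p → 0 < d → f (p * d) ≤ c * f d) (n w : ℕ) (hn : 0 < n)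
    (hnw : n < 2 ^ (u * (w + 1))) :
    ∑ d ∈ (n.divisors.filter (Rough u)).filter (fun d => 1 < d), f d ≤ (1 + c) ^ w - 1 := by
  have h := sum_rough_divisors_le u f c hc hf0 hf1.le hfp n w hn hnw
  have h1 : (1 : ℕ) ∈ n.divisors.filter (Rough u) := by
    rw [Finset.mem_filter, Nat.mem_divisors]
    exact ⟨⟨one_dvd n, hn.ne'⟩, rough_one u⟩
  have hsub : (n.divisors.filter (Rough u)).filter (fun d => 1 < d) ⊆
      (n.divisors.filter (Rough u)).erase 1 := by
    intro d hd
    rw [Finset.mem_filter] at hd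
    rw [Finset.mem_erase]
    exact ⟨by omega, hd.1⟩
  have h2 := Finset.add_sum_erase _ f h1
  have h3 := Finset.sum_le_sum_of_subset_of_nonneg hsub (fun d _ _ => hf0 d)
  rw [hf1] at h2
  linarith

/-- all divisors `> 1` of a rough number -/
theorem sum_divisors_of_rough_le (u : ℕ) (f : ℕ → ℝ) (c : ℝ)
    (hc : 0 ≤ c) (hf0 : ∀ d, 0 ≤ f d) (hf1 : f 1 = 1)
    (hfp : ∀ p d, p.Prime → 2 ^ u ≤ p → 0 < d → f (p * d) ≤ c * f d) (Q w : ℕ) (hQ : 0 < Q)
    (hQw : Q < 2 ^ (u * (w + 1))) (hrough : Rough u Q) :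
    ∑ d ∈ Q.divisors.filter (fun d => 1 < d), f d ≤ (1 + c) ^ w - 1 := by
  have h := sum_rough_divisors_gt_one_le u f c hc hf0 hf1 hfp Q w hQ hQw
  refine le_trans (le_of_eq ?_) h
  congr 1
  ext d
  simp only [Finset.mem_filter, Nat.mem_divisors]
  constructor
  · rintro ⟨⟨h1, h2⟩, h3⟩
    exact ⟨⟨⟨h1, h2⟩, hrough.of_dvd h1⟩, h3⟩
  · rintro ⟨⟨h1, _⟩, h3⟩
    exact ⟨h1, h3⟩

/-- the weight `y ^ Ω(d)` -/
theorem omega_weight (y : ℝ) (hy : 0 ≤ y) :
    (∀ d : ℕ, 0 ≤ y ^ d.primeFactorsList.length) ∧ y ^ (1 : ℕ).primeFactorsList.length = 1 ∧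
      ∀ p d : ℕ, p.Prime → 0 < d →
        y ^ (p * d).primeFactorsList.length ≤ y * y ^ d.primeFactorsList.length := by
  refine ⟨fun d => pow_nonneg hy _, by simp, ?_⟩
  intro p d hp hd
  have h := (Nat.perm_primeFactorsList_mul hp.pos.ne' hd.ne').length_eq
  rw [h, List.length_append, Nat.primeFactorsList_prime hp, List.length_singleton, pow_add, pow_one]

/-- helper4's form: `∑_{d ∣ n, d rough} y ^ Ω(d) ≤ (1 + y) ^ k` for `0 < n < 2 ^ (u (k + 1))` -/
theorem sum_rough_divisors_omega_le (u : ℕ) (y : ℝ) (hy : 0 ≤ y) (n k : ℕ) (hn : 0 < n)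
    (hnk : n < 2 ^ (u * (k + 1))) :
    ∑ d ∈ n.divisors.filter (Rough u), y ^ d.primeFactorsList.length ≤ (1 + y) ^ k := by
  obtain ⟨h0, h1, h2⟩ := omega_weight y hy
  exact sum_rough_divisors_le u (fun d => y ^ d.primeFactorsList.length) y hy h0 h1.le
    (fun p d hp _ hd => h2 p d hp hd) n k hn hnk

theorem sum_rough_divisors_gt_one_omega_le (u : ℕ) (y : ℝ) (hy : 0 ≤ y) (n k : ℕ) (hn : 0 < n)
    (hnk : n < 2 ^ (u * (k + 1))) :
    ∑ d ∈ (n.divisors.filter (Rough u)).filter (fun d => 1 < d), y ^ d.primeFactorsList.length ≤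
      (1 + y) ^ k - 1 := by
  obtain ⟨h0, h1, h2⟩ := omega_weight y hy
  exact sum_rough_divisors_gt_one_le u (fun d => y ^ d.primeFactorsList.length) y hy h0 h1
    (fun p d hp _ hd => h2 p d hp hd) n k hn hnk

/-- the weight `1 / d` -/
theorem sum_divisors_of_rough_inv_le (u Q w : ℕ) (hQ : 0 < Q) (hQw : Q < 2 ^ (u * (w + 1)))
    (hrough : Rough u Q) :
    ∑ d ∈ Q.divisors.filter (fun d => 1 < d), (1 : ℝ) / d ≤ (1 + 1 / 2 ^ u) ^ w - 1 := by
  refine sum_divisors_of_rough_le u (fun d => (1 : ℝ) / d) (1 / 2 ^ u) (by positivity)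
    (fun d => by positivity) (by simp) ?_ Q w hQ hQw hrough
  intro p d hp hpu hd
  have h1 : (0 : ℝ) < d := by exact_mod_cast hd
  have h2 : ((2 : ℝ) ^ u) ≤ p := by exact_mod_cast hpu
  have h3 : (0 : ℝ) < 2 ^ u := by positivity
  push_cast
  rw [div_mul_div_comm, one_mul]
  apply one_div_le_one_div_of_le (by positivity)
  exact mul_le_mul_of_nonneg_right h2 h1.le

/-- a rough `d > 0` satisfies `2 ^ (u Ω(d)) ≤ d` -/
theorem two_pow_omega_le (u : ℕ) : ∀ d : ℕ, 0 < d → Rough u d →
    2 ^ (u * d.primeFactorsList.length) ≤ d := by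
  intro d
  induction d using Nat.strong_induction_on with
  | _ d ih =>
    intro hd hr
    rcases Nat.lt_or_ge 1 d with h1 | h1
    · set p := d.minFac with hp
      have hpp : p.Prime := Nat.minFac_prime h1.ne'
      obtain ⟨e, he⟩ : p ∣ d := Nat.minFac_dvd d
      have hepos : 0 < e := by
        rcases Nat.eq_zero_or_pos e with h | h
        · rw [h, mul_zero] at he; omega
        · exact h
      have helt : e < d := by
        rw [he]
        exact lt_mul_of_one_lt_left hepos hpp.one_lt
      have hIH := ih e helt hepos (hr.of_dvd ⟨p, by rw [he]; ring⟩)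
      have hpu := hr p hpp (Nat.minFac_dvd d)
      have h := (Nat.perm_primeFactorsList_mul hpp.pos.ne' hepos.ne').length_eq
      rw [Nat.primeFactorsList_prime hpp, List.length_append, List.length_singleton] at h
      calc 2 ^ (u * d.primeFactorsList.length)
          = 2 ^ (u * (p * e).primeFactorsList.length) := by rw [← he]
        _ = 2 ^ u * 2 ^ (u * e.primeFactorsList.length) := by rw [h, ← pow_add]; congr 1; ring
        _ ≤ p * e := Nat.mul_le_mul hpu hIH
        _ = d := he.symm
    · have : d = 1 := by omega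
      subst this
      simp

/-- `(1 + y) ^ j - 1 ≤ 2 j y` as long as `2 j y ≤ 1` -/
theorem one_add_pow_sub_one_le (y : ℝ) (hy : 0 ≤ y) : ∀ j : ℕ, 2 * (j : ℝ) * y ≤ 1 →
    (1 + y) ^ j - 1 ≤ 2 * (j : ℝ) * y := by
  intro j
  induction j with
  | zero => intro _; simp
  | succ j ih =>
    intro h
    push_cast at h ⊢
    have h' : 2 * (j : ℝ) * y ≤ 1 := by nlinarith
    have := ih h'
    rw [pow_succ]
    have hj : (0 : ℝ) ≤ j := Nat.cast_nonneg j
    have h2 : (1 + y) ^ j ≤ 1 + 2 * (j : ℝ) * y := by linarith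
    have h3 : (1 + y) ^ j * (1 + y) ≤ (1 + 2 * (j : ℝ) * y) * (1 + y) :=
      mul_le_mul_of_nonneg_right h2 (by linarith)
    have h4 : (2 * (j : ℝ) * y) * y ≤ 1 * y := mul_le_mul_of_nonneg_right h' hy
    nlinarith

end Vale.Agent.Lib.P012
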