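import Vale.Agent.Lib.P012.Defs

/-! Module C of P012: the covering lemma by additive characters. -/

namespace Vale.Agent.Lib.P012

open Finset

section core

variable {Q : ℕ} [NeZero Q]

/-- the standard additive character of `ZMod Q` -/
noncomputable abbrev psi : AddChar (ZMod Q) ℂ := ZMod.stdAddChar

/-- inner sum -/
noncomputable def tsum (B : Finset ℕ) (c : ZMod Q) : ℂ :=
  ∑ b ∈ B, psi (c * (b : ZMod Q))

/-- the bilinear exponential sum -/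
noncomputable def bsum (A B : Finset ℕ) (ξ : ZMod Q) : ℂ :=
  ∑ p ∈ A ×ˢ B, psi (ξ * ((p.1 : ZMod Q) * (p.2 : ZMod Q)))

theorem psi_sum {ι : Type*} (s : Finset ι) (f : ι → ZMod Q) :
    psi (∑ i ∈ s, f i) = ∏ i ∈ s, psi (f i) := by
  classical
  induction s using Finset.induction_on with
  | empty => simp
  | insert a s ha ih => rw [Finset.sum_insert ha, Finset.prod_insert ha, AddChar.map_add_eq_mul, ih]

theorem bsum_eq (A B : Finset ℕ) (ξ : ZMod Q) :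
    bsum A B ξ = ∑ a ∈ A, tsum B (ξ * (a : ZMod Q)) := by
  unfold bsum tsum
  rw [Finset.sum_product]
  refine Finset.sum_congr rfl fun a _ => Finset.sum_congr rfl fun b _ => ?_
  rw [mul_assoc]

/-- geometric sum -/
theorem geom (Q' : ℕ) (c : ZMod Q) (h1 : (Q' : ZMod Q) * c = 0) :
    ∑ r ∈ range Q', psi ((r : ZMod Q) * c) = if c = 0 then (Q' : ℂ) else 0 := by
  split_ifs with h
  · simp [h]
  · have hz : (psi c : ℂ) ≠ 1 := by
      intro h'
      apply h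
      apply ZMod.injective_stdAddChar (N := Q)
      rw [AddChar.map_zero_eq_one]
      exact h'
    have hpow : ∀ r : ℕ, psi ((r : ZMod Q) * c) = (psi c : ℂ) ^ r := by
      intro r
      rw [← nsmul_eq_mul, AddChar.map_nsmul_eq_pow]
    simp_rw [hpow]
    rw [geom_sum_eq hz, ← hpow, h1, AddChar.map_zero_eq_one]
    simp

theorem tsum_normSq (B : Finset ℕ) (c : ZMod Q) :
    (((‖tsum B c‖ ^ 2 : ℝ)) : ℂ) =
      ∑ p ∈ B ×ˢ B, psi (c * ((p.1 : ZMod Q) - (p.2 : ZMod Q))) := by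
  have h := Complex.mul_conj' (tsum B c)
  push_cast
  rw [← h]
  unfold tsum
  rw [map_sum, Finset.sum_mul_sum, Finset.sum_product]
  refine Finset.sum_congr rfl fun a _ => Finset.sum_congr rfl fun b _ => ?_
  rw [← AddChar.map_neg_eq_conj, ← AddChar.map_add_eq_mul]
  congr 1
  ring

theorem tsum_second_moment (B : Finset ℕ) (ξ : ZMod Q) (Q' : ℕ) (h1 : (Q' : ZMod Q) * ξ = 0) :
    ∑ r ∈ range Q', ‖tsum B (ξ * (r : ZMod Q))‖ ^ 2 =
      (Q' : ℝ) * (((B ×ˢ B).filter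
        (fun p => ξ * (p.1 : ZMod Q) = ξ * (p.2 : ZMod Q))).card : ℝ) := by
  have hC : ((∑ r ∈ range Q', ‖tsum B (ξ * (r : ZMod Q))‖ ^ 2 : ℝ) : ℂ) =
      (((Q' : ℝ) * (((B ×ˢ B).filter
        (fun p => ξ * (p.1 : ZMod Q) = ξ * (p.2 : ZMod Q))).card : ℝ) : ℝ) : ℂ) := by
    rw [Complex.ofReal_sum]
    simp_rw [tsum_normSq]
    rw [Finset.sum_comm]
    have : ∀ p ∈ B ×ˢ B, ∑ r ∈ range Q', psi (ξ * (r : ZMod Q) * ((p.1 : ZMod Q) - (p.2 : ZMod Q)))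
        = if ξ * (p.1 : ZMod Q) = ξ * (p.2 : ZMod Q) then (Q' : ℂ) else 0 := by
      intro p _
      have h2 : (Q' : ZMod Q) * (ξ * ((p.1 : ZMod Q) - (p.2 : ZMod Q))) = 0 := by
        rw [← mul_assoc, h1, zero_mul]
      have h3 := geom Q' (ξ * ((p.1 : ZMod Q) - (p.2 : ZMod Q))) h2
      have h4 : (ξ * ((p.1 : ZMod Q) - (p.2 : ZMod Q)) = 0) ↔
          ξ * (p.1 : ZMod Q) = ξ * (p.2 : ZMod Q) := by
        rw [mul_sub, sub_eq_zero]
      simp only [h4] at h3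
      rw [← h3]
      refine Finset.sum_congr rfl fun r _ => ?_
      congr 1
      ring
    rw [Finset.sum_congr rfl this, ← Finset.sum_filter, Finset.sum_const]
    push_cast
    rw [nsmul_eq_mul, mul_comm]
  exact_mod_cast hC

theorem energy_eq_sum (A : Finset ℕ) (Q' : ℕ) (hQ' : 0 < Q') :
    (energy A Q' : ℝ) = ∑ r ∈ range Q', (((A.filter (fun a => a % Q' = r)).card : ℝ)) ^ 2 := by
  unfold energy
  rw [Finset.card_eq_sum_card_fiberwise (f := fun p : ℕ × ℕ => p.1 % Q') (t := range Q')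
    (fun p _ => Finset.mem_coe.2 (Finset.mem_range.2 (Nat.mod_lt _ hQ')))]
  push_cast
  refine Finset.sum_congr rfl fun r _ => ?_
  have : ((A ×ˢ A).filter (fun p => p.1 ≡ p.2 [MOD Q'])).filter (fun p => p.1 % Q' = r) =
      (A.filter (fun a => a % Q' = r)) ×ˢ (A.filter (fun a => a % Q' = r)) := by
    ext ⟨a, b⟩
    simp only [Finset.mem_filter, Finset.mem_product]
    unfold Nat.ModEq
    constructor
    · rintro ⟨⟨⟨ha, hb⟩, hab⟩, hr⟩
      exact ⟨⟨ha, hr⟩, ⟨hb, hab ▸ hr⟩⟩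
    · rintro ⟨⟨ha, hr⟩, ⟨hb, hr'⟩⟩
      exact ⟨⟨⟨ha, hb⟩, hr.trans hr'.symm⟩, hr⟩
  rw [this, Finset.card_product]
  push_cast
  ring

theorem bsum_norm_sq_le (A B : Finset ℕ) (ξ : ZMod Q) (Q' : ℕ) (hQ' : 0 < Q')
    (h1 : (Q' : ZMod Q) * ξ = 0)
    (h2 : ∀ a a' : ℕ, ξ * (a : ZMod Q) = ξ * (a' : ZMod Q) → a ≡ a' [MOD Q']) :
    ‖bsum A B ξ‖ ^ 2 ≤ (Q' : ℝ) * energy A Q' * energy B Q' := by
  have hmod : ∀ a : ℕ, ξ * (a : ZMod Q) = ξ * ((a % Q' : ℕ) : ZMod Q) := by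
    intro a
    have h := Nat.div_add_mod a Q'
    have h' : (a : ZMod Q) = (Q' : ZMod Q) * ((a / Q' : ℕ) : ZMod Q) + ((a % Q' : ℕ) : ZMod Q) := by
      exact_mod_cast congrArg (Nat.cast : ℕ → ZMod Q) h.symm
    calc ξ * (a : ZMod Q)
        = ((Q' : ZMod Q) * ξ) * ((a / Q' : ℕ) : ZMod Q) + ξ * ((a % Q' : ℕ) : ZMod Q) := by
          rw [h']; ring
      _ = ξ * ((a % Q' : ℕ) : ZMod Q) := by rw [h1]; ring
  have hstep1 : ‖bsum A B ξ‖ ≤
      ∑ r ∈ range Q', ((A.filter (fun a => a % Q' = r)).card : ℝ) *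
        ‖tsum B (ξ * (r : ZMod Q))‖ := by
    rw [bsum_eq]
    refine (norm_sum_le _ _).trans (le_of_eq ?_)
    rw [← Finset.sum_fiberwise_of_maps_to (s := A) (t := range Q') (g := fun a => a % Q')
      (fun a _ => Finset.mem_range.2 (Nat.mod_lt _ hQ'))]
    refine Finset.sum_congr rfl fun r _ => ?_
    rw [← nsmul_eq_mul, ← Finset.sum_const]
    refine Finset.sum_congr rfl fun a ha => ?_
    rw [hmod a, (Finset.mem_filter.1 ha).2]
  have hcs := Finset.sum_mul_sq_le_sq_mul_sq (range Q')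
    (fun r => ((A.filter (fun a => a % Q' = r)).card : ℝ))
    (fun r => ‖tsum B (ξ * (r : ZMod Q))‖)
  rw [← energy_eq_sum A Q' hQ', tsum_second_moment B ξ Q' h1] at hcs
  have hE : (((B ×ˢ B).filter
      (fun p => ξ * (p.1 : ZMod Q) = ξ * (p.2 : ZMod Q))).card : ℝ) ≤ energy B Q' := by
    unfold energy
    have : ((B ×ˢ B).filter (fun p => ξ * (p.1 : ZMod Q) = ξ * (p.2 : ZMod Q))) ⊆
        ((B ×ˢ B).filter (fun p => p.1 ≡ p.2 [MOD Q'])) := by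
      intro p hp
      rw [Finset.mem_filter] at hp ⊢
      exact ⟨hp.1, h2 _ _ hp.2⟩
    exact_mod_cast Finset.card_le_card this
  calc ‖bsum A B ξ‖ ^ 2
      ≤ (∑ r ∈ range Q', ((A.filter (fun a => a % Q' = r)).card : ℝ) *
        ‖tsum B (ξ * (r : ZMod Q))‖) ^ 2 := by
        exact pow_le_pow_left₀ (norm_nonneg _) hstep1 2
    _ ≤ _ := hcs
    _ ≤ (energy A Q' : ℝ) * ((Q' : ℝ) * energy B Q') := by
        apply mul_le_mul_of_nonneg_left _ (Nat.cast_nonneg _)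
        exact mul_le_mul_of_nonneg_left hE (Nat.cast_nonneg _)
    _ = (Q' : ℝ) * energy A Q' * energy B Q' := by ring

theorem bsum_zero (A B : Finset ℕ) : bsum A B (0 : ZMod Q) = ((A.card : ℝ) * (B.card : ℝ) : ℝ) := by
  unfold bsum
  simp [Finset.card_product]

theorem main_le_of_not_hit (A B : Fin 6 → Finset ℕ) (x : ZMod Q)
    (hno : ∀ f ∈ Fintype.piFinset (fun i => A i ×ˢ B i),
      (∑ i, ((f i).1 : ZMod Q) * ((f i).2 : ZMod Q)) ≠ x) :
    ∏ i, (((A i).card : ℝ) * ((B i).card : ℝ)) ≤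
      ∑ ξ ∈ (univ : Finset (ZMod Q)).erase 0, ∏ i, ‖bsum (A i) (B i) ξ‖ := by
  have hzero : ∑ ξ : ZMod Q, psi (-(ξ * x)) * ∏ i, bsum (A i) (B i) ξ = 0 := by
    unfold bsum
    simp_rw [Finset.prod_univ_sum, Finset.mul_sum]
    rw [Finset.sum_comm]
    refine Finset.sum_eq_zero fun f hf => ?_
    have h1 : ∀ ξ : ZMod Q, psi (-(ξ * x)) *
        ∏ i, psi (ξ * (((f i).1 : ZMod Q) * ((f i).2 : ZMod Q))) =
        psi (ξ * ((∑ i, ((f i).1 : ZMod Q) * ((f i).2 : ZMod Q)) - x)) := by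
      intro ξ
      rw [← psi_sum, ← AddChar.map_add_eq_mul, ← Finset.mul_sum]
      congr 1
      ring
    simp_rw [h1]
    rw [AddChar.sum_mulShift _ (ZMod.isPrimitive_stdAddChar Q),
      if_neg (sub_ne_zero.2 (hno f hf))]
    simp
  rw [← Finset.add_sum_erase _ _ (Finset.mem_univ (0 : ZMod Q))] at hzero
  have h0 : psi (-((0 : ZMod Q) * x)) * ∏ i, bsum (A i) (B i) (0 : ZMod Q) =
      ((∏ i, (((A i).card : ℝ) * ((B i).card : ℝ)) : ℝ) : ℂ) := by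
    simp only [zero_mul, neg_zero, AddChar.map_zero_eq_one, one_mul, bsum_zero]
    push_cast
    rfl
  rw [h0] at hzero
  have h2 : ((∏ i, (((A i).card : ℝ) * ((B i).card : ℝ)) : ℝ) : ℂ) =
      -∑ ξ ∈ (univ : Finset (ZMod Q)).erase 0, psi (-(ξ * x)) * ∏ i, bsum (A i) (B i) ξ :=
    eq_neg_of_add_eq_zero_left hzero
  have h3 : ‖((∏ i, (((A i).card : ℝ) * ((B i).card : ℝ)) : ℝ) : ℂ)‖ =
      ∏ i, (((A i).card : ℝ) * ((B i).card : ℝ)) := by
    rw [Complex.norm_real, Real.norm_eq_abs, abs_of_nonneg]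
    exact Finset.prod_nonneg fun i _ => by positivity
  rw [← h3, h2, norm_neg]
  refine (norm_sum_le _ _).trans (le_of_eq ?_)
  refine Finset.sum_congr rfl fun ξ _ => ?_
  rw [norm_mul, AddChar.norm_apply, one_mul, norm_prod]

end core

section arith

variable (S : Finset ℕ) (hS : ∀ q ∈ S, q.Prime)

include hS

theorem prodS_pos : 0 < ∏ q ∈ S, q := Finset.prod_pos fun q hq => (hS q hq).pos

theorem prod_sub_dvd (U : Finset ℕ) (hU : U ⊆ S) (n : ℕ) (h : ∀ q ∈ U, q ∣ n) :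
    ∏ q ∈ U, q ∣ n :=
  Finset.prod_primes_dvd n (fun q hq => (hS q (hU hq)).prime) h

theorem arith1 (v : ℕ) :
    ((∏ q ∈ S.filter (fun q => ¬ q ∣ v), q : ℕ) : ZMod (∏ q ∈ S, q)) *
      (v : ZMod (∏ q ∈ S, q)) = 0 := by
  rw [← Nat.cast_mul, ZMod.natCast_eq_zero_iff,
    ← Finset.prod_filter_mul_prod_filter_not S (fun q => q ∣ v), mul_comm]
  apply Nat.mul_dvd_mul_left
  exact prod_sub_dvd S hS _ (Finset.filter_subset _ _) v fun q hq => (Finset.mem_filter.1 hq).2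

theorem arith2 (v a a' : ℕ)
    (h : (v : ZMod (∏ q ∈ S, q)) * (a : ZMod (∏ q ∈ S, q)) =
      (v : ZMod (∏ q ∈ S, q)) * (a' : ZMod (∏ q ∈ S, q))) :
    a ≡ a' [MOD (∏ q ∈ S.filter (fun q => ¬ q ∣ v), q)] := by
  rw [← Nat.cast_mul, ← Nat.cast_mul, ZMod.natCast_eq_natCast_iff] at h
  rw [Nat.modEq_iff_dvd, Int.natCast_dvd]
  apply prod_sub_dvd S hS _ (Finset.filter_subset _ _)
  intro q hq
  rw [Finset.mem_filter] at hq
  rw [← Int.natCast_dvd, ← Nat.modEq_iff_dvd]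
  have h' : v * a ≡ v * a' [MOD q] := h.of_dvd (Finset.dvd_prod_of_mem _ hq.1)
  exact Nat.ModEq.cancel_left_of_coprime ((Nat.Prime.coprime_iff_not_dvd (hS q hq.1)).2 hq.2) h'

theorem fibre_card [NeZero (∏ q ∈ S, q)] (U : Finset ℕ) (hU : U ⊆ S) :
    ((univ : Finset (ZMod (∏ q ∈ S, q))).filter
      (fun ξ => S.filter (fun q => ¬ q ∣ ξ.val) = U)).card ≤ ∏ q ∈ U, q := by
  have hg : ∀ ξ ∈ (univ : Finset (ZMod (∏ q ∈ S, q))).filter
      (fun ξ => S.filter (fun q => ¬ q ∣ ξ.val) = U), (∏ q ∈ S \ U, q) ∣ ξ.val := by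
    intro ξ hξ
    rw [Finset.mem_filter] at hξ
    apply prod_sub_dvd S hS _ Finset.sdiff_subset
    intro q hq
    rw [Finset.mem_sdiff] at hq
    by_contra hcon
    apply hq.2
    rw [← hξ.2, Finset.mem_filter]
    exact ⟨hq.1, hcon⟩
  have hgpos : 0 < ∏ q ∈ S \ U, q :=
    Finset.prod_pos fun q hq => (hS q (Finset.sdiff_subset hq)).pos
  rw [← Finset.card_range (∏ q ∈ U, q)]
  apply Finset.card_le_card_of_injOn (fun ξ => ξ.val / (∏ q ∈ S \ U, q))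
  · intro ξ hξ
    rw [Finset.mem_coe, Finset.mem_range]
    apply Nat.div_lt_of_lt_mul
    rw [Finset.prod_sdiff hU]
    exact ZMod.val_lt ξ
  · intro ξ hξ ξ' hξ' h
    have h1 := hg ξ (Finset.mem_coe.1 hξ)
    have h2 := hg ξ' (Finset.mem_coe.1 hξ')
    apply ZMod.val_injective
    have h' : ξ.val / (∏ q ∈ S \ U, q) = ξ'.val / (∏ q ∈ S \ U, q) := h
    rw [← Nat.div_mul_cancel h1, ← Nat.div_mul_cancel h2, h']

theorem supp_nonempty (ξ : ZMod (∏ q ∈ S, q)) (hξ : ξ ≠ 0) :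
    S.filter (fun q => ¬ q ∣ ξ.val) ≠ ∅ := by
  have hne : NeZero (∏ q ∈ S, q) := ⟨(prodS_pos S hS).ne'⟩
  intro h
  apply hξ
  rw [← ZMod.val_eq_zero]
  apply Nat.eq_zero_of_dvd_of_lt _ (ZMod.val_lt ξ)
  apply prod_sub_dvd S hS _ (Finset.Subset.refl _)
  intro q hq
  by_contra hcon
  have : q ∈ S.filter (fun q => ¬ q ∣ ξ.val) := Finset.mem_filter.2 ⟨hq, hcon⟩
  rw [h] at this
  exact absurd this (Finset.notMem_empty _)

end arith

/-- product of six bounds -/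
theorem prod_bound (x c : Fin 6 → ℝ) (D : ℝ) (hx : ∀ i, 0 ≤ x i) (hc : ∀ i, 0 ≤ c i) (hD : 0 ≤ D)
    (h : ∀ i, x i ^ 2 ≤ D ^ 2 * c i ^ 2) : ∏ i, x i ≤ D ^ 6 * ∏ i, c i := by
  have h1 : ∀ i, x i ≤ D * c i := by
    intro i
    have := h i
    rw [← mul_pow] at this
    exact (sq_le_sq₀ (hx i) (mul_nonneg hD (hc i))).1 this
  calc ∏ i, x i ≤ ∏ i, (D * c i) := Finset.prod_le_prod (fun i _ => hx i) (fun i _ => h1 i)
    _ = D ^ 6 * ∏ i, c i := by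
      rw [Finset.prod_mul_distrib, Finset.prod_const, Finset.card_univ, Fintype.card_fin]

theorem cover_fourier (S : Finset ℕ) (hS : ∀ q ∈ S, q.Prime) (Z : ℕ) (hZ : ∀ q ∈ S, q ≤ Z)
    (A B : Fin 6 → Finset ℕ) (hAne : ∀ i, (A i).Nonempty) (hBne : ∀ i, (B i).Nonempty)
    (K θ : ℝ) (hK : 0 ≤ K) (hθ : 0 ≤ θ)
    (hA : ∀ i, ∀ U ⊆ S, (energy (A i) (∏ q ∈ U, q) : ℝ) ≤ K * ((A i).card : ℝ) ^ 2 * θ ^ U.card)
    (hB : ∀ i, ∀ U ⊆ S, (energy (B i) (∏ q ∈ U, q) : ℝ) ≤ K * ((B i).card : ℝ) ^ 2 * θ ^ U.card)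
    (hsmall : K ^ 6 * ((1 + (Z : ℝ) ^ 4 * θ ^ 6) ^ S.card - 1) < 1) (m : ℕ) :
    ∃ a b : Fin 6 → ℕ, (∀ i, a i ∈ A i) ∧ (∀ i, b i ∈ B i) ∧
      (∑ i, a i * b i) ≡ m [MOD (∏ q ∈ S, q)] := by
  have hne : NeZero (∏ q ∈ S, q) := ⟨(prodS_pos S hS).ne'⟩
  by_contra hcon
  push Not at hcon
  set main : ℝ := ∏ i, (((A i).card : ℝ) * ((B i).card : ℝ)) with hmain
  have hmainpos : 0 < main := by
    apply Finset.prod_pos
    intro i _
    have h1 : (0 : ℝ) < (A i).card := by exact_mod_cast (hAne i).card_pos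
    have h2 : (0 : ℝ) < (B i).card := by exact_mod_cast (hBne i).card_pos
    positivity
  have hno : ∀ f ∈ Fintype.piFinset (fun i => A i ×ˢ B i),
      (∑ i, ((f i).1 : ZMod (∏ q ∈ S, q)) * ((f i).2 : ZMod (∏ q ∈ S, q))) ≠
        (m : ZMod (∏ q ∈ S, q)) := by
    intro f hf h
    rw [Fintype.mem_piFinset] at hf
    apply hcon (fun i => (f i).1) (fun i => (f i).2)
      (fun i => (Finset.mem_product.1 (hf i)).1) (fun i => (Finset.mem_product.1 (hf i)).2)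
    rw [← ZMod.natCast_eq_natCast_iff]
    push_cast
    exact h
  have hle := main_le_of_not_hit A B (m : ZMod (∏ q ∈ S, q)) hno
  -- pointwise bound
  set F : Finset ℕ → ℝ := fun U =>
    ((∏ q ∈ U, q : ℕ) : ℝ) ^ 3 * K ^ 6 * (θ ^ U.card) ^ 6 * main with hF
  have hpt : ∀ ξ : ZMod (∏ q ∈ S, q),
      ∏ i, ‖bsum (A i) (B i) ξ‖ ≤ F (S.filter (fun q => ¬ q ∣ ξ.val)) := by
    intro ξ
    set U := S.filter (fun q => ¬ q ∣ ξ.val) with hU
    have hUS : U ⊆ S := Finset.filter_subset _ _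
    have hQ' : 0 < ∏ q ∈ U, q := Finset.prod_pos fun q hq => (hS q (hUS hq)).pos
    have e1 : ((∏ q ∈ U, q : ℕ) : ZMod (∏ q ∈ S, q)) * ξ = 0 := by
      have := arith1 S hS ξ.val
      rwa [ZMod.natCast_zmod_val] at this
    have e2 : ∀ a a' : ℕ, ξ * (a : ZMod (∏ q ∈ S, q)) = ξ * (a' : ZMod (∏ q ∈ S, q)) →
        a ≡ a' [MOD (∏ q ∈ U, q)] := by
      intro a a' h
      apply arith2 S hS ξ.val a a'
      rwa [ZMod.natCast_zmod_val]
    have hb : ∀ i, ‖bsum (A i) (B i) ξ‖ ^ 2 ≤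
        (Real.sqrt ((∏ q ∈ U, q : ℕ) : ℝ) * K * θ ^ U.card) ^ 2 *
          (((A i).card : ℝ) * ((B i).card : ℝ)) ^ 2 := by
      intro i
      have h1 := bsum_norm_sq_le (A i) (B i) ξ (∏ q ∈ U, q) hQ' e1 e2
      have h2 := hA i U hUS
      have h3 := hB i U hUS
      have h4 : (0 : ℝ) ≤ ((∏ q ∈ U, q : ℕ) : ℝ) := Nat.cast_nonneg _
      have h5 : (0 : ℝ) ≤ K * ((A i).card : ℝ) ^ 2 * θ ^ U.card := by positivity
      calc ‖bsum (A i) (B i) ξ‖ ^ 2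
          ≤ ((∏ q ∈ U, q : ℕ) : ℝ) * energy (A i) (∏ q ∈ U, q) * energy (B i) (∏ q ∈ U, q) := h1
        _ ≤ ((∏ q ∈ U, q : ℕ) : ℝ) * (K * ((A i).card : ℝ) ^ 2 * θ ^ U.card) *
              (K * ((B i).card : ℝ) ^ 2 * θ ^ U.card) := by
            apply mul_le_mul _ h3 (Nat.cast_nonneg _) (mul_nonneg h4 h5)
            exact mul_le_mul_of_nonneg_left h2 h4
        _ = _ := by
            rw [mul_pow, mul_pow, Real.sq_sqrt h4]
            ring
    have := prod_bound (fun i => ‖bsum (A i) (B i) ξ‖)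
      (fun i => ((A i).card : ℝ) * ((B i).card : ℝ))
      (Real.sqrt ((∏ q ∈ U, q : ℕ) : ℝ) * K * θ ^ U.card)
      (fun i => norm_nonneg _) (fun i => by positivity) (by positivity) hb
    refine this.trans (le_of_eq ?_)
    have h4 : (0 : ℝ) ≤ ((∏ q ∈ U, q : ℕ) : ℝ) := Nat.cast_nonneg _
    have h6 : Real.sqrt ((∏ q ∈ U, q : ℕ) : ℝ) ^ 6 = ((∏ q ∈ U, q : ℕ) : ℝ) ^ 3 := by
      calc Real.sqrt ((∏ q ∈ U, q : ℕ) : ℝ) ^ 6
          = (Real.sqrt ((∏ q ∈ U, q : ℕ) : ℝ) ^ 2) ^ 3 := by ring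
        _ = _ := by rw [Real.sq_sqrt h4]
    simp only [hF]
    rw [mul_pow, mul_pow, h6]
  set y : ℝ := (Z : ℝ) ^ 4 * θ ^ 6 with hy
  have hFnn : ∀ U : Finset ℕ, 0 ≤ F U := by
    intro U
    simp only [hF]
    positivity
  have hFU : ∀ U ⊆ S, ((∏ q ∈ U, q : ℕ) : ℝ) * F U ≤ y ^ U.card * (K ^ 6 * main) := by
    intro U hUS
    have h1 : ((∏ q ∈ U, q : ℕ) : ℝ) ≤ (Z : ℝ) ^ U.card := by
      exact_mod_cast Finset.prod_le_pow_card U (fun q => q) Z (fun q hq => hZ q (hUS hq))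
    have h2 : ((∏ q ∈ U, q : ℕ) : ℝ) ^ 4 ≤ ((Z : ℝ) ^ U.card) ^ 4 :=
      pow_le_pow_left₀ (Nat.cast_nonneg _) h1 4
    calc ((∏ q ∈ U, q : ℕ) : ℝ) * F U
        = ((∏ q ∈ U, q : ℕ) : ℝ) ^ 4 * ((θ ^ U.card) ^ 6 * (K ^ 6 * main)) := by
          simp only [hF]; ring
      _ ≤ ((Z : ℝ) ^ U.card) ^ 4 * ((θ ^ U.card) ^ 6 * (K ^ 6 * main)) :=
          mul_le_mul_of_nonneg_right h2 (by positivity)
      _ = y ^ U.card * (K ^ 6 * main) := by
          rw [hy, mul_pow, ← pow_mul, ← pow_mul, ← pow_mul, ← pow_mul, mul_comm U.card 4,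
            mul_comm U.card 6]
          ring
  have hsum1 : ∑ ξ ∈ (univ : Finset (ZMod (∏ q ∈ S, q))).erase 0,
      F (S.filter (fun q => ¬ q ∣ ξ.val)) ≤
      ∑ U ∈ S.powerset.erase ∅, y ^ U.card * (K ^ 6 * main) := by
    rw [← Finset.sum_fiberwise_of_maps_to (s := (univ : Finset (ZMod (∏ q ∈ S, q))).erase 0)
      (t := S.powerset.erase ∅) (g := fun ξ => S.filter (fun q => ¬ q ∣ ξ.val))
      (fun ξ hξ => Finset.mem_erase.2 ⟨supp_nonempty S hS ξ (Finset.ne_of_mem_erase hξ),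
        Finset.mem_powerset.2 (Finset.filter_subset _ _)⟩)]
    refine Finset.sum_le_sum fun U hU => ?_
    have hUS : U ⊆ S := Finset.mem_powerset.1 (Finset.mem_of_mem_erase hU)
    refine le_trans ?_ (hFU U hUS)
    have h1 : ∑ ξ ∈ ((univ : Finset (ZMod (∏ q ∈ S, q))).erase 0).filter
        (fun ξ => S.filter (fun q => ¬ q ∣ ξ.val) = U), F (S.filter (fun q => ¬ q ∣ ξ.val)) =
        ((((univ : Finset (ZMod (∏ q ∈ S, q))).erase 0).filter
        (fun ξ => S.filter (fun q => ¬ q ∣ ξ.val) = U)).card : ℝ) * F U := by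
      rw [← nsmul_eq_mul, ← Finset.sum_const]
      refine Finset.sum_congr rfl fun ξ hξ => ?_
      rw [(Finset.mem_filter.1 hξ).2]
    rw [h1]
    apply mul_le_mul_of_nonneg_right _ (hFnn U)
    have h2 : (((univ : Finset (ZMod (∏ q ∈ S, q))).erase 0).filter
        (fun ξ => S.filter (fun q => ¬ q ∣ ξ.val) = U)).card ≤ ∏ q ∈ U, q :=
      le_trans (Finset.card_le_card (Finset.filter_subset_filter _ (Finset.erase_subset _ _)))
        (fibre_card S hS U hUS)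
    exact_mod_cast h2
  have hsum2 : ∑ U ∈ S.powerset.erase ∅, y ^ U.card * (K ^ 6 * main) =
      (K ^ 6 * ((1 + y) ^ S.card - 1)) * main := by
    have h1 := Finset.sum_pow_mul_eq_add_pow y 1 S
    simp only [one_pow, mul_one] at h1
    rw [← Finset.add_sum_erase _ _ (Finset.empty_mem_powerset S)] at h1
    simp only [Finset.card_empty, pow_zero] at h1
    rw [← Finset.sum_mul, add_comm 1 y, ← h1]
    ring
  have hfinal : main ≤ (K ^ 6 * ((1 + y) ^ S.card - 1)) * main := by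
    calc main ≤ _ := hle
      _ ≤ _ := Finset.sum_le_sum fun ξ _ => hpt ξ
      _ ≤ _ := hsum1
      _ = _ := hsum2
  have : (K ^ 6 * ((1 + y) ^ S.card - 1)) * main < 1 * main :=
    mul_lt_mul_of_pos_right hsmall hmainpos
  linarith

end Vale.Agent.Lib.P012
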