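import Vale.Agent.Lib.P012.Defs

/-! Module E of P012: a Chebyshev-type lower bound for the number of primes up to `2 ^ z`
and the existence of a pool of fresh primes. -/

namespace Vale.Agent.Lib.P012

open Finset

/-- the set of primes `≤ N` has `primeCounting N` elements -/
theorem card_primes_le (N : ℕ) :
    ((Finset.range (N + 1)).filter Nat.Prime).card = Nat.primeCounting N := by
  rw [Nat.primeCounting, Nat.primeCounting', Nat.count_eq_card_filter_range]

theorem centralBinom_le_pow (n : ℕ) (hn : 0 < n) :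
    Nat.centralBinom n ≤ (2 * n) ^ Nat.primeCounting (2 * n) := by
  rw [← Nat.prod_pow_factorization_centralBinom n, ← card_primes_le, ← Finset.prod_const]
  rw [Finset.prod_filter]
  refine Finset.prod_le_prod' fun p _ => ?_
  split_ifs with hp
  · exact Nat.pow_factorization_choose_le (by omega)
  · rw [Nat.factorization_eq_zero_of_not_prime _ hp, pow_zero]

theorem primeCounting_lower (z : ℕ) (hz : 1 ≤ z) : 2 ^ z ≤ z * (Nat.primeCounting (2 ^ z) + 1) := by
  obtain ⟨y, rfl⟩ : ∃ y, z = y + 1 := ⟨z - 1, by omega⟩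
  set n := 2 ^ y with hn
  have hnpos : 0 < n := by positivity
  have h2n : 2 ^ (y + 1) = 2 * n := by rw [pow_succ, mul_comm]
  have h1 := Nat.four_pow_le_two_mul_self_mul_centralBinom n hnpos
  have h2 := centralBinom_le_pow n hnpos
  have h3 : 4 ^ n ≤ (2 * n) ^ (Nat.primeCounting (2 * n) + 1) := by
    calc 4 ^ n ≤ 2 * n * Nat.centralBinom n := h1
      _ ≤ 2 * n * (2 * n) ^ Nat.primeCounting (2 * n) := Nat.mul_le_mul_left _ h2
      _ = (2 * n) ^ (Nat.primeCounting (2 * n) + 1) := by rw [pow_succ, mul_comm]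
  have h4 : (4 : ℕ) ^ n = 2 ^ (2 * n) := by
    rw [pow_mul]; norm_num
  rw [h4, ← h2n, ← pow_mul] at h3
  exact (Nat.pow_le_pow_iff_right (by norm_num)).1 h3

/-- pool of fresh primes -/
theorem exists_pool (P : Finset ℕ) (z M : ℕ) (hz : 1 ≤ z) (h : z * (M + P.card + 1) ≤ 2 ^ z) :
    ∃ R : Finset ℕ, (∀ q ∈ R, q.Prime) ∧ (∀ q ∈ R, q ≤ 2 ^ z) ∧ Disjoint P R ∧ M ≤ R.card := by
  refine ⟨((Finset.range (2 ^ z + 1)).filter Nat.Prime) \ P, ?_, ?_, ?_, ?_⟩
  · intro q hq
    exact (Finset.mem_filter.1 (Finset.mem_sdiff.1 hq).1).2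
  · intro q hq
    have := (Finset.mem_filter.1 (Finset.mem_sdiff.1 hq).1).1
    exact Nat.lt_succ_iff.1 (Finset.mem_range.1 this)
  · exact Finset.disjoint_sdiff
  · have h1 := primeCounting_lower z hz
    have h2 : z * (M + P.card + 1) ≤ z * (Nat.primeCounting (2 ^ z) + 1) := h.trans h1
    have h3 : M + P.card + 1 ≤ Nat.primeCounting (2 ^ z) + 1 := Nat.le_of_mul_le_mul_left h2 hz
    have h4 := Finset.le_card_sdiff P ((Finset.range (2 ^ z + 1)).filter Nat.Prime)
    rw [card_primes_le] at h4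
    omega

end Vale.Agent.Lib.P012
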