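import Vale.Agent.Lib.P012.Defs

namespace Vale.Agent.Lib.P012

open Finset

theorem card_primes_dvd_le {R : Finset ℕ} (hR : ∀ q ∈ R, q.Prime) {t W : ℕ} (ht : t ≠ 0)
    (htW : t < 2 ^ W) : (R.filter (fun q => q ∣ t)).card ≤ W := by
  have h1 : ∏ q ∈ R.filter (fun q => q ∣ t), q ∣ t := by
    apply Finset.prod_primes_dvd
    · intro q hq; exact (hR q (Finset.mem_filter.1 hq).1).prime
    · intro q hq; exact (Finset.mem_filter.1 hq).2
  have h2 : 2 ^ (R.filter (fun q => q ∣ t)).card ≤ ∏ q ∈ R.filter (fun q => q ∣ t), q := by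
    apply Finset.pow_card_le_prod
    intro q hq; exact (hR q (Finset.mem_filter.1 hq).1).two_le
  have h3 := Nat.le_of_dvd (Nat.pos_of_ne_zero ht) h1
  have h4 : 2 ^ (R.filter (fun q => q ∣ t)).card < 2 ^ W := by omega
  exact le_of_lt ((Nat.pow_lt_pow_iff_right (by norm_num)).1 h4)

theorem sum_off_le {R : Finset ℕ} (hR : ∀ q ∈ R, q.Prime) (X : Finset ℕ) (W : ℕ)
    (hW : ∀ a ∈ X, a < 2 ^ W) (D : ℕ) :
    ∑ q ∈ R, off X (q * D) ≤ W * off X D := by
  unfold off
  simp only [Finset.card_filter]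
  rw [Finset.sum_comm, Finset.mul_sum]
  apply Finset.sum_le_sum
  intro p hp
  obtain ⟨hp1, hp2⟩ := Finset.mem_product.1 hp
  by_cases hne : p.1 = p.2
  · simp [hne]
  by_cases hD : p.1 ≡ p.2 [MOD D]
  · have hcond : (p.1 ≠ p.2 ∧ p.1 ≡ p.2 [MOD D]) := ⟨hne, hD⟩
    rw [if_pos hcond, mul_one]
    set t : ℕ := ((p.2 : ℤ) - (p.1 : ℤ)).natAbs with ht
    have ht0 : t ≠ 0 := by
      rw [ht]; intro h
      apply hne
      have := Int.natAbs_eq_zero.1 h
      omega
    have htW : t < 2 ^ W := by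
      have h1 := hW _ hp1
      have h2 := hW _ hp2
      rw [ht]; omega
    calc ∑ q ∈ R, (if p.1 ≠ p.2 ∧ p.1 ≡ p.2 [MOD q * D] then 1 else 0)
        ≤ ∑ q ∈ R, (if q ∣ t then 1 else 0) := by
          apply Finset.sum_le_sum
          intro q _
          by_cases hq : p.1 ≠ p.2 ∧ p.1 ≡ p.2 [MOD q * D]
          · have h1 : p.1 ≡ p.2 [MOD q] := Nat.ModEq.of_mul_right D hq.2
            have h2 : (q : ℤ) ∣ (p.2 : ℤ) - (p.1 : ℤ) := (Nat.modEq_iff_dvd).1 h1
            have h3 : q ∣ t := Int.natCast_dvd.1 h2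
            rw [if_pos hq, if_pos h3]
          · rw [if_neg hq]; exact Nat.zero_le _
      _ = (R.filter (fun q => q ∣ t)).card := by rw [Finset.card_filter]
      _ ≤ W := card_primes_dvd_le hR ht0 htW
  · have : ∀ q ∈ R, (if p.1 ≠ p.2 ∧ p.1 ≡ p.2 [MOD q * D] then 1 else 0) = 0 := by
      intro q _
      rw [if_neg]
      rintro ⟨_, h⟩
      exact hD (Nat.ModEq.of_mul_left q h)
    rw [Finset.sum_eq_zero this]
    exact Nat.zero_le _

theorem off_le_sq (X : Finset ℕ) (d : ℕ) : off X d ≤ X.card ^ 2 := by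
  unfold off
  calc _ ≤ (X ×ˢ X).card := Finset.card_filter_le _ _
    _ = X.card ^ 2 := by rw [Finset.card_product, sq]

/-- the potential -/
noncomputable def Psi {ι : Type*} [Fintype ι] (X : ι → Finset ℕ) (w : ι → ℝ) (lam : ℝ)
    (S : Finset ℕ) : ℝ :=
  ∑ i, w i * ∑ U ∈ S.powerset, lam ^ U.card * (off (X i) (∏ q ∈ U, q) : ℝ)

/-- the increment -/
noncomputable def Inc {ι : Type*} [Fintype ι] (X : ι → Finset ℕ) (w : ι → ℝ) (lam : ℝ)
    (S : Finset ℕ) (q : ℕ) : ℝ :=
  ∑ i, w i * ∑ U ∈ S.powerset, lam ^ (U.card + 1) * (off (X i) (q * ∏ r ∈ U, r) : ℝ)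

theorem Psi_insert {ι : Type*} [Fintype ι] (X : ι → Finset ℕ) (w : ι → ℝ) (lam : ℝ)
    (S : Finset ℕ) (q : ℕ) (hq : q ∉ S) :
    Psi X w lam (insert q S) = Psi X w lam S + Inc X w lam S q := by
  unfold Psi Inc
  rw [← Finset.sum_add_distrib]
  apply Finset.sum_congr rfl
  intro i _
  rw [Finset.sum_powerset_insert hq, mul_add]
  congr 2
  apply Finset.sum_congr rfl
  intro U hU
  have hqU : q ∉ U := fun h => hq (Finset.mem_powerset.1 hU h)
  rw [Finset.card_insert_of_notMem hqU, Finset.prod_insert hqU]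

theorem Psi_nonneg {ι : Type*} [Fintype ι] (X : ι → Finset ℕ) (w : ι → ℝ) (lam : ℝ)
    (hw : ∀ i, 0 ≤ w i) (hl : 0 ≤ lam) (S : Finset ℕ) : 0 ≤ Psi X w lam S := by
  unfold Psi
  apply Finset.sum_nonneg
  intro i _
  apply mul_nonneg (hw i)
  apply Finset.sum_nonneg
  intro U _
  positivity

theorem sum_Inc_le {ι : Type*} [Fintype ι] (X : ι → Finset ℕ) (w : ι → ℝ) (lam : ℝ)
    (hw : ∀ i, 0 ≤ w i) (hl : 0 ≤ lam) (S R : Finset ℕ) (hR : ∀ q ∈ R, q.Prime) (W : ℕ)
    (hW : ∀ i, ∀ a ∈ X i, a < 2 ^ W) :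
    ∑ q ∈ R, Inc X w lam S q ≤ lam * W * Psi X w lam S := by
  unfold Psi Inc
  rw [Finset.sum_comm, Finset.mul_sum]
  apply Finset.sum_le_sum
  intro i _
  rw [← Finset.mul_sum, Finset.sum_comm]
  have : lam * W * (w i * ∑ U ∈ S.powerset, lam ^ U.card * (off (X i) (∏ q ∈ U, q) : ℝ))
      = w i * ∑ U ∈ S.powerset, lam ^ (U.card + 1) * ((W * off (X i) (∏ q ∈ U, q) : ℕ) : ℝ) := by
    rw [Finset.mul_sum, Finset.mul_sum, Finset.mul_sum]
    apply Finset.sum_congr rfl
    intro U _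
    push_cast
    ring
  rw [this]
  apply mul_le_mul_of_nonneg_left _ (hw i)
  apply Finset.sum_le_sum
  intro U _
  rw [← Finset.mul_sum]
  apply mul_le_mul_of_nonneg_left _ (by positivity)
  have := sum_off_le hR (X i) W (hW i) (∏ q ∈ U, q)
  exact_mod_cast this

theorem select {ι : Type*} [Fintype ι] (X : ι → Finset ℕ) (W j M : ℕ) (P : Finset ℕ)
    (hP : ∀ q ∈ P, q.Prime) (hcard : M + j ≤ P.card) (hj : 0 < j) (hM : 0 < M) (hW0 : 0 < W)
    (hW : ∀ i, ∀ a ∈ X i, a < 2 ^ W) :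
    ∃ S ⊆ P, S.card = j ∧ ∀ U ⊆ S, ∀ i,
      (off (X i) (∏ q ∈ U, q) : ℝ)
        ≤ 3 * Fintype.card ι * ((X i).card : ℝ) ^ 2 * ((j * W : ℝ) / M) ^ U.card := by
  set w : ι → ℝ := fun i => 1 / ((X i).card : ℝ) ^ 2 with hwdef
  set lam : ℝ := (M : ℝ) / (j * W) with hlam
  have hjR : (0 : ℝ) < j := by exact_mod_cast hj
  have hMR : (0 : ℝ) < M := by exact_mod_cast hM
  have hWR : (0 : ℝ) < W := by exact_mod_cast hW0
  have hw : ∀ i, 0 ≤ w i := fun i => by simp only [hwdef]; positivity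
  have hl : 0 < lam := by rw [hlam]; positivity
  have key : ∀ s, s ≤ j → ∃ S ⊆ P, S.card = s ∧
      Psi X w lam S ≤ (1 + 1 / (j : ℝ)) ^ s * Psi X w lam ∅ := by
    intro s
    induction s with
    | zero => intro _; exact ⟨∅, Finset.empty_subset _, rfl, by simp⟩
    | succ s ih =>
      intro hs
      obtain ⟨S, hSP, hSc, hS⟩ := ih (by omega)
      set R := P \ S with hRdef
      have hRc : M < R.card := by
        have := Finset.card_sdiff_add_card_eq_card hSP
        rw [hRdef]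
        omega
      have hRne : R.Nonempty := Finset.card_pos.1 (by omega)
      have hRp : ∀ q ∈ R, q.Prime := fun q hq => hP q (Finset.mem_sdiff.1 hq).1
      have hsum := sum_Inc_le X w lam hw hl.le S R hRp W hW
      have hPs := Psi_nonneg X w lam hw hl.le S
      have hRcR : (M : ℝ) < R.card := by exact_mod_cast hRc
      have hex : ∃ q ∈ R, Inc X w lam S q ≤ Psi X w lam S / j := by
        apply Finset.exists_le_of_sum_le hRne
        rw [Finset.sum_const, nsmul_eq_mul]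
        refine hsum.trans ?_
        have h1 : lam * W = M / j := by rw [hlam]; field_simp
        rw [h1]
        have : (M : ℝ) / j * Psi X w lam S = M * (Psi X w lam S / j) := by ring
        rw [this]
        apply mul_le_mul_of_nonneg_right hRcR.le
        positivity
      obtain ⟨q, hqR, hq⟩ := hex
      have hqS : q ∉ S := (Finset.mem_sdiff.1 hqR).2
      refine ⟨insert q S, ?_, ?_, ?_⟩
      · intro x hx
        rcases Finset.mem_insert.1 hx with rfl | hx
        · exact (Finset.mem_sdiff.1 hqR).1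
        · exact hSP hx
      · rw [Finset.card_insert_of_notMem hqS, hSc]
      · rw [Psi_insert X w lam S q hqS]
        calc Psi X w lam S + Inc X w lam S q ≤ Psi X w lam S + Psi X w lam S / j := by linarith
          _ = (1 + 1 / (j : ℝ)) * Psi X w lam S := by ring
          _ ≤ (1 + 1 / (j : ℝ)) * ((1 + 1 / (j : ℝ)) ^ s * Psi X w lam ∅) := by
              apply mul_le_mul_of_nonneg_left hS; positivity
          _ = (1 + 1 / (j : ℝ)) ^ (s + 1) * Psi X w lam ∅ := by ring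
  obtain ⟨S, hSP, hSc, hS⟩ := key j le_rfl
  refine ⟨S, hSP, hSc, ?_⟩
  have hpow : (1 + 1 / (j : ℝ)) ^ j ≤ 3 := by
    have h1 : 1 + 1 / (j : ℝ) ≤ Real.exp (1 / j) := by
      have := Real.add_one_le_exp (1 / (j : ℝ)); linarith
    calc (1 + 1 / (j : ℝ)) ^ j ≤ (Real.exp (1 / j)) ^ j := by
          apply pow_le_pow_left₀ (by positivity) h1
      _ = Real.exp 1 := by
          rw [← Real.exp_nat_mul]; congr 1; field_simp
      _ ≤ 3 := by have := Real.exp_one_lt_d9; linarith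
  have hempty : Psi X w lam ∅ ≤ Fintype.card ι := by
    unfold Psi
    calc _ ≤ ∑ _i : ι, (1 : ℝ) := by
          apply Finset.sum_le_sum
          intro i _
          simp only [Finset.powerset_empty, Finset.sum_singleton, Finset.card_empty, pow_zero,
            Finset.prod_empty, one_mul, hwdef]
          have h := off_le_sq (X i) 1
          have h' : (off (X i) 1 : ℝ) ≤ ((X i).card : ℝ) ^ 2 := by exact_mod_cast h
          by_cases h0 : ((X i).card : ℝ) ^ 2 = 0
          · rw [h0]; simp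
          · have hpos : 0 < ((X i).card : ℝ) ^ 2 := lt_of_le_of_ne (by positivity) (Ne.symm h0)
            rw [one_div, inv_mul_le_iff₀ hpos]; linarith
      _ = Fintype.card ι := by simp
  have hempty0 := Psi_nonneg X w lam hw hl.le ∅
  have hfin : Psi X w lam S ≤ 3 * Fintype.card ι := by
    refine hS.trans ?_
    calc (1 + 1 / (j : ℝ)) ^ j * Psi X w lam ∅ ≤ 3 * Psi X w lam ∅ :=
          mul_le_mul_of_nonneg_right hpow hempty0
      _ ≤ 3 * Fintype.card ι := by linarith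
  intro U hU i
  have hterm : w i * (lam ^ U.card * (off (X i) (∏ q ∈ U, q) : ℝ)) ≤ Psi X w lam S := by
    unfold Psi
    have h1 : w i * (lam ^ U.card * (off (X i) (∏ q ∈ U, q) : ℝ))
        ≤ w i * ∑ U ∈ S.powerset, lam ^ U.card * (off (X i) (∏ q ∈ U, q) : ℝ) := by
      apply mul_le_mul_of_nonneg_left _ (hw i)
      apply Finset.single_le_sum (f := fun U => lam ^ U.card * (off (X i) (∏ q ∈ U, q) : ℝ))
      · intro V _; positivity
      · exact Finset.mem_powerset.2 hU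
    refine h1.trans ?_
    apply Finset.single_le_sum
      (f := fun i => w i * ∑ U ∈ S.powerset, lam ^ U.card * (off (X i) (∏ q ∈ U, q) : ℝ))
    · intro k _
      apply mul_nonneg (hw k)
      apply Finset.sum_nonneg
      intro V _; positivity
    · exact Finset.mem_univ i
  have hinv : ((j * W : ℝ) / M) = lam⁻¹ := by rw [hlam, inv_div]
  rw [hinv, inv_pow]
  by_cases h0 : (X i).card = 0
  · have h := off_le_sq (X i) (∏ q ∈ U, q)
    rw [h0] at h
    have h2 : off (X i) (∏ q ∈ U, q) = 0 := by simpa using h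
    rw [h2, h0]; simp
  · have hpos : 0 < ((X i).card : ℝ) ^ 2 := by
      have : 0 < ((X i).card : ℝ) := by exact_mod_cast Nat.pos_of_ne_zero h0
      positivity
    have hlp : 0 < lam ^ U.card := by positivity
    have h3 := hterm.trans hfin
    simp only [hwdef] at h3
    rw [one_div, inv_mul_le_iff₀ hpos] at h3
    rw [← div_eq_mul_inv, le_div_iff₀ hlp]
    nlinarith [h3]

theorem select_primes (XX : Finset (Finset ℕ)) (W j M : ℕ) (P : Finset ℕ) (hP : ∀ q ∈ P, q.Prime)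
    (hX : ∀ X ∈ XX, ∀ a ∈ X, a < 2 ^ W) (hcard : M + j ≤ P.card) (hM : 0 < M) (hj : 0 < j)
    (hW : 0 < W) :
    ∃ S ⊆ P, S.card = j ∧ ∀ X ∈ XX, ∀ U ⊆ S,
      (off X (∏ q ∈ U, q) : ℝ) ≤
        3 * (XX.card : ℝ) * ((X.card : ℝ)) ^ 2 * (((j : ℝ) * W) / M) ^ U.card := by
  obtain ⟨S, hSP, hSc, hS⟩ := select (ι := XX) (fun X => X.1) W j M P hP hcard hj hM hW
    (fun X => hX X.1 X.2)
  refine ⟨S, hSP, hSc, ?_⟩
  intro X hXX U hU
  have := hS U hU ⟨X, hXX⟩
  rw [Fintype.card_coe] at this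
  exact this

end Vale.Agent.Lib.P012
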