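import Vale.Agent.Lib.P012.Stage
import Vale.Agent.Lib.P012.Select
import Vale.Agent.Lib.P012.PrimeCount
import Vale.Agent.Lib.P012.Fourier

namespace Vale.Agent.Lib.P012

theorem card_divisors_prod_primes (G : Finset ℕ) (hG : ∀ p ∈ G, p.Prime) :
    (∏ p ∈ G, p).divisors.card = 2 ^ G.card := by
  classical
  induction G using Finset.induction_on with
  | empty => simp
  | insert a s ha ih =>
    have hs : ∀ p ∈ s, p.Prime := fun p hp => hG p (Finset.mem_insert_of_mem hp)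
    have hap : a.Prime := hG a (Finset.mem_insert_self a s)
    rw [Finset.prod_insert ha, Finset.card_insert_of_notMem ha]
    have hc : Nat.Coprime a (∏ p ∈ s, p) := by
      rw [Nat.coprime_prod_right_iff]
      intro p hp
      rw [Nat.coprime_primes hap (hs p hp)]
      rintro rfl; exact ha hp
    rw [Nat.Coprime.card_divisors_mul hc, ih hs, Nat.Prime.divisors hap]
    have : a ≠ 1 := hap.one_lt.ne'
    rw [Finset.card_pair (Ne.symm this)]
    ring

theorem energy_eq (X : Finset ℕ) (m : ℕ) : energy X m = X.card + off X m := by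
  classical
  unfold energy off
  have h1 : ((X ×ˢ X).filter (fun p => p.1 ≡ p.2 [MOD m])) =
      ((X ×ˢ X).filter (fun p => p.1 = p.2)) ∪
        ((X ×ˢ X).filter (fun p => p.1 ≠ p.2 ∧ p.1 ≡ p.2 [MOD m])) := by
    ext p
    simp only [Finset.mem_filter, Finset.mem_union]
    constructor
    · rintro ⟨h, h2⟩
      by_cases he : p.1 = p.2
      · exact Or.inl ⟨h, he⟩
      · exact Or.inr ⟨h, he, h2⟩
    · rintro (⟨h, he⟩ | ⟨h, _, h2⟩)
      · exact ⟨h, by rw [he]⟩
      · exact ⟨h, h2⟩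
  rw [h1, Finset.card_union_of_disjoint]
  · congr 1
    have : ((X ×ˢ X).filter (fun p => p.1 = p.2)) = X.diag := by
      ext p; simp only [Finset.mem_filter, Finset.mem_product, Finset.mem_diag]
      constructor
      · rintro ⟨⟨h, _⟩, he⟩; exact ⟨h, he⟩
      · rintro ⟨h, he⟩; exact ⟨⟨h, he ▸ h⟩, he⟩
    rw [this, Finset.diag_card]
  · rw [Finset.disjoint_filter]
    intro p _ h1 h2
    exact h2.1 h1

theorem exists_groups (g : ℕ) : ∀ (t : ℕ) (P : Finset ℕ), t * g ≤ P.card →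
    ∃ G : Fin t → Finset ℕ, (∀ l, G l ⊆ P) ∧ (∀ l, (G l).card = g) ∧
      (∀ l l', l ≠ l' → Disjoint (G l) (G l')) := by
  classical
  intro t
  induction t with
  | zero => intro P _; exact ⟨fun l => l.elim0, fun l => l.elim0, fun l => l.elim0, fun l => l.elim0⟩
  | succ t ih =>
    intro P h
    have hg : g ≤ P.card := by nlinarith
    obtain ⟨G0, hG0, hc0⟩ := Finset.exists_subset_card_eq hg
    have h' : t * g ≤ (P \ G0).card := by
      rw [Finset.card_sdiff_of_subset hG0, hc0]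
      have : (t + 1) * g = t * g + g := by ring
      omega
    obtain ⟨G, h1, h2, h3⟩ := ih (P \ G0) h'
    refine ⟨Fin.cons G0 G, ?_, ?_, ?_⟩
    · intro l
      refine Fin.cases ?_ (fun i => ?_) l
      · simpa using hG0
      · simpa using (h1 i).trans Finset.sdiff_subset
    · intro l
      refine Fin.cases ?_ (fun i => ?_) l
      · simpa using hc0
      · simpa using h2 i
    · intro l l'
      refine Fin.cases ?_ (fun i => ?_) l <;> refine Fin.cases ?_ (fun i' => ?_) l'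
      · intro h; exact absurd rfl h
      · intro _
        simp only [Fin.cons_zero, Fin.cons_succ]
        exact Finset.disjoint_of_subset_right (h1 i') Finset.disjoint_sdiff
      · intro _
        simp only [Fin.cons_zero, Fin.cons_succ]
        exact (Finset.disjoint_of_subset_right (h1 i) Finset.disjoint_sdiff).symm
      · intro h
        simp only [Fin.cons_succ]
        exact h3 i i' (fun e => h (by rw [e]))

theorem coprime_prod_of_disjoint (G G' : Finset ℕ) (hG : ∀ p ∈ G, p.Prime) (hG' : ∀ p ∈ G', p.Prime)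
    (hd : Disjoint G G') : Nat.Coprime (∏ p ∈ G, p) (∏ p ∈ G', p) := by
  rw [Nat.coprime_prod_left_iff]
  intro p hp
  rw [Nat.coprime_prod_right_iff]
  intro q hq
  rw [Nat.coprime_primes (hG p hp) (hG' q hq)]
  rintro rfl
  exact (Finset.disjoint_left.mp hd hp) hq


theorem sum_le_prod_of_two_le {ι : Type*} (s : Finset ι) (f : ι → ℕ) (h : ∀ i ∈ s, 2 ≤ f i) :
    ∑ i ∈ s, f i ≤ ∏ i ∈ s, f i ∧ (s.Nonempty → 2 ≤ ∏ i ∈ s, f i) := by
  classical
  induction s using Finset.induction_on with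
  | empty => simp
  | insert a s ha ih =>
    have hs : ∀ i ∈ s, 2 ≤ f i := fun i hi => h i (Finset.mem_insert_of_mem hi)
    have h2 : 2 ≤ f a := h a (Finset.mem_insert_self a s)
    obtain ⟨i1, i2⟩ := ih hs
    rw [Finset.sum_insert ha, Finset.prod_insert ha]
    rcases s.eq_empty_or_nonempty with rfl | hne
    · simp [h2]
    · have h3 := i2 hne
      constructor
      · nlinarith
      · intro _; nlinarith

theorem one_add_pow_le (y : ℝ) (hy : 0 ≤ y) : ∀ j : ℕ, 2 * (j : ℝ) * y ≤ 1 →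
    (1 + y) ^ j ≤ 1 + 2 * (j : ℝ) * y := by
  intro j
  induction j with
  | zero => intro _; simp
  | succ j ih =>
    intro h
    push_cast at h ⊢
    have h' : 2 * (j : ℝ) * y ≤ 1 := by nlinarith
    have := ih h'
    rw [pow_succ]
    have hj : (0 : ℝ) ≤ j := Nat.cast_nonneg j
    calc (1 + y) ^ j * (1 + y) ≤ (1 + 2 * (j : ℝ) * y) * (1 + y) := by
          apply mul_le_mul_of_nonneg_right this (by linarith)
      _ = 1 + 2 * j * y + y + (2 * j * y) * y := by ring
      _ ≤ 1 + 2 * j * y + y + 1 * y := by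
          have : (2 * (j : ℝ) * y) * y ≤ 1 * y := mul_le_mul_of_nonneg_right h' hy
          linarith
      _ = 1 + 2 * ((j : ℝ) + 1) * y := by ring


theorem energy_bound (X : Finset ℕ) (m t z j : ℕ) (c θ : ℝ) (hθ : 1 ≤ θ * 2 ^ z) (hθ0 : 0 ≤ θ)
    (ht : t ≤ j) (hX : 2 ^ (z * j) ≤ X.card) (hc : c ≤ 12)
    (hoff : (off X m : ℝ) ≤ 3 * c * (X.card : ℝ) ^ 2 * θ ^ t) :
    (energy X m : ℝ) ≤ 37 * (X.card : ℝ) ^ 2 * θ ^ t := by
  rw [energy_eq]
  push_cast
  set x : ℝ := (X.card : ℝ) with hx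
  have hx0 : 0 ≤ x := Nat.cast_nonneg _
  have h1 : ((2 : ℝ) ^ z) ^ t ≤ x := by
    have h2 : ((2 : ℝ) ^ z) ^ t ≤ ((2 : ℝ) ^ z) ^ j :=
      pow_le_pow_right₀ (one_le_pow₀ (by norm_num)) ht
    have h3 : ((2 : ℝ) ^ z) ^ j ≤ x := by
      rw [← pow_mul, hx]
      exact_mod_cast hX
    linarith
  have hθt : 0 ≤ θ ^ t := pow_nonneg hθ0 t
  have h4 : 1 ≤ θ ^ t * x := by
    have h5 : (1 : ℝ) ≤ (θ * 2 ^ z) ^ t := one_le_pow₀ hθ
    rw [mul_pow] at h5
    have h6 : θ ^ t * ((2 : ℝ) ^ z) ^ t ≤ θ ^ t * x := mul_le_mul_of_nonneg_left h1 hθt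
    linarith
  have h7 : x ≤ x ^ 2 * θ ^ t := by
    have : x * 1 ≤ x * (θ ^ t * x) := mul_le_mul_of_nonneg_left h4 hx0
    nlinarith
  have h8 : 3 * c * x ^ 2 * θ ^ t ≤ 36 * x ^ 2 * θ ^ t := by
    have : 0 ≤ x ^ 2 * θ ^ t := by positivity
    nlinarith
  linarith


theorem stage_full (P : Finset ℕ) (hP : ∀ p ∈ P, p.Prime) (T g z j M : ℕ)
    (hg : 12 * g ≤ P.card) (hz : ∀ p ∈ P, p ≤ 2 ^ z) (hz1 : 1 ≤ z) (hj : 1 ≤ j) (hzj : z * j + 1 ≤ g)
    (hM : 0 < M) (hM2 : M ≤ 2 ^ z) (hpool : z * (M + j + P.card + 1) ≤ 2 ^ z)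
    (hnum : 4 * 37 ^ 6 * j * (2 ^ z) ^ 4 * (j * (z * P.card + 1)) ^ 6 ≤ M ^ 6)
    (hprac : Prac (∏ p ∈ P, p) T) :
    ∃ S : Finset ℕ, (∀ q ∈ S, q.Prime) ∧ Disjoint P S ∧ S.card = j ∧ (∀ q ∈ S, q ≤ 2 ^ z) ∧
      Prac (∏ p ∈ P ∪ S, p) (T + 6) := by
  classical
  obtain ⟨G, hGsub, hGcard, hGdisj⟩ := exists_groups g 12 P hg
  have hGp : ∀ l, ∀ p ∈ G l, p.Prime := fun l p hp => hP p (hGsub l hp)
  set N : ℕ := ∏ p ∈ P, p with hN
  have hNpos : 0 < N := Finset.prod_pos (fun p hp => (hP p hp).pos)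
  let ia : Fin 6 → Fin 12 := fun i => ⟨2 * i.val, by omega⟩
  let ib : Fin 6 → Fin 12 := fun i => ⟨2 * i.val + 1, by omega⟩
  let Nn : Fin 12 → ℕ := fun l => ∏ p ∈ G l, p
  have hNnpos : ∀ l, 0 < Nn l := fun l => Finset.prod_pos (fun p hp => (hGp l p hp).pos)
  have hNndvd : ∀ l, Nn l ∣ N := fun l => Finset.prod_dvd_prod_of_subset _ _ _ (hGsub l)
  let A : Fin 6 → Finset ℕ := fun i => (Nn (ia i)).divisors.erase 1
  let B : Fin 6 → Finset ℕ := fun i => (Nn (ib i)).divisors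
  set W : ℕ := z * P.card + 1 with hW
  -- sizes
  have hpow : 2 ^ (z * j) + 1 ≤ 2 ^ g := by
    have h1 : 2 ^ (z * j + 1) ≤ 2 ^ g := Nat.pow_le_pow_right (by norm_num) hzj
    have h2 : 1 ≤ 2 ^ (z * j) := Nat.one_le_two_pow
    rw [pow_succ] at h1
    omega
  have hAcard : ∀ i, 2 ^ (z * j) ≤ (A i).card := by
    intro i
    have h1 : (1 : ℕ) ∈ (Nn (ia i)).divisors := Nat.one_mem_divisors.mpr (hNnpos _).ne'
    have h2 : (A i).card = 2 ^ g - 1 := by
      simp only [A]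
      rw [Finset.card_erase_of_mem h1, card_divisors_prod_primes _ (hGp _), hGcard]
    omega
  have hBcard : ∀ i, 2 ^ (z * j) ≤ (B i).card := by
    intro i
    have h2 : (B i).card = 2 ^ g := by
      simp only [B]
      rw [card_divisors_prod_primes _ (hGp _), hGcard]
    omega
  have hNle : N < 2 ^ W := by
    have h1 : N ≤ ∏ _p ∈ P, 2 ^ z := Finset.prod_le_prod' hz
    rw [Finset.prod_const, ← pow_mul] at h1
    have h2 : 2 ^ (z * P.card) < 2 ^ W := Nat.pow_lt_pow_right (by norm_num) (by omega)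
    omega
  let X : Fin 6 ⊕ Fin 6 → Finset ℕ := Sum.elim A B
  have hXW : ∀ i, ∀ a ∈ X i, a < 2 ^ W := by
    intro i a ha
    have : a ∣ N := by
      rcases i with i | i
      · have h1 : a ∈ (Nn (ia i)).divisors := Finset.mem_of_mem_erase ha
        exact (Nat.dvd_of_mem_divisors h1).trans (hNndvd _)
      · exact (Nat.dvd_of_mem_divisors ha).trans (hNndvd _)
    exact lt_of_le_of_lt (Nat.le_of_dvd hNpos this) hNle
  obtain ⟨R, hRp, hRz, hRdisj, hRcard⟩ := exists_pool P z (M + j) hz1 hpool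
  obtain ⟨S, hSR, hScard, hSoff⟩ := select X W j M R hRp hRcard hj hM (by omega) hXW
  have hSp : ∀ q ∈ S, q.Prime := fun q hq => hRp q (hSR hq)
  have hSz : ∀ q ∈ S, q ≤ 2 ^ z := fun q hq => hRz q (hSR hq)
  have hPS : Disjoint P S := Finset.disjoint_of_subset_right hSR hRdisj
  refine ⟨S, hSp, hPS, hScard, hSz, ?_⟩
  set θ : ℝ := ((j : ℝ) * W) / M with hθ
  have hMr : (0 : ℝ) < M := by exact_mod_cast hM
  have hjW : (1 : ℝ) ≤ (j : ℝ) * W := by
    have : 1 ≤ j * W := Nat.one_le_iff_ne_zero.mpr (by positivity)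
    exact_mod_cast this
  have hθ0 : 0 ≤ θ := by positivity
  have hθ1 : 1 ≤ θ * 2 ^ z := by
    have h1 : (M : ℝ) ≤ 2 ^ z := by exact_mod_cast hM2
    rw [hθ, div_mul_eq_mul_div, le_div_iff₀ hMr]
    nlinarith
  have hen : ∀ i, ∀ U ⊆ S, 2 ^ (z * j) ≤ (X i).card →
      (energy (X i) (∏ q ∈ U, q) : ℝ) ≤ 37 * ((X i).card : ℝ) ^ 2 * θ ^ U.card := by
    intro i U hU hc
    apply energy_bound (X i) _ U.card z j (Fintype.card (Fin 6 ⊕ Fin 6) : ℝ) θ hθ1 hθ0
      (hScard ▸ Finset.card_le_card hU) hc (by simp)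
    exact hSoff U hU i
  have hsmall : (37 : ℝ) ^ 6 * ((1 + ((2 ^ z : ℕ) : ℝ) ^ 4 * θ ^ 6) ^ S.card - 1) < 1 := by
    set y : ℝ := ((2 ^ z : ℕ) : ℝ) ^ 4 * θ ^ 6 with hy
    have hy0 : 0 ≤ y := by positivity
    have hnumr : (4 : ℝ) * 37 ^ 6 * j * ((2 ^ z : ℕ) : ℝ) ^ 4 * ((j : ℝ) * W) ^ 6 ≤ (M : ℝ) ^ 6 := by
      exact_mod_cast hnum
    have hy1 : 4 * 37 ^ 6 * (j : ℝ) * y ≤ 1 := by
      rw [hy, hθ, div_pow]
      have hM6 : (0 : ℝ) < (M : ℝ) ^ 6 := by positivity
      rw [← mul_div_assoc, ← mul_div_assoc, div_le_one hM6]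
      calc 4 * 37 ^ 6 * (j : ℝ) * (((2 ^ z : ℕ) : ℝ) ^ 4 * ((j : ℝ) * W) ^ 6)
          = (4 : ℝ) * 37 ^ 6 * j * ((2 ^ z : ℕ) : ℝ) ^ 4 * ((j : ℝ) * W) ^ 6 := by ring
        _ ≤ _ := hnumr
    have hjy : 0 ≤ (j : ℝ) * y := by positivity
    have h2 : 2 * (j : ℝ) * y ≤ 1 := by nlinarith
    have h3 := one_add_pow_le y hy0 j h2
    rw [hScard]
    nlinarith
  have hQ2 : 2 ≤ ∏ q ∈ S, q := by
    have hne : S.Nonempty := by
      rw [← Finset.card_pos]; omega
    exact (sum_le_prod_of_two_le S (fun q => q) (fun q hq => (hSp q hq).two_le)).2 hne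
  have hcop : Nat.Coprime N (∏ q ∈ S, q) := coprime_prod_of_disjoint P S hP hSp hPS
  rw [Finset.prod_union hPS]
  apply prac_mul hprac hNpos hcop hQ2
  intro m
  obtain ⟨a, b, ha, hb, hab⟩ := cover_fourier S hSp (2 ^ z) hSz A B
    (fun i => by
      rw [← Finset.card_pos]
      exact lt_of_lt_of_le (by positivity) (hAcard i))
    (fun i => by
      rw [← Finset.card_pos]
      exact lt_of_lt_of_le (by positivity) (hBcard i))
    37 θ (by norm_num) hθ0
    (fun i U hU => hen (Sum.inl i) U hU (hAcard i))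
    (fun i U hU => hen (Sum.inr i) U hU (hBcard i)) hsmall m
  -- the six divisors
  let H : Fin 6 → Finset ℕ := fun i => G (ia i) ∪ G (ib i)
  have hiab : ∀ i, ia i ≠ ib i := by
    intro i h
    have := congrArg Fin.val h
    simp only [ia, ib] at this
    omega
  have hHprod : ∀ i, ∏ p ∈ H i, p = Nn (ia i) * Nn (ib i) := fun i =>
    Finset.prod_union (hGdisj _ _ (hiab i))
  have hHp : ∀ i, ∀ p ∈ H i, p.Prime := by
    intro i p hp
    rcases Finset.mem_union.mp hp with h | h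
    · exact hGp _ p h
    · exact hGp _ p h
  have hHdisj : ∀ i k, i ≠ k → Disjoint (H i) (H k) := by
    intro i k hik
    have hv : i.val ≠ k.val := fun h => hik (Fin.ext h)
    have n1 : ia i ≠ ia k := by
      intro h; have := congrArg Fin.val h; simp only [ia] at this; omega
    have n2 : ia i ≠ ib k := by
      intro h; have := congrArg Fin.val h; simp only [ia, ib] at this; omega
    have n3 : ib i ≠ ia k := by
      intro h; have := congrArg Fin.val h; simp only [ia, ib] at this; omega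
    have n4 : ib i ≠ ib k := by
      intro h; have := congrArg Fin.val h; simp only [ib] at this; omega
    simp only [H, Finset.disjoint_union_left, Finset.disjoint_union_right]
    exact ⟨⟨hGdisj _ _ n1, hGdisj _ _ n3⟩, ⟨hGdisj _ _ n2, hGdisj _ _ n4⟩⟩
  let d : Fin 6 → ℕ := fun i => a i * b i
  have hdH : ∀ i, d i ∣ ∏ p ∈ H i, p := by
    intro i
    rw [hHprod]
    exact mul_dvd_mul (Nat.dvd_of_mem_divisors (Finset.mem_of_mem_erase (ha i)))
      (Nat.dvd_of_mem_divisors (hb i))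
  have hHsub : ∀ i, H i ⊆ P := fun i => Finset.union_subset (hGsub _) (hGsub _)
  have hdN : ∀ i, d i ∣ N := fun i => (hdH i).trans (Finset.prod_dvd_prod_of_subset _ _ _ (hHsub i))
  have hdinj : Function.Injective d := by
    intro i k hik
    by_contra hne
    have hc := coprime_prod_of_disjoint (H i) (H k) (hHp i) (hHp k) (hHdisj i k hne)
    have h1 : d i ∣ 1 := by
      have := Nat.dvd_gcd (hdH i) (hik ▸ hdH k)
      rwa [hc.gcd_eq_one] at this
    have h2 : a i ∣ 1 := (Dvd.intro _ rfl).trans h1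
    have h3 : a i = 1 := Nat.dvd_one.mp h2
    exact (Finset.ne_of_mem_erase (ha i)) h3
  refine ⟨Finset.univ.image d, ?_, ?_, ?_, ?_⟩
  · intro x hx
    obtain ⟨i, _, rfl⟩ := Finset.mem_image.mp hx
    exact Nat.mem_divisors.mpr ⟨hdN i, hNpos.ne'⟩
  · exact le_trans Finset.card_image_le (by simp)
  · rw [Finset.sum_image (fun i _ k _ h => hdinj h)]
    have h1 : ∑ i, d i ≤ ∑ i, ∏ p ∈ H i, p :=
      Finset.sum_le_sum (fun i _ => Nat.le_of_dvd (Finset.prod_pos (fun p hp => (hHp i p hp).pos)) (hdH i))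
    have h2 : ∀ i ∈ (Finset.univ : Finset (Fin 6)), 2 ≤ ∏ p ∈ H i, p := by
      intro i _
      have hne : (H i).Nonempty := by
        rw [← Finset.card_pos]
        have : (G (ia i)).card ≤ (H i).card := Finset.card_le_card Finset.subset_union_left
        rw [hGcard] at this
        omega
      exact (sum_le_prod_of_two_le (H i) (fun q => q) (fun q hq => (hHp i q hq).two_le)).2 hne
    have h3 := (sum_le_prod_of_two_le Finset.univ (fun i => ∏ p ∈ H i, p) h2).1
    have h4 : ∏ i, ∏ p ∈ H i, p = ∏ p ∈ Finset.univ.biUnion H, p := by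
      rw [Finset.prod_biUnion]
      intro i _ k _ hik
      exact hHdisj i k hik
    have h5 : ∏ p ∈ Finset.univ.biUnion H, p ∣ N := by
      apply Finset.prod_dvd_prod_of_subset
      intro p hp
      obtain ⟨i, _, hi⟩ := Finset.mem_biUnion.mp hp
      exact hHsub i hi
    have h6 := Nat.le_of_dvd hNpos h5
    omega
  · rw [Finset.sum_image (fun i _ k _ h => hdinj h)]
    exact hab

end Vale.Agent.Lib.P012
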