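import Vale.Agent.Lib.P012.Defs3
import Vale.Agent.Lib.P012.Cover
import Vale.Agent.Lib.P012.StageFull

/-! P012 v3, module C2a: a good modulus `Q` divides some `∑ a i * b i`. -/

open Classical

namespace Vale.Agent.Lib.P012

open Finset

theorem Rough.of_dvd' {u n d : ℕ} (h : Rough u n) (hd : d ∣ n) : Rough u d :=
  fun p hp hpd => h p hp (hpd.trans hd)

/-- the divisors of `p * m` -/
theorem divisors_prime_mul_subset (p m : ℕ) (hp : p.Prime) :
    (p * m).divisors ⊆ m.divisors ∪ m.divisors.image (fun d => p * d) := by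
  intro d hd
  rw [Nat.mem_divisors] at hd
  obtain ⟨hd1, hd2⟩ := hd
  have hm : m ≠ 0 := fun h => hd2 (by rw [h, mul_zero])
  obtain ⟨d1, d2, h1, h2, h3⟩ := (Nat.dvd_mul).1 hd1
  rw [Finset.mem_union]
  rcases (Nat.dvd_prime hp).1 h1 with h | h
  · left
    rw [Nat.mem_divisors]
    refine ⟨?_, hm⟩
    rw [← h3, h, one_mul]
    exact h2
  · right
    rw [Finset.mem_image]
    exact ⟨d2, Nat.mem_divisors.2 ⟨h2, hm⟩, by rw [← h3, h]⟩

theorem sum_inv_divisors_le (u : ℕ) : ∀ k m : ℕ, 1 ≤ m → m < 2 ^ (k + 1) → Rough u m →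
    2 * (k : ℝ) * (1 / 2 ^ u) ≤ 1 →
    ∑ d ∈ m.divisors, (1 : ℝ) / d ≤ 1 + 2 * (k : ℝ) * (1 / 2 ^ u) := by
  intro k
  induction k with
  | zero =>
    intro m h1 h2 _ _
    have : m = 1 := by simp at h2; omega
    subst this
    simp
  | succ k ih =>
    intro m h1 h2 h3 h4
    have hy : (0 : ℝ) < 1 / 2 ^ u := by positivity
    set y : ℝ := 1 / 2 ^ u with hydef
    push_cast at h4 ⊢
    rcases Nat.eq_or_lt_of_le h1 with h | h
    · rw [← h]
      simp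
      nlinarith
    · have hne : m ≠ 1 := by omega
      have hp : (Nat.minFac m).Prime := Nat.minFac_prime hne
      obtain ⟨m', hm'⟩ := Nat.minFac_dvd m
      set p := Nat.minFac m with hpdef
      have hp2 : 2 ≤ p := hp.two_le
      have hm'pos : 1 ≤ m' := by
        rcases Nat.eq_zero_or_pos m' with h0 | h0
        · rw [h0, mul_zero] at hm'; omega
        · exact h0
      have hm'lt : m' < 2 ^ (k + 1) := by
        have : 2 * m' ≤ p * m' := Nat.mul_le_mul_right _ hp2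
        have h5 : 2 ^ (k + 1 + 1) = 2 * 2 ^ (k + 1) := by ring
        omega
      have hr' : Rough u m' := Rough.of_dvd' h3 ⟨p, by rw [hm', mul_comm]⟩
      have h4' : 2 * (k : ℝ) * y ≤ 1 := by nlinarith
      have ih' := ih m' hm'pos hm'lt hr' h4'
      have hpu : (2 : ℝ) ^ u ≤ p := by exact_mod_cast h3 p hp ⟨m', hm'⟩
      have hpy : (1 : ℝ) / p ≤ y := by
        rw [hydef]
        exact one_div_le_one_div_of_le (by positivity) hpu
      have hp0 : (0 : ℝ) < p := by exact_mod_cast hp.pos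
      have hS0 : 0 ≤ ∑ d ∈ m'.divisors, (1 : ℝ) / d :=
        Finset.sum_nonneg (fun d _ => by positivity)
      have himg : ∑ d ∈ m'.divisors.image (fun d => p * d), (1 : ℝ) / d =
          (1 / p) * ∑ d ∈ m'.divisors, (1 : ℝ) / d := by
        rw [Finset.sum_image (fun a _ b _ hab => Nat.eq_of_mul_eq_mul_left hp.pos hab),
          Finset.mul_sum]
        refine Finset.sum_congr rfl fun d _ => ?_
        push_cast
        rw [one_div_mul_one_div]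
      have hle : ∑ d ∈ m.divisors, (1 : ℝ) / d ≤
          ∑ d ∈ m'.divisors, (1 : ℝ) / d + (1 / p) * ∑ d ∈ m'.divisors, (1 : ℝ) / d := by
        rw [← himg, hm']
        refine le_trans (Finset.sum_le_sum_of_subset_of_nonneg
          (divisors_prime_mul_subset p m' hp) (fun d _ _ => by positivity)) ?_
        have h8 := Finset.sum_union_inter (s₁ := m'.divisors)
          (s₂ := m'.divisors.image (fun d => p * d)) (f := fun d : ℕ => (1 : ℝ) / d)
        have h9 : 0 ≤ ∑ d ∈ m'.divisors ∩ m'.divisors.image (fun d => p * d), (1 : ℝ) / d :=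
          Finset.sum_nonneg (fun d _ => by positivity)
        linarith
      have h6 : (1 / (p : ℝ)) * ∑ d ∈ m'.divisors, (1 : ℝ) / d ≤
          y * ∑ d ∈ m'.divisors, (1 : ℝ) / d := mul_le_mul_of_nonneg_right hpy hS0
      have h7 : y * ∑ d ∈ m'.divisors, (1 : ℝ) / d ≤ y * (1 + 2 * (k : ℝ) * y) :=
        mul_le_mul_of_nonneg_left ih' hy.le
      nlinarith

theorem energy_le_of_good (X : Finset ℕ) (d Q : ℕ) (hdQ : d ≤ Q) (hg : GoodD X d)
    (hc : 2 ^ (5 * Nat.log 2 Q / 6) ≤ X.card) :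
    (energy X d : ℝ) ≤ 2 / 2 ^ (5 * Nat.log 2 d / 6) * (X.card : ℝ) ^ 2 := by
  have h1 : 5 * Nat.log 2 d / 6 ≤ 5 * Nat.log 2 Q / 6 :=
    Nat.div_le_div_right (Nat.mul_le_mul_left _ (Nat.log_mono_right hdQ))
  have h2 : 2 ^ (5 * Nat.log 2 d / 6) ≤ X.card :=
    le_trans (Nat.pow_le_pow_right (by norm_num) h1) hc
  have h3 : energy X d * 2 ^ (5 * Nat.log 2 d / 6) ≤ 2 * X.card ^ 2 := by
    rw [energy_eq, add_mul]
    have h4 : X.card * 2 ^ (5 * Nat.log 2 d / 6) ≤ X.card ^ 2 := by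
      rw [sq]
      exact Nat.mul_le_mul_left _ h2
    have h5 : off X d * 2 ^ (5 * Nat.log 2 d / 6) ≤ X.card ^ 2 := hg
    omega
  have h6 : (energy X d : ℝ) * 2 ^ (5 * Nat.log 2 d / 6) ≤ 2 * (X.card : ℝ) ^ 2 := by
    exact_mod_cast h3
  have h7 : (0 : ℝ) < 2 ^ (5 * Nat.log 2 d / 6) := by positivity
  rw [div_mul_eq_mul_div, le_div_iff₀ h7]
  exact h6

theorem gc_weight_le (d : ℕ) (hd : 1 ≤ d) :
    (d : ℝ) ^ 4 * (2 / 2 ^ (5 * Nat.log 2 d / 6)) ^ 6 ≤ 2 ^ 16 * (1 / (d : ℝ)) := by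
  set L := Nat.log 2 d with hL
  set e := 5 * L / 6 with he
  have h1 : d < 2 ^ (L + 1) := Nat.lt_pow_succ_log_self (by norm_num) d
  have h2 : 5 * L ≤ 6 * e + 5 := by omega
  have h3 : d ^ 5 * 2 ^ 6 ≤ 2 ^ 16 * 2 ^ (6 * e) := by
    calc d ^ 5 * 2 ^ 6 ≤ (2 ^ (L + 1)) ^ 5 * 2 ^ 6 :=
          Nat.mul_le_mul_right _ (Nat.pow_le_pow_left h1.le 5)
      _ = 2 ^ (5 * L + 11) := by rw [← pow_mul, ← pow_add]; congr 1; ring
      _ ≤ 2 ^ (16 + 6 * e) := Nat.pow_le_pow_right (by norm_num) (by omega)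
      _ = 2 ^ 16 * 2 ^ (6 * e) := by rw [pow_add]
  have h4 : (d : ℝ) ^ 5 * 2 ^ 6 ≤ 2 ^ 16 * 2 ^ (6 * e) := by exact_mod_cast h3
  have hd0 : (0 : ℝ) < d := by exact_mod_cast hd
  have h5 : (0 : ℝ) < 2 ^ (6 * e) := by positivity
  have h6 : ((2 : ℝ) / 2 ^ e) ^ 6 = 2 ^ 6 / 2 ^ (6 * e) := by
    rw [div_pow, ← pow_mul, mul_comm e 6]
  rw [h6, mul_div_assoc', mul_one_div, div_le_div_iff₀ h5 hd0]
  calc (d : ℝ) ^ 4 * 2 ^ 6 * d = (d : ℝ) ^ 5 * 2 ^ 6 := by ring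
    _ ≤ _ := h4

theorem good_cover (A B : Fin 6 → Finset ℕ) (hAne : ∀ i, (A i).Nonempty)
    (hBne : ∀ i, (B i).Nonempty) (u Q : ℕ) (hu : 1 ≤ u) (hQ0 : 1 ≤ Q) (hQ : GoodQ A B u Q)
    (hcA : ∀ i, 2 ^ (5 * Nat.log 2 Q / 6) ≤ (A i).card)
    (hcB : ∀ i, 2 ^ (5 * Nat.log 2 Q / 6) ≤ (B i).card)
    (hQu : 2 ^ 17 * (Nat.log 2 Q + 1) ≤ 2 ^ u) :
    ∃ a b : Fin 6 → ℕ, (∀ i, a i ∈ A i) ∧ (∀ i, b i ∈ B i) ∧ Q ∣ ∑ i, a i * b i := by
  obtain ⟨hrough, hgood⟩ := hQ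
  set k := Nat.log 2 Q with hk
  have hQlt : Q < 2 ^ (k + 1) := Nat.lt_pow_succ_log_self (by norm_num) Q
  have hu0 : (0 : ℝ) < 2 ^ u := by positivity
  have hQuR : (2 : ℝ) ^ 17 * ((k : ℝ) + 1) ≤ 2 ^ u := by exact_mod_cast hQu
  have hky : 2 ^ 17 * ((k : ℝ) * (1 / 2 ^ u)) < 1 := by
    rw [mul_one_div, mul_div_assoc', div_lt_one hu0]
    linarith
  have hk0 : (0 : ℝ) ≤ (k : ℝ) * (1 / 2 ^ u) := by positivity
  have hsumdiv := sum_inv_divisors_le u k Q hQ0 hQlt hrough (by nlinarith)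
  have hsplit : ∑ d ∈ Q.divisors, (1 : ℝ) / d =
      1 + ∑ d ∈ Q.divisors.filter (fun d => 1 < d), (1 : ℝ) / d := by
    have h1 : Q.divisors = insert 1 (Q.divisors.filter (fun d => 1 < d)) := by
      ext d
      simp only [Finset.mem_insert, Finset.mem_filter, Nat.mem_divisors]
      constructor
      · rintro ⟨h2, h3⟩
        have : 0 < d := Nat.pos_of_dvd_of_pos h2 hQ0
        rcases Nat.eq_or_lt_of_le this with h | h
        · left; omega
        · right; exact ⟨⟨h2, h3⟩, h⟩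
      · rintro (h | h)
        · subst h; exact ⟨one_dvd _, by omega⟩
        · exact h.1
    conv_lhs => rw [h1]
    rw [Finset.sum_insert (by simp)]
    simp
  have hsum : ∑ d ∈ Q.divisors.filter (fun d => 1 < d),
      (d : ℝ) ^ 4 * (2 / 2 ^ (5 * Nat.log 2 d / 6)) ^ 6 < 1 := by
    calc ∑ d ∈ Q.divisors.filter (fun d => 1 < d),
          (d : ℝ) ^ 4 * (2 / 2 ^ (5 * Nat.log 2 d / 6)) ^ 6
        ≤ ∑ d ∈ Q.divisors.filter (fun d => 1 < d), 2 ^ 16 * (1 / (d : ℝ)) :=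
          Finset.sum_le_sum (fun d hd => gc_weight_le d (Finset.mem_filter.1 hd).2.le)
      _ = 2 ^ 16 * ∑ d ∈ Q.divisors.filter (fun d => 1 < d), (1 : ℝ) / d := by
          rw [Finset.mul_sum]
      _ ≤ 2 ^ 16 * (2 * (k : ℝ) * (1 / 2 ^ u)) := by
          apply mul_le_mul_of_nonneg_left _ (by positivity)
          linarith
      _ = 2 ^ 17 * ((k : ℝ) * (1 / 2 ^ u)) := by ring
      _ < 1 := hky
  obtain ⟨a, b, hab, hmod⟩ := cover (Q := Q) hQ0 A B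
    (fun d => 2 / 2 ^ (5 * Nat.log 2 d / 6)) (fun d => by positivity)
    (fun i => ⟨hAne i, hBne i⟩)
    (fun d hd h1 i => energy_le_of_good (A i) d Q (Nat.divisor_le hd)
      (hgood i d (Nat.dvd_of_mem_divisors hd) h1).1 (hcA i))
    (fun d hd h1 i => energy_le_of_good (B i) d Q (Nat.divisor_le hd)
      (hgood i d (Nat.dvd_of_mem_divisors hd) h1).2 (hcB i))
    hsum 0
  exact ⟨a, b, fun i => (hab i).1, fun i => (hab i).2, (Nat.modEq_zero_iff_dvd).1 hmod⟩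

end Vale.Agent.Lib.P012
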