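import Vale.Agent.Lib.P012.Defs3

/-! Brun's pure sieve (lower bound) for rough numbers in short intervals. -/

open Classical

namespace Vale.Agent.Lib.P012

open Finset

/-- number of `n ∈ I` with `D ∣ n` and no `p ∈ l` dividing `n` -/
def sieveCount (I : Finset ℕ) (l : List ℕ) (D : ℕ) : ℕ :=
  (I.filter (fun n => D ∣ n ∧ ∀ p ∈ l, ¬ p ∣ n)).card

/-- the Euler product over the list -/
noncomputable def sPi : List ℕ → ℝ
  | [] => 1
  | (p :: l) => (1 - 1 / (p : ℝ)) * sPi l

/-- elementary symmetric functions of the reciprocals -/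
noncomputable def sE : List ℕ → ℕ → ℝ
  | [], 0 => 1
  | [], (_ + 1) => 0
  | (_ :: _), 0 => 1
  | (p :: l), (k + 1) => sE l (k + 1) + sE l k / (p : ℝ)

/-- number of error terms -/
noncomputable def sC : List ℕ → ℕ → ℝ
  | [], _ => 1
  | (_ :: _), 0 => 1
  | (_ :: l), (R + 1) => sC l (R + 1) + sC l R

/-- sum of reciprocals -/
noncomputable def sLam : List ℕ → ℝ
  | [] => 0
  | (p :: l) => 1 / (p : ℝ) + sLam l

theorem sE_zero (l : List ℕ) : sE l 0 = 1 := by
  cases l <;> rfl

theorem sC_zero (l : List ℕ) : sC l 0 = 1 := by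
  cases l <;> rfl

theorem sPi_bounds (l : List ℕ) (h : ∀ p ∈ l, 1 ≤ p) : 0 ≤ sPi l ∧ sPi l ≤ 1 := by
  induction l with
  | nil => simp [sPi]
  | cons p l ih =>
    have hp : (1 : ℝ) ≤ p := by exact_mod_cast h p (by simp)
    obtain ⟨h0, h1⟩ := ih (fun q hq => h q (by simp [hq]))
    have hx0 : 0 ≤ 1 / (p : ℝ) := by positivity
    have hx1 : 1 / (p : ℝ) ≤ 1 := by
      rw [div_le_one (by linarith)]; exact hp
    simp only [sPi]
    constructor
    · exact mul_nonneg (by linarith) h0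
    · nlinarith

theorem sE_nonneg (l : List ℕ) : ∀ k, 0 ≤ sE l k := by
  induction l with
  | nil => intro k; cases k <;> simp [sE]
  | cons p l ih =>
    intro k
    cases k with
    | zero => simp [sE]
    | succ k =>
      simp only [sE]
      have := ih (k + 1)
      have h2 := ih k
      positivity

theorem sPi_add_sE_one (l : List ℕ) (h : ∀ p ∈ l, 1 ≤ p) : 1 ≤ sPi l + sE l 1 := by
  induction l with
  | nil => simp [sPi, sE]
  | cons p l ih =>
    have hp : (1 : ℝ) ≤ p := by exact_mod_cast h p (by simp)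
    have hl : ∀ q ∈ l, 1 ≤ q := fun q hq => h q (by simp [hq])
    obtain ⟨h0, h1⟩ := sPi_bounds l hl
    have := ih hl
    have hx0 : 0 ≤ 1 / (p : ℝ) := by positivity
    simp only [sPi, sE, sE_zero]
    nlinarith

theorem card_dvd_Ioc (x s D : ℕ) (hD : 0 < D) :
    ((s : ℝ) / D - 1 ≤ (((Ioc x (x + s)).filter (fun n => D ∣ n)).card : ℝ)) ∧
      ((((Ioc x (x + s)).filter (fun n => D ∣ n)).card : ℝ) ≤ (s : ℝ) / D + 1) := by
  have h1 : ((Ioc x (x + s)).filter (fun n => D ∣ n)).card + x / D = (x + s) / D := by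
    rw [← Nat.Ioc_filter_dvd_card_eq_div x D, ← Nat.Ioc_filter_dvd_card_eq_div (x + s) D]
    rw [← card_union_of_disjoint]
    · congr 1
      ext n
      simp only [mem_union, mem_filter, mem_Ioc]
      constructor
      · rintro (⟨⟨h1, h2⟩, h3⟩ | ⟨⟨h1, h2⟩, h3⟩)
        · exact ⟨⟨by omega, h2⟩, h3⟩
        · exact ⟨⟨h1, by omega⟩, h3⟩
      · rintro ⟨⟨h1, h2⟩, h3⟩
        by_cases hx : n ≤ x
        · exact Or.inr ⟨⟨h1, hx⟩, h3⟩
        · exact Or.inl ⟨⟨by omega, h2⟩, h3⟩
    · rw [disjoint_left]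
      intro n hn hn'
      simp only [mem_filter, mem_Ioc] at hn hn'
      omega
  set c := ((Ioc x (x + s)).filter (fun n => D ∣ n)).card with hc
  have hDr : (0 : ℝ) < D := by exact_mod_cast hD
  have a1 : D * ((x + s) / D) ≤ x + s := Nat.mul_div_le _ _
  have a2 : x + s < D * ((x + s) / D) + D := by
    have := Nat.lt_mul_div_succ (x + s) hD
    rw [Nat.mul_add, Nat.mul_one] at this
    exact this
  have b1 : D * (x / D) ≤ x := Nat.mul_div_le _ _
  have b2 : x < D * (x / D) + D := by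
    have := Nat.lt_mul_div_succ x hD
    rw [Nat.mul_add, Nat.mul_one] at this
    exact this
  rw [← h1] at a1 a2
  have a1' : (D : ℝ) * ((c : ℝ) + ((x / D : ℕ) : ℝ)) ≤ x + s := by exact_mod_cast a1
  have a2' : (x : ℝ) + s < (D : ℝ) * ((c : ℝ) + ((x / D : ℕ) : ℝ)) + D := by exact_mod_cast a2
  have b1' : (D : ℝ) * ((x / D : ℕ) : ℝ) ≤ x := by exact_mod_cast b1
  have b2' : (x : ℝ) < (D : ℝ) * ((x / D : ℕ) : ℝ) + D := by exact_mod_cast b2
  constructor
  · rw [sub_le_iff_le_add, div_le_iff₀ hDr]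
    nlinarith
  · rw [← sub_le_iff_le_add, le_div_iff₀ hDr]
    nlinarith

theorem sieveCount_nil (I : Finset ℕ) (D : ℕ) :
    sieveCount I [] D = (I.filter (fun n => D ∣ n)).card := by
  unfold sieveCount
  congr 1
  ext n
  simp

theorem sieveCount_le (I : Finset ℕ) (l : List ℕ) (D : ℕ) :
    sieveCount I l D ≤ (I.filter (fun n => D ∣ n)).card := by
  unfold sieveCount
  apply card_le_card
  intro n hn
  simp only [mem_filter] at hn ⊢
  exact ⟨hn.1, hn.2.1⟩

theorem sieveCount_cons (I : Finset ℕ) (l : List ℕ) (p D : ℕ) (hc : Nat.Coprime D p) :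
    sieveCount I l D = sieveCount I (p :: l) D + sieveCount I l (D * p) := by
  unfold sieveCount
  rw [← card_union_of_disjoint]
  · congr 1
    ext n
    simp only [mem_union, mem_filter, List.mem_cons, forall_eq_or_imp]
    constructor
    · rintro ⟨h1, h2, h3⟩
      by_cases hp : p ∣ n
      · exact Or.inr ⟨h1, hc.mul_dvd_of_dvd_of_dvd h2 hp, h3⟩
      · exact Or.inl ⟨h1, h2, hp, h3⟩
    · rintro (⟨h1, h2, _, h3⟩ | ⟨h1, h2, h3⟩)
      · exact ⟨h1, h2, h3⟩
      · exact ⟨h1, (Dvd.intro _ rfl).trans h2, h3⟩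
  · rw [disjoint_left]
    intro n hn hn'
    simp only [mem_filter, List.mem_cons, forall_eq_or_imp] at hn hn'
    exact hn.2.2.1 ((Dvd.intro_left _ rfl).trans hn'.2.1)

theorem brun_aux (x s : ℕ) (l : List ℕ) : (∀ p ∈ l, 1 ≤ p) → l.Pairwise Nat.Coprime →
    ∀ (R D : ℕ), 0 < D → (∀ p ∈ l, Nat.Coprime D p) →
    (Odd R → (s : ℝ) / D * (sPi l - sE l (R + 1)) - sC l R ≤ sieveCount (Ioc x (x + s)) l D) ∧
    (Even R → (sieveCount (Ioc x (x + s)) l D : ℝ) ≤ (s : ℝ) / D * (sPi l + sE l (R + 1)) + sC l R) := by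
  induction l with
  | nil =>
    intro _ _ R D hD _
    obtain ⟨h1, h2⟩ := card_dvd_Ioc x s D hD
    rw [sieveCount_nil]
    simp only [sPi, sE, sC]
    constructor
    · intro _; linarith
    · intro _; linarith
  | cons p l ih =>
    intro hpos hpw R D hD hcop
    have hl : ∀ q ∈ l, 1 ≤ q := fun q hq => hpos q (by simp [hq])
    have hp1 : 1 ≤ p := hpos p (by simp)
    have hpw' : l.Pairwise Nat.Coprime := (List.pairwise_cons.1 hpw).2
    have hpl : ∀ q ∈ l, Nat.Coprime p q := (List.pairwise_cons.1 hpw).1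
    have hDp : Nat.Coprime D p := hcop p (by simp)
    have hDl : ∀ q ∈ l, Nat.Coprime D q := fun q hq => hcop q (by simp [hq])
    have hDpl : ∀ q ∈ l, Nat.Coprime (D * p) q := fun q hq =>
      Nat.Coprime.mul_left (hDl q hq) (hpl q hq)
    have hDp0 : 0 < D * p := Nat.mul_pos hD hp1
    have hrec := sieveCount_cons (Ioc x (x + s)) l p D hDp
    have hrec' : (sieveCount (Ioc x (x + s)) l D : ℝ) =
        sieveCount (Ioc x (x + s)) (p :: l) D + sieveCount (Ioc x (x + s)) l (D * p) := by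
      exact_mod_cast hrec
    have hDr : (0 : ℝ) < D := by exact_mod_cast hD
    have hpr : (0 : ℝ) < p := by exact_mod_cast hp1
    have hdiv : (s : ℝ) / ((D * p : ℕ) : ℝ) = (s : ℝ) / D * (1 / p) := by
      push_cast
      field_simp
    cases R with
    | zero =>
      constructor
      · intro h; exact absurd h (by decide)
      · intro _
        have h1 := sieveCount_le (Ioc x (x + s)) (p :: l) D
        have h1' : (sieveCount (Ioc x (x + s)) (p :: l) D : ℝ) ≤
            (((Ioc x (x + s)).filter (fun n => D ∣ n)).card : ℝ) := by exact_mod_cast h1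
        have h2 := (card_dvd_Ioc x s D hD).2
        have h3 := sPi_add_sE_one (p :: l) hpos
        rw [sC_zero]
        have h4 : 0 ≤ (s : ℝ) / D := by positivity
        have : (s : ℝ) / D * 1 ≤ (s : ℝ) / D * (sPi (p :: l) + sE (p :: l) (0 + 1)) :=
          mul_le_mul_of_nonneg_left h3 h4
        linarith
    | succ R' =>
      obtain ⟨a1, a2⟩ := ih hl hpw' (R' + 1) D hD hDl
      obtain ⟨b1, b2⟩ := ih hl hpw' R' (D * p) hDp0 hDpl
      rw [hdiv] at b1 b2
      simp only [sPi, sE, sC]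
      constructor
      · intro hodd
        have heven : Even R' := by
          rcases Nat.even_or_odd R' with h | h
          · exact h
          · exact absurd hodd (by rw [Nat.not_odd_iff_even]; exact h.add_one)
        have A := a1 hodd
        have B := b2 heven
        have e : (s : ℝ) / D * ((1 - 1 / (p : ℝ)) * sPi l - (sE l (R' + 1 + 1) + sE l (R' + 1) / p))
            - (sC l (R' + 1) + sC l R')
            = ((s : ℝ) / D * (sPi l - sE l (R' + 1 + 1)) - sC l (R' + 1))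
              - ((s : ℝ) / D * (1 / p) * (sPi l + sE l (R' + 1)) + sC l R') := by ring
        rw [e]
        linarith
      · intro heven
        have hodd : Odd R' := by
          rcases Nat.even_or_odd R' with h | h
          · exact absurd heven (by rw [Nat.not_even_iff_odd]; exact h.add_one)
          · exact h
        have A := a2 heven
        have B := b1 hodd
        have e : (s : ℝ) / D * ((1 - 1 / (p : ℝ)) * sPi l + (sE l (R' + 1 + 1) + sE l (R' + 1) / p))
            + (sC l (R' + 1) + sC l R')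
            = ((s : ℝ) / D * (sPi l + sE l (R' + 1 + 1)) + sC l (R' + 1))
              - ((s : ℝ) / D * (1 / p) * (sPi l - sE l (R' + 1)) - sC l R') := by ring
        rw [e]
        linarith


theorem add_pow_ge (a x : ℝ) (ha : 0 ≤ a) (hx : 0 ≤ x) (k : ℕ) :
    a ^ (k + 1) + ((k : ℝ) + 1) * x * a ^ k ≤ (x + a) ^ (k + 1) := by
  induction k with
  | zero => simp; linarith
  | succ k ih =>
    have h1 : (x + a) * (a ^ (k + 1) + ((k : ℝ) + 1) * x * a ^ k) ≤ (x + a) * (x + a) ^ (k + 1) :=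
      mul_le_mul_of_nonneg_left ih (by linarith)
    have h2 : 0 ≤ ((k : ℝ) + 1) * x ^ 2 * a ^ k := by positivity
    calc a ^ (k + 1 + 1) + (((k + 1 : ℕ) : ℝ) + 1) * x * a ^ (k + 1)
        ≤ (x + a) * (a ^ (k + 1) + ((k : ℝ) + 1) * x * a ^ k) := by
          push_cast
          ring_nf
          ring_nf at h2
          nlinarith
      _ ≤ (x + a) * (x + a) ^ (k + 1) := h1
      _ = (x + a) ^ (k + 1 + 1) := by ring

theorem sLam_nonneg (l : List ℕ) : 0 ≤ sLam l := by
  induction l with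
  | nil => simp [sLam]
  | cons p l ih => simp only [sLam]; positivity

theorem sE_le (l : List ℕ) : ∀ k : ℕ, sE l k ≤ sLam l ^ k / (k.factorial : ℝ) := by
  induction l with
  | nil =>
    intro k
    cases k with
    | zero => simp [sE, sLam]
    | succ k => simp [sE, sLam]
  | cons p l ih =>
    intro k
    cases k with
    | zero => simp [sE]
    | succ k =>
      simp only [sE, sLam]
      have h1 := ih (k + 1)
      have h2 := ih k
      have hx : 0 ≤ 1 / (p : ℝ) := by positivity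
      have h3 := add_pow_ge (sLam l) (1 / (p : ℝ)) (sLam_nonneg l) hx k
      have hf : (0 : ℝ) < (k.factorial : ℝ) := by exact_mod_cast Nat.factorial_pos k
      have hf1 : ((k + 1).factorial : ℝ) = ((k : ℝ) + 1) * (k.factorial : ℝ) := by
        rw [Nat.factorial_succ]; push_cast; ring
      have hk1 : (0 : ℝ) < (k : ℝ) + 1 := by positivity
      have h4 : sE l k / (p : ℝ) ≤ sLam l ^ k / (k.factorial : ℝ) * (1 / (p : ℝ)) := by
        rw [div_eq_mul_one_div]
        exact mul_le_mul_of_nonneg_right h2 hx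
      rw [hf1] at h1 ⊢
      rw [le_div_iff₀ (by positivity)]
      have e1 : sLam l ^ (k + 1) / (((k : ℝ) + 1) * (k.factorial : ℝ)) * (((k : ℝ) + 1) * (k.factorial : ℝ))
          = sLam l ^ (k + 1) := by field_simp
      have e2 : sLam l ^ k / (k.factorial : ℝ) * (1 / (p : ℝ)) * (((k : ℝ) + 1) * (k.factorial : ℝ))
          = ((k : ℝ) + 1) * (1 / (p : ℝ)) * sLam l ^ k := by field_simp
      have hpos : (0 : ℝ) ≤ ((k : ℝ) + 1) * (k.factorial : ℝ) := by positivity
      calc (sE l (k + 1) + sE l k / (p : ℝ)) * (((k : ℝ) + 1) * (k.factorial : ℝ))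
          ≤ (sLam l ^ (k + 1) / (((k : ℝ) + 1) * (k.factorial : ℝ))
              + sLam l ^ k / (k.factorial : ℝ) * (1 / (p : ℝ))) * (((k : ℝ) + 1) * (k.factorial : ℝ)) :=
            mul_le_mul_of_nonneg_right (by linarith) hpos
        _ = sLam l ^ (k + 1) + ((k : ℝ) + 1) * (1 / (p : ℝ)) * sLam l ^ k := by
            rw [add_mul, e1, e2]
        _ ≤ _ := h3

theorem quarter_rpow_le (x : ℝ) (h0 : 0 ≤ x) (h1 : x ≤ 1 / 2) : (1 / 4 : ℝ) ^ x ≤ 1 - x := by
  have h := Real.geom_mean_le_arith_mean2_weighted (w₁ := 1 - 2 * x) (w₂ := 2 * x) (p₁ := 1)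
    (p₂ := 1 / 2) (by linarith) (by linarith) (by norm_num) (by norm_num) (by ring)
  rw [Real.one_rpow, one_mul, Real.rpow_mul (by norm_num)] at h
  have e : ((1 / 2 : ℝ) ^ (2 : ℝ)) = 1 / 4 := by
    rw [Real.rpow_two]; norm_num
  rw [e] at h
  linarith

theorem sPi_ge (l : List ℕ) (h : ∀ p ∈ l, 2 ≤ p) : (1 / 4 : ℝ) ^ (sLam l) ≤ sPi l := by
  induction l with
  | nil => simp [sPi, sLam]
  | cons p l ih =>
    have hp : (2 : ℝ) ≤ p := by exact_mod_cast h p (by simp)
    have hl : ∀ q ∈ l, 2 ≤ q := fun q hq => h q (by simp [hq])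
    have h1 := ih hl
    have hx0 : 0 ≤ 1 / (p : ℝ) := by positivity
    have hx1 : 1 / (p : ℝ) ≤ 1 / 2 := by
      apply one_div_le_one_div_of_le (by norm_num) hp
    have h2 := quarter_rpow_le _ hx0 hx1
    simp only [sPi, sLam]
    rw [Real.rpow_add (by norm_num)]
    exact mul_le_mul h2 h1 (by positivity) (by linarith)

theorem sC_le (l : List ℕ) : ∀ R : ℕ, sC l R ≤ ((l.length : ℝ) + 1) ^ R := by
  induction l with
  | nil => intro R; simp [sC]
  | cons p l ih =>
    intro R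
    cases R with
    | zero => simp [sC]
    | succ R =>
      simp only [sC, List.length_cons]
      have h1 := ih (R + 1)
      have h2 := ih R
      have ha : (0 : ℝ) ≤ (l.length : ℝ) + 1 := by positivity
      have h3 := add_pow_ge ((l.length : ℝ) + 1) 1 ha (by norm_num) R
      have h4 : ((l.length : ℝ) + 1) ^ R ≤ ((R : ℝ) + 1) * 1 * ((l.length : ℝ) + 1) ^ R := by
        have : 0 ≤ ((l.length : ℝ) + 1) ^ R := by positivity
        have hR : (0 : ℝ) ≤ R := Nat.cast_nonneg R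
        nlinarith
      push_cast
      have e : (l.length : ℝ) + 1 + 1 = 1 + ((l.length : ℝ) + 1) := by ring
      rw [e]
      linarith


theorem block_card (k : ℕ) :
    k * ((Ico (2 ^ k) (2 ^ (k + 1))).filter Nat.Prime).card ≤ 2 ^ (k + 2) := by
  set B := (Ico (2 ^ k) (2 ^ (k + 1))).filter Nat.Prime with hB
  have h1 : (2 ^ k) ^ B.card ≤ ∏ p ∈ B, p := by
    apply Finset.pow_card_le_prod
    intro p hp
    simp only [hB, mem_filter, mem_Ico] at hp
    exact hp.1.1
  have h2 : ∏ p ∈ B, p ≤ primorial (2 ^ (k + 1)) := by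
    unfold primorial
    apply Finset.prod_le_prod_of_subset_of_one_le'
    · intro p hp
      simp only [hB, mem_filter, mem_Ico] at hp
      simp only [mem_filter, mem_range]
      exact ⟨by omega, hp.2⟩
    · intro p hp _
      simp only [mem_filter, mem_range] at hp
      exact hp.2.one_lt.le
  have h3 := primorial_le_four_pow (2 ^ (k + 1))
  have h4 : (2 : ℕ) ^ (k * B.card) ≤ 2 ^ (2 * 2 ^ (k + 1)) := by
    calc (2 : ℕ) ^ (k * B.card) = (2 ^ k) ^ B.card := by rw [pow_mul]
      _ ≤ 4 ^ (2 ^ (k + 1)) := le_trans h1 (le_trans h2 h3)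
      _ = 2 ^ (2 * 2 ^ (k + 1)) := by rw [pow_mul]; norm_num
  have h5 := (Nat.pow_le_pow_iff_right (by norm_num : 1 < 2)).1 h4
  calc k * B.card ≤ 2 * 2 ^ (k + 1) := h5
    _ = 2 ^ (k + 2) := by ring

theorem block_sum (k : ℕ) (hk : 1 ≤ k) :
    ∑ p ∈ (Ico (2 ^ k) (2 ^ (k + 1))).filter Nat.Prime, (1 : ℝ) / p ≤ 4 / k := by
  set B := (Ico (2 ^ k) (2 ^ (k + 1))).filter Nat.Prime with hB
  have h1 : ∑ p ∈ B, (1 : ℝ) / p ≤ B.card • ((1 : ℝ) / 2 ^ k) := by
    apply Finset.sum_le_card_nsmul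
    intro p hp
    simp only [hB, mem_filter, mem_Ico] at hp
    have : ((2 : ℝ) ^ k) ≤ p := by exact_mod_cast hp.1.1
    exact one_div_le_one_div_of_le (by positivity) this
  have h2 := block_card k
  have h2' : (k : ℝ) * (B.card : ℝ) ≤ 2 ^ (k + 2) := by exact_mod_cast h2
  have hkr : (0 : ℝ) < k := by exact_mod_cast hk
  have hp : (0 : ℝ) < 2 ^ k := by positivity
  refine le_trans h1 ?_
  rw [nsmul_eq_mul, mul_one_div, div_le_div_iff₀ hp hkr]
  calc (B.card : ℝ) * k = (k : ℝ) * (B.card : ℝ) := by ring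
    _ ≤ 2 ^ (k + 2) := h2'
    _ = 4 * 2 ^ k := by ring

theorem sum_inv_primes (n : ℕ) :
    ∑ p ∈ (range (2 ^ (n + 1))).filter Nat.Prime, (1 : ℝ) / p ≤ 4 * (harmonic n : ℝ) := by
  induction n with
  | zero =>
    have : (range (2 ^ (0 + 1))).filter Nat.Prime = ∅ := by decide
    rw [this]; simp
  | succ n ih =>
    have hsplit : (range (2 ^ (n + 1 + 1))).filter Nat.Prime =
        (range (2 ^ (n + 1))).filter Nat.Prime ∪ (Ico (2 ^ (n + 1)) (2 ^ (n + 1 + 1))).filter Nat.Prime := by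
      ext p
      simp only [mem_union, mem_filter, mem_range, mem_Ico]
      have : 2 ^ (n + 1) ≤ 2 ^ (n + 1 + 1) := Nat.pow_le_pow_right (by norm_num) (by omega)
      constructor
      · rintro ⟨h1, h2⟩
        by_cases h : p < 2 ^ (n + 1)
        · exact Or.inl ⟨h, h2⟩
        · exact Or.inr ⟨⟨by omega, h1⟩, h2⟩
      · rintro (⟨h1, h2⟩ | ⟨⟨_, h1⟩, h2⟩)
        · exact ⟨by omega, h2⟩
        · exact ⟨h1, h2⟩
    rw [hsplit, sum_union]
    · have h1 := block_sum (n + 1) (by omega)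
      rw [harmonic_succ]
      push_cast at h1 ⊢
      have e : (4 : ℝ) * ((harmonic n : ℝ) + ((n : ℝ) + 1)⁻¹) = 4 * (harmonic n : ℝ) + 4 / ((n : ℝ) + 1) := by
        rw [div_eq_mul_inv]; ring
      rw [e]
      linarith
    · rw [disjoint_left]
      intro p hp hp'
      simp only [mem_filter, mem_range, mem_Ico] at hp hp'
      omega

theorem log_le_natLog (n : ℕ) : Real.log n ≤ (Nat.log 2 (n + 1) : ℝ) + 1 / 2 := by
  rcases Nat.eq_zero_or_pos n with rfl | hn
  · simp
  · have h1 : n + 1 < 2 ^ (Nat.log 2 (n + 1) + 1) := Nat.lt_pow_succ_log_self (by norm_num) (n + 1)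
    have hl1 : 1 ≤ Nat.log 2 (n + 1) := Nat.log_pos (by norm_num) (by omega)
    have h2 : (n : ℝ) ≤ 2 ^ (Nat.log 2 (n + 1) + 1) := by
      have : n ≤ 2 ^ (Nat.log 2 (n + 1) + 1) := by omega
      exact_mod_cast this
    have hn' : (0 : ℝ) < n := by exact_mod_cast hn
    have h3 : Real.log n ≤ Real.log (2 ^ (Nat.log 2 (n + 1) + 1)) := Real.log_le_log hn' h2
    rw [Real.log_pow] at h3
    have h4 : Real.log 2 ≤ 0.6931471808 := Real.log_two_lt_d9.le
    have h5 : (0 : ℝ) ≤ ((Nat.log 2 (n + 1) + 1 : ℕ) : ℝ) := Nat.cast_nonneg _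
    have h6 : ((Nat.log 2 (n + 1) + 1 : ℕ) : ℝ) * Real.log 2
        ≤ ((Nat.log 2 (n + 1) + 1 : ℕ) : ℝ) * 0.6931471808 :=
      mul_le_mul_of_nonneg_left h4 h5
    have hl1' : (1 : ℝ) ≤ (Nat.log 2 (n + 1) : ℝ) := by exact_mod_cast hl1
    push_cast at h3 h6 ⊢
    nlinarith

theorem sum_inv_primes_le (k : ℕ) (hk : 1 ≤ k) :
    ∑ p ∈ (range (2 ^ k)).filter Nat.Prime, (1 : ℝ) / p ≤ (LL k : ℝ) := by
  obtain ⟨n, rfl⟩ : ∃ n, k = n + 1 := ⟨k - 1, by omega⟩
  have h1 := sum_inv_primes n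
  have h2 := harmonic_le_one_add_log n
  have h3 := log_le_natLog n
  unfold LL
  push_cast
  linarith

theorem sLam_eq (l : List ℕ) : sLam l = (l.map (fun p : ℕ => (1 : ℝ) / (p : ℝ))).sum := by
  induction l with
  | nil => simp [sLam]
  | cons p l ih => simp only [sLam, List.map_cons, List.sum_cons, ih]


theorem exp_nat_le (L : ℕ) : Real.exp (4 * (L : ℝ)) ≤ 2 ^ (6 * L) := by
  have he : Real.exp 1 < 2.7182818286 := Real.exp_one_lt_d9
  have he0 : 0 < Real.exp 1 := Real.exp_pos 1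
  have h2 : Real.exp 1 ^ 2 ≤ 8 := by nlinarith
  have h4 : Real.exp 1 ^ 4 ≤ 64 := by
    have : Real.exp 1 ^ 4 = (Real.exp 1 ^ 2) ^ 2 := by ring
    rw [this]
    have h0 : 0 ≤ Real.exp 1 ^ 2 := by positivity
    nlinarith
  have e : Real.exp (4 * (L : ℝ)) = (Real.exp 1 ^ 4) ^ L := by
    rw [← pow_mul, Real.exp_one_pow]; push_cast; rfl
  rw [e, pow_mul]
  calc (Real.exp 1 ^ 4) ^ L ≤ 64 ^ L := pow_le_pow_left₀ (by positivity) h4 L
    _ = (2 ^ 6) ^ L := by norm_num

/-- In every interval of length `s ≥ 4 ^ (L + 1) * 2 ^ (12 k L)`, `L = LL k`, at least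
`s / 4 ^ (L + 1)` integers have no prime factor below `2 ^ k`. -/
theorem rough_count (k x s : ℕ) (hk : 1 ≤ k) (hs : 4 ^ (LL k + 1) * 2 ^ (12 * k * LL k) ≤ s) :
    s ≤ 4 ^ (LL k + 1) * ((Finset.Ioc x (x + s)).filter (fun n => Rough k n)).card := by
  set L := LL k with hL
  have hL8 : 6 ≤ L := by rw [hL]; unfold LL; omega
  set F := (range (2 ^ k)).filter Nat.Prime with hF
  set l := F.toList with hl
  have hmem : ∀ p, p ∈ l ↔ (p < 2 ^ k ∧ p.Prime) := by
    intro p
    rw [hl, Finset.mem_toList, hF, mem_filter, mem_range]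
  have h2 : ∀ p ∈ l, 2 ≤ p := fun p hp => ((hmem p).1 hp).2.two_le
  have h1 : ∀ p ∈ l, 1 ≤ p := fun p hp => le_trans (by norm_num) (h2 p hp)
  have hpw : l.Pairwise Nat.Coprime := by
    have hnd : l.Nodup := Finset.nodup_toList F
    refine List.Pairwise.imp_of_mem ?_ hnd
    intro a b ha hb hab
    exact (Nat.coprime_primes ((hmem a).1 ha).2 ((hmem b).1 hb).2).2 hab
  have hodd : Odd (12 * L - 1) := by
    refine ⟨6 * L - 1, by omega⟩
  have hR1 : 12 * L - 1 + 1 = 12 * L := by omega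
  have hmain := (brun_aux x s l h1 hpw (12 * L - 1) 1 (by norm_num) (fun p _ => Nat.coprime_one_left p)).1 hodd
  rw [hR1] at hmain
  have hcount : sieveCount (Ioc x (x + s)) l 1 =
      ((Ioc x (x + s)).filter (fun n => Rough k n)).card := by
    unfold sieveCount
    have hset : (Ioc x (x + s)).filter (fun n => 1 ∣ n ∧ ∀ p ∈ l, ¬ p ∣ n) =
        (Ioc x (x + s)).filter (fun n => Rough k n) := by
      ext n
      rw [mem_filter, mem_filter]
      constructor
      · rintro ⟨hn, _, h⟩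
        refine ⟨hn, fun p hp hdvd => ?_⟩
        by_contra hlt
        exact h p ((hmem p).2 ⟨not_le.1 hlt, hp⟩) hdvd
      · rintro ⟨hn, h⟩
        refine ⟨hn, one_dvd n, fun p hp hdvd => ?_⟩
        have := h p ((hmem p).1 hp).2 hdvd
        have h' := ((hmem p).1 hp).1
        omega
    rw [hset]
  rw [hcount] at hmain
  set c := ((Ioc x (x + s)).filter (fun n => Rough k n)).card with hc
  -- lambda
  have hlam : sLam l ≤ (L : ℝ) := by
    rw [sLam_eq, hl, Finset.sum_map_toList]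
    exact sum_inv_primes_le k hk
  have hlam0 := sLam_nonneg l
  have hexp4 := exp_nat_le L
  set u : ℝ := 4 ^ L with hu
  have hu0 : 0 < u := by positivity
  -- the product
  have hPi : 1 / u ≤ sPi l := by
    have a1 := sPi_ge l h2
    have a2 : (1 / 4 : ℝ) ^ (L : ℝ) ≤ (1 / 4 : ℝ) ^ (sLam l) :=
      Real.rpow_le_rpow_of_exponent_ge (by norm_num) (by norm_num) hlam
    have a3 : (1 / 4 : ℝ) ^ (L : ℝ) = 1 / u := by
      rw [Real.rpow_natCast, hu, one_div_pow]
    linarith
  -- the tail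
  have hE : sE l (12 * L) ≤ 1 / (2 * u) := by
    have a1 := sE_le l (12 * L)
    have hf : (0 : ℝ) < ((12 * L).factorial : ℝ) := by exact_mod_cast Nat.factorial_pos _
    have a2 : sLam l ^ (12 * L) / ((12 * L).factorial : ℝ) ≤ (L : ℝ) ^ (12 * L) / ((12 * L).factorial : ℝ) := by
      apply div_le_div_of_nonneg_right _ hf.le
      exact pow_le_pow_left₀ hlam0 hlam _
    have a3 := Real.pow_div_factorial_le_exp (4 * (L : ℝ)) (by positivity) (12 * L)
    have a4 : (L : ℝ) ^ (12 * L) / ((12 * L).factorial : ℝ) * 4 ^ (12 * L) ≤ 2 ^ (6 * L) := by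
      have : (L : ℝ) ^ (12 * L) / ((12 * L).factorial : ℝ) * 4 ^ (12 * L)
          = (4 * (L : ℝ)) ^ (12 * L) / ((12 * L).factorial : ℝ) := by
        rw [mul_pow]; ring
      rw [this]; linarith
    have a5 : (4 : ℝ) ^ (12 * L) = 2 ^ (6 * L) * (2 * u) * 2 ^ (16 * L - 1) := by
      rw [hu]
      have : (4 : ℝ) = 2 ^ 2 := by norm_num
      rw [this, ← pow_mul, ← pow_mul]
      have e : 2 * (12 * L) = 6 * L + (1 + 2 * L) + (16 * L - 1) := by omega
      rw [e, pow_add, pow_add, pow_add]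
      ring
    have a6 : (1 : ℝ) ≤ 2 ^ (16 * L - 1) := one_le_pow₀ (by norm_num)
    set w := (L : ℝ) ^ (12 * L) / ((12 * L).factorial : ℝ) with hw
    have hw0 : 0 ≤ w := by positivity
    have a7 : w * (2 * u) ≤ 1 := by
      rw [a5] at a4
      have p6 : (0 : ℝ) < 2 ^ (6 * L) := by positivity
      have b1 : w * (2 * u) * 2 ^ (16 * L - 1) ≤ 1 := by
        have : 2 ^ (6 * L) * (w * (2 * u) * 2 ^ (16 * L - 1)) ≤ 2 ^ (6 * L) * 1 := by
          calc (2 : ℝ) ^ (6 * L) * (w * (2 * u) * 2 ^ (16 * L - 1))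
              = w * (2 ^ (6 * L) * (2 * u) * 2 ^ (16 * L - 1)) := by ring
            _ ≤ 2 ^ (6 * L) := a4
            _ = 2 ^ (6 * L) * 1 := by ring
        exact le_of_mul_le_mul_left this p6
      have b2 : 0 ≤ w * (2 * u) := by positivity
      nlinarith
    have a8 : w ≤ 1 / (2 * u) := by
      rw [le_div_iff₀ (by positivity)]; exact a7
    linarith
  -- the error term
  have hlen : (l.length : ℝ) + 1 ≤ 2 ^ k := by
    have b1 : l.length = F.card := by rw [hl, Finset.length_toList]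
    have b2 : F ⊆ (range (2 ^ k)).erase 0 := by
      intro p hp
      rw [hF, mem_filter, mem_range] at hp
      rw [mem_erase, mem_range]
      exact ⟨hp.2.pos.ne', hp.1⟩
    have b3 := card_le_card b2
    rw [card_erase_of_mem (by simp), card_range] at b3
    have b4 : 1 ≤ 2 ^ k := Nat.one_le_two_pow
    have b5 : l.length + 1 ≤ 2 ^ k := by omega
    exact_mod_cast b5
  have hC : sC l (12 * L - 1) ≤ 2 ^ (12 * k * L) := by
    have a1 := sC_le l (12 * L - 1)
    have a2 : ((l.length : ℝ) + 1) ^ (12 * L - 1) ≤ ((2 : ℝ) ^ k) ^ (12 * L - 1) :=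
      pow_le_pow_left₀ (by positivity) hlen _
    have a3 : ((2 : ℝ) ^ k) ^ (12 * L - 1) ≤ 2 ^ (12 * k * L) := by
      rw [← pow_mul]
      apply pow_le_pow_right₀ (by norm_num)
      have : k * (12 * L - 1) ≤ k * (12 * L) := Nat.mul_le_mul_left _ (by omega)
      calc k * (12 * L - 1) ≤ k * (12 * L) := this
        _ = 12 * k * L := by ring
    linarith
  have hs' : (2 : ℝ) ^ (12 * k * L) * (4 * u) ≤ s := by
    have : (4 : ℝ) ^ (L + 1) * 2 ^ (12 * k * L) ≤ s := by exact_mod_cast hs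
    rw [pow_succ] at this
    rw [hu]
    linarith
  have hsr : (0 : ℝ) ≤ s := Nat.cast_nonneg s
  simp only [Nat.cast_one, div_one] at hmain
  have hfin : (s : ℝ) ≤ 4 * u * c := by
    have c1 : (s : ℝ) * (1 / u - 1 / (2 * u)) ≤ (s : ℝ) * (sPi l - sE l (12 * L)) :=
      mul_le_mul_of_nonneg_left (by linarith) hsr
    have c2 : 1 / u - 1 / (2 * u) = 1 / (2 * u) := by field_simp; ring
    rw [c2] at c1
    have c3 : (s : ℝ) * (1 / (2 * u)) - 2 ^ (12 * k * L) ≤ c := by linarith
    have c4 : 4 * u * ((s : ℝ) * (1 / (2 * u)) - 2 ^ (12 * k * L)) ≤ 4 * u * c :=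
      mul_le_mul_of_nonneg_left c3 (by positivity)
    have c5 : 4 * u * ((s : ℝ) * (1 / (2 * u)) - 2 ^ (12 * k * L)) = 2 * s - 2 ^ (12 * k * L) * (4 * u) := by
      field_simp; ring
    rw [c5] at c4
    linarith
  have hfin' : (s : ℝ) ≤ ((4 ^ (L + 1) * c : ℕ) : ℝ) := by
    push_cast
    rw [pow_succ]
    rw [hu] at hfin
    linarith
  exact_mod_cast hfin'

end Vale.Agent.Lib.P012
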