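import Vale.Agent.Lib.P012.BadCount
import Vale.Agent.Lib.P012.Sieve

/-! P012 v3, module C2c: every not too short interval contains a good modulus. -/

open Classical

namespace Vale.Agent.Lib.P012

open Finset

theorem good_in_interval (A B : Fin 6 → Finset ℕ) (W u' X0 s : ℕ) (hu' : 1 ≤ u')
    (hA : ∀ i, ∀ a ∈ A i, a < 2 ^ W) (hB : ∀ i, ∀ a ∈ B i, a < 2 ^ W)
    (hs : s ≤ X0) (hs2 : 4 ^ (LL (6 * u') + 1) * 2 ^ (12 * (6 * u') * LL (6 * u')) ≤ s)
    (hmain : 12 * ((s : ℝ) * ((1 + 1 / 2 ^ u') ^ (W / (6 * u')) - 1)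
          + 3 * 2 ^ (5 * Nat.log 2 X0 / 6) *
            ((W / (6 * u') + 1 : ℕ) : ℝ) ^ ((Nat.log 2 X0 + 1) / (6 * u')))
      < (s : ℝ) / 4 ^ (LL (6 * u') + 1)) :
    ∃ Q, X0 - s < Q ∧ Q ≤ X0 ∧ GoodQ A B (6 * u') Q := by
  by_contra hcon
  push Not at hcon
  set u := 6 * u' with hu
  set Bd : ℝ := (s : ℝ) * ((1 + 1 / 2 ^ u') ^ (W / u) - 1)
          + 3 * 2 ^ (5 * Nat.log 2 X0 / 6) *
            ((W / u + 1 : ℕ) : ℝ) ^ ((Nat.log 2 X0 + 1) / u) with hBd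
  set I := Finset.Ioc (X0 - s) X0 with hI
  set R := I.filter (fun n => Rough u n) with hR
  let bad : Finset ℕ → Finset ℕ := fun X =>
    I.filter (fun Q => Rough u Q ∧ ∃ d, d ∣ Q ∧ 1 < d ∧ ¬ GoodD X d)
  have hbadA : ∀ i, ((bad (A i)).card : ℝ) ≤ Bd := fun i => bad_count (A i) W u' X0 s hu' (hA i) hs
  have hbadB : ∀ i, ((bad (B i)).card : ℝ) ≤ Bd := fun i => bad_count (B i) W u' X0 s hu' (hB i) hs
  have hrc := rough_count u (X0 - s) s (by omega) hs2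
  rw [Nat.sub_add_cancel hs] at hrc
  have hsub : R ⊆ (Finset.univ.biUnion fun i => bad (A i)) ∪
      (Finset.univ.biUnion fun i => bad (B i)) := by
    intro Q hQ
    rw [hR, Finset.mem_filter] at hQ
    have hQI := hQ.1
    rw [hI, Finset.mem_Ioc] at hQI
    have hnot := hcon Q hQI.1 hQI.2
    unfold GoodQ at hnot
    push Not at hnot
    obtain ⟨i, d, hd, h1, hg⟩ := hnot hQ.2
    rw [Finset.mem_union, Finset.mem_biUnion, Finset.mem_biUnion]
    by_cases hgA : GoodD (A i) d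
    · right
      exact ⟨i, Finset.mem_univ _, Finset.mem_filter.2 ⟨hQ.1, hQ.2, d, hd, h1, hg hgA⟩⟩
    · left
      exact ⟨i, Finset.mem_univ _, Finset.mem_filter.2 ⟨hQ.1, hQ.2, d, hd, h1, hgA⟩⟩
  have hcard : (R.card : ℝ) ≤ 12 * Bd := by
    have h1 : R.card ≤ ∑ i : Fin 6, (bad (A i)).card + ∑ i : Fin 6, (bad (B i)).card :=
      (Finset.card_le_card hsub).trans ((Finset.card_union_le _ _).trans
        (Nat.add_le_add Finset.card_biUnion_le Finset.card_biUnion_le))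
    have h2 : (R.card : ℝ) ≤ ∑ i : Fin 6, ((bad (A i)).card : ℝ) +
        ∑ i : Fin 6, ((bad (B i)).card : ℝ) := by exact_mod_cast h1
    have h3 : ∑ i : Fin 6, ((bad (A i)).card : ℝ) ≤ ∑ _i : Fin 6, Bd :=
      Finset.sum_le_sum fun i _ => hbadA i
    have h4 : ∑ i : Fin 6, ((bad (B i)).card : ℝ) ≤ ∑ _i : Fin 6, Bd :=
      Finset.sum_le_sum fun i _ => hbadB i
    simp only [Finset.sum_const, Finset.card_univ, Fintype.card_fin, nsmul_eq_mul] at h3 h4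
    push_cast at h3 h4
    linarith
  have hpos : (0 : ℝ) < 4 ^ (LL u + 1) := by positivity
  have hrc' : (s : ℝ) ≤ 4 ^ (LL u + 1) * (R.card : ℝ) := by exact_mod_cast hrc
  have h5 : (s : ℝ) / 4 ^ (LL u + 1) ≤ R.card := by
    rw [div_le_iff₀ hpos]
    linarith
  linarith

end Vale.Agent.Lib.P012
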