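import Mathlib

/-! P012: the lower bound `N(b-1,b) ≫ log log b` (Erdős 1950), proved from scratch.

If `u / D - ∑_{n ∈ S} 1/n > 0` with `|S| = k ≤ K`, then this difference is at least
`1 / ((2K)^(2^k-1) D^(2^k))`. -/

namespace Vale.Agent.Lib.P012

open Finset

theorem gap_lower (K : ℕ) (hK : 1 ≤ K) : ∀ k : ℕ, k ≤ K → ∀ (D : ℕ) (u : ℤ) (S : Finset ℕ),
    1 ≤ D → S.card = k → (∀ n ∈ S, 1 ≤ n) → 0 < (u : ℚ) / D - ∑ n ∈ S, (1 : ℚ) / n →
    (1 : ℚ) / (((2 * K) ^ (2 ^ k - 1) * D ^ (2 ^ k) : ℕ) : ℚ) ≤ (u : ℚ) / D - ∑ n ∈ S, (1 : ℚ) / n := by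
  intro k
  induction k with
  | zero =>
    intro _ D u S hD hS _ hpos
    have hS0 : S = ∅ := Finset.card_eq_zero.1 hS
    subst hS0
    simp only [Finset.sum_empty, sub_zero] at hpos ⊢
    have hDq : (0 : ℚ) < D := by exact_mod_cast hD
    have hu : 0 < (u : ℚ) := by
      by_contra h
      push Not at h
      have : (u : ℚ) / D ≤ 0 := div_nonpos_of_nonpos_of_nonneg h hDq.le
      linarith
    have hu1 : (1 : ℚ) ≤ u := by
      have : 0 < u := by exact_mod_cast hu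
      exact_mod_cast this
    norm_num
    rw [← one_div]
    exact div_le_div_of_nonneg_right hu1 hDq.le
  | succ k ih =>
    intro hkK D u S hD hS hS1 hpos
    have hne : S.Nonempty := by
      rw [← Finset.card_pos]; omega
    set n1 := S.min' hne with hn1
    have hn1S : n1 ∈ S := Finset.min'_mem S hne
    have hn1pos : 1 ≤ n1 := hS1 n1 hn1S
    have hDq : (0 : ℚ) < D := by exact_mod_cast hD
    have hn1q : (0 : ℚ) < n1 := by exact_mod_cast hn1pos
    have hKq : (1 : ℚ) ≤ K := by exact_mod_cast hK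
    have hsum_nonneg : 0 ≤ ∑ n ∈ S, (1 : ℚ) / n :=
      Finset.sum_nonneg (fun n _ => by positivity)
    have hsplit : ∑ n ∈ S, (1 : ℚ) / n = (1 : ℚ) / n1 + ∑ n ∈ S.erase n1, (1 : ℚ) / n := by
      rw [Finset.add_sum_erase S (fun n => (1 : ℚ) / n) hn1S]
    -- the target denominator
    have h2k : 2 ^ (k + 1) = 2 ^ k + 2 ^ k := by rw [pow_succ]; ring
    have h2kpos : 1 ≤ 2 ^ k := Nat.one_le_two_pow
    by_cases hbig : 2 * K * D ≤ n1
    · -- all terms are tiny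
      have hu : 0 < (u : ℚ) := by
        by_contra h
        push Not at h
        have : (u : ℚ) / D ≤ 0 := div_nonpos_of_nonpos_of_nonneg h hDq.le
        linarith
      have hu1 : (1 : ℚ) ≤ u := by
        have : 0 < u := by exact_mod_cast hu
        exact_mod_cast this
      have h1 : (1 : ℚ) / D ≤ (u : ℚ) / D := div_le_div_of_nonneg_right hu1 hDq.le
      have h2 : ∑ n ∈ S, (1 : ℚ) / n ≤ S.card • ((1 : ℚ) / n1) := by
        apply Finset.sum_le_card_nsmul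
        intro n hn
        have : n1 ≤ n := Finset.min'_le S n hn
        have hq : (n1 : ℚ) ≤ n := by exact_mod_cast this
        exact one_div_le_one_div_of_le hn1q hq
      have h3 : S.card • ((1 : ℚ) / n1) ≤ 1 / (2 * D) := by
        rw [nsmul_eq_mul, hS]
        have hb : (2 * (K : ℚ) * D) ≤ n1 := by exact_mod_cast hbig
        have hk1 : ((k + 1 : ℕ) : ℚ) ≤ K := by exact_mod_cast hkK
        rw [mul_one_div, div_le_div_iff₀ hn1q (by positivity)]
        nlinarith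
      have h4 : (1 : ℚ) / (2 * D) ≤ (u : ℚ) / D - ∑ n ∈ S, (1 : ℚ) / n := by
        have : (1 : ℚ) / D = 1 / (2 * D) + 1 / (2 * D) := by field_simp; ring
        linarith
      refine le_trans ?_ h4
      have h5 : 2 * D ≤ (2 * K) ^ (2 ^ (k + 1) - 1) * D ^ (2 ^ (k + 1)) := by
        have a1 : 2 ≤ (2 * K) ^ (2 ^ (k + 1) - 1) := by
          calc 2 ≤ 2 * K := by omega
            _ = (2 * K) ^ 1 := (pow_one _).symm
            _ ≤ (2 * K) ^ (2 ^ (k + 1) - 1) := Nat.pow_le_pow_right (by omega) (by omega)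
        have a2 : D ≤ D ^ (2 ^ (k + 1)) := by
          calc D = D ^ 1 := (pow_one _).symm
            _ ≤ D ^ (2 ^ (k + 1)) := Nat.pow_le_pow_right hD (by omega)
        exact Nat.mul_le_mul a1 a2
      have h6 : (2 * (D : ℚ)) ≤ (((2 * K) ^ (2 ^ (k + 1) - 1) * D ^ (2 ^ (k + 1)) : ℕ) : ℚ) := by
        exact_mod_cast h5
      exact one_div_le_one_div_of_le (by positivity) h6
    · push Not at hbig
      have hcard : (S.erase n1).card = k := by
        rw [Finset.card_erase_of_mem hn1S, hS]; rfl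
      have heq : (u : ℚ) / D - ∑ n ∈ S, (1 : ℚ) / n
          = ((u * n1 - D : ℤ) : ℚ) / ((D * n1 : ℕ) : ℚ) - ∑ n ∈ S.erase n1, (1 : ℚ) / n := by
        rw [hsplit]
        push_cast
        field_simp
        ring
      have hpos' : 0 < ((u * n1 - D : ℤ) : ℚ) / ((D * n1 : ℕ) : ℚ)
          - ∑ n ∈ S.erase n1, (1 : ℚ) / n := by rw [← heq]; exact hpos
      have hih := ih (by omega) (D * n1) (u * n1 - D) (S.erase n1) (Nat.mul_pos hD hn1pos) hcard
        (fun n hn => hS1 n (Finset.mem_of_mem_erase hn)) hpos'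
      rw [heq]
      refine le_trans ?_ hih
      have hle : (2 * K) ^ (2 ^ k - 1) * (D * n1) ^ (2 ^ k)
          ≤ (2 * K) ^ (2 ^ (k + 1) - 1) * D ^ (2 ^ (k + 1)) := by
        have b1 : D * n1 ≤ 2 * K * (D * D) := by
          calc D * n1 ≤ D * (2 * K * D) := Nat.mul_le_mul_left _ hbig.le
            _ = 2 * K * (D * D) := by ring
        calc (2 * K) ^ (2 ^ k - 1) * (D * n1) ^ (2 ^ k)
            ≤ (2 * K) ^ (2 ^ k - 1) * (2 * K * (D * D)) ^ (2 ^ k) :=
              Nat.mul_le_mul_left _ (Nat.pow_le_pow_left b1 _)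
          _ = (2 * K) ^ (2 ^ k - 1 + 2 ^ k) * D ^ (2 ^ k + 2 ^ k) := by
              rw [mul_pow, mul_pow, pow_add, pow_add]; ring
          _ = (2 * K) ^ (2 ^ (k + 1) - 1) * D ^ (2 ^ (k + 1)) := by
              have : 2 ^ k - 1 + 2 ^ k = 2 ^ (k + 1) - 1 := by omega
              rw [this, ← h2k]
      have hposden : 0 < (2 * K) ^ (2 ^ k - 1) * (D * n1) ^ (2 ^ k) := by
        have : 0 < D * n1 := Nat.mul_pos hD hn1pos
        positivity
      have hq1 : (0 : ℚ) < (((2 * K) ^ (2 ^ k - 1) * (D * n1) ^ (2 ^ k) : ℕ) : ℚ) := by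
        exact_mod_cast hposden
      have hq2 : (((2 * K) ^ (2 ^ k - 1) * (D * n1) ^ (2 ^ k) : ℕ) : ℚ)
          ≤ (((2 * K) ^ (2 ^ (k + 1) - 1) * D ^ (2 ^ (k + 1)) : ℕ) : ℚ) := by
        exact_mod_cast hle
      exact one_div_le_one_div_of_le hq1 hq2

/-- If `(b-1)/b` is a sum of `k` distinct unit fractions then `b ≤ (2k)^(2^k)`. -/
theorem le_of_rep (b : ℕ) (hb : 2 ≤ b) (S : Finset ℕ) (hS : ∀ n ∈ S, 1 ≤ n)
    (hsum : ∑ n ∈ S, (1 : ℚ) / n = ((b : ℚ) - 1) / b) :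
    1 ≤ S.card ∧ b ≤ (2 * S.card) ^ (2 ^ S.card) := by
  have hbq : (0 : ℚ) < b := by exact_mod_cast (by omega : 0 < b)
  have hcard : 1 ≤ S.card := by
    rw [Nat.one_le_iff_ne_zero, Ne, Finset.card_eq_zero]
    intro h
    rw [h, Finset.sum_empty] at hsum
    have h2 : (2 : ℚ) ≤ b := by exact_mod_cast hb
    have : ((b : ℚ) - 1) / b > 0 := by apply div_pos <;> linarith
    linarith
  refine ⟨hcard, ?_⟩
  have hdiff : ((1 : ℤ) : ℚ) / ((1 : ℕ) : ℚ) - ∑ n ∈ S, (1 : ℚ) / n = 1 / b := by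
    rw [hsum]; push_cast; field_simp; ring
  have h := gap_lower S.card hcard S.card le_rfl 1 1 S le_rfl rfl hS (by rw [hdiff]; positivity)
  rw [hdiff] at h
  have hden : 0 < (2 * S.card) ^ (2 ^ S.card - 1) * 1 ^ (2 ^ S.card) := by positivity
  have hdenq : (0 : ℚ) < (((2 * S.card) ^ (2 ^ S.card - 1) * 1 ^ (2 ^ S.card) : ℕ) : ℚ) := by
    exact_mod_cast hden
  have h2 : (b : ℚ) ≤ (((2 * S.card) ^ (2 ^ S.card - 1) * 1 ^ (2 ^ S.card) : ℕ) : ℚ) :=
    (one_div_le_one_div hdenq hbq).1 h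
  have h3 : b ≤ (2 * S.card) ^ (2 ^ S.card - 1) * 1 ^ (2 ^ S.card) := by exact_mod_cast h2
  calc b ≤ (2 * S.card) ^ (2 ^ S.card - 1) * 1 ^ (2 ^ S.card) := h3
    _ = (2 * S.card) ^ (2 ^ S.card - 1) := by rw [one_pow, mul_one]
    _ ≤ (2 * S.card) ^ (2 ^ S.card) := Nat.pow_le_pow_right (by omega) (Nat.sub_le _ _)

/-- Erdős's lower bound: every representation of `(b-1)/b` needs `≥ log log b / log 8` terms. -/
theorem lower_bound (b : ℕ) (hb : 3 ≤ b) (S : Finset ℕ) (hS : ∀ n ∈ S, 1 ≤ n)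
    (hsum : ∑ n ∈ S, (1 : ℚ) / n = ((b : ℚ) - 1) / b) :
    Real.log (Real.log b) ≤ Real.log 8 * S.card := by
  obtain ⟨hk, hle⟩ := le_of_rep b (by omega) S hS hsum
  set k := S.card with hkdef
  have hbR : (3 : ℝ) ≤ b := by exact_mod_cast hb
  have hlogb : 1 < Real.log b := by
    have h1 : Real.exp 1 < 3 := lt_trans Real.exp_one_lt_d9 (by norm_num)
    have h2 : Real.exp 1 < b := lt_of_lt_of_le h1 hbR
    have := Real.log_lt_log (Real.exp_pos 1) h2
    rwa [Real.log_exp] at this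
  have hleR : (b : ℝ) ≤ ((2 * k : ℕ) : ℝ) ^ (2 ^ k) := by exact_mod_cast hle
  have hkR : (1 : ℝ) ≤ k := by exact_mod_cast hk
  have h2kpos : (0 : ℝ) < ((2 * k : ℕ) : ℝ) := by push_cast; linarith
  have h1 : Real.log b ≤ (2 : ℝ) ^ k * Real.log ((2 * k : ℕ) : ℝ) := by
    have := Real.log_le_log (by linarith) hleR
    rw [Real.log_pow] at this
    push_cast at this ⊢
    exact this
  have h2 : Real.log ((2 * k : ℕ) : ℝ) ≤ (4 : ℝ) ^ k := by
    have a1 : Real.log ((2 * k : ℕ) : ℝ) ≤ ((2 * k : ℕ) : ℝ) - 1 := Real.log_le_sub_one_of_pos h2kpos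
    have a2 : 2 * k ≤ 4 ^ k := by
      have : k < 2 ^ k := Nat.lt_two_pow_self
      have h4 : 4 ^ k = 2 ^ k * 2 ^ k := by rw [← mul_pow]; norm_num
      have h5 : 2 ≤ 2 ^ k := by
        calc 2 = 2 ^ 1 := rfl
          _ ≤ 2 ^ k := Nat.pow_le_pow_right (by norm_num) hk
      nlinarith
    have a3 : ((2 * k : ℕ) : ℝ) ≤ (4 : ℝ) ^ k := by exact_mod_cast a2
    linarith
  have h3 : Real.log b ≤ (8 : ℝ) ^ k := by
    calc Real.log b ≤ (2 : ℝ) ^ k * Real.log ((2 * k : ℕ) : ℝ) := h1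
      _ ≤ (2 : ℝ) ^ k * (4 : ℝ) ^ k := by
          apply mul_le_mul_of_nonneg_left h2 (by positivity)
      _ = (8 : ℝ) ^ k := by rw [← mul_pow]; norm_num
  have h4 := Real.log_le_log (by linarith) h3
  rw [Real.log_pow] at h4
  linarith

end Vale.Agent.Lib.P012
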