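import Vale.Agent.Lib.P012.Main
import Vale.Agent.Lib.P012.Lower

/-! P012 v3: from a bound linear in `G` for `b ≤ 2 ^ 2 ^ G` to the bound `C * log log b`. -/

namespace Vale.Agent.Lib.P012

theorem main3_of (c0 c1 : ℕ)
    (h : ∀ G : ℕ, 64 ≤ G → ∀ a b : ℕ, 1 ≤ a → a < b → b ≤ 2 ^ 2 ^ G →
      ∃ S : Finset ℕ, (∀ n ∈ S, 2 ≤ n) ∧ ∑ n ∈ S, (1 : ℚ) / n = (a : ℚ) / b ∧
        S.card ≤ c1 * G + c0) :
    ∃ C : ℝ, ∀ a b : ℕ, 1 ≤ a → a < b → 16 ≤ b →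
      ∃ S : Finset ℕ, (∀ n ∈ S, 2 ≤ n) ∧ ∑ n ∈ S, (1 : ℚ) / n = (a : ℚ) / b ∧
        (S.card : ℝ) ≤ C * Real.log (Real.log b) := by
  refine ⟨64 * c1 + c0, ?_⟩
  intro a b ha hab hb
  obtain ⟨hx, hKx⟩ := clog_clog_le b hb
  set K := Nat.clog 2 (Nat.clog 2 b) with hK
  set x := Real.log (Real.log b) with hxdef
  set G := max 64 K with hGdef
  have hG64 : 64 ≤ G := le_max_left _ _
  have hKG : K ≤ G := le_max_right _ _
  have hbG : b ≤ 2 ^ 2 ^ G := by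
    calc b ≤ 2 ^ Nat.clog 2 b := Nat.le_pow_clog (by norm_num) b
      _ ≤ 2 ^ (2 ^ K) := Nat.pow_le_pow_right (by norm_num) (Nat.le_pow_clog (by norm_num) _)
      _ ≤ 2 ^ 2 ^ G := Nat.pow_le_pow_right (by norm_num) (Nat.pow_le_pow_right (by norm_num) hKG)
  obtain ⟨S, hS2, hSs, hSc⟩ := h G hG64 a b ha hab hbG
  refine ⟨S, hS2, hSs, ?_⟩
  have h1 : (S.card : ℝ) ≤ (c1 : ℝ) * G + c0 := by exact_mod_cast hSc
  have hGx : (G : ℝ) ≤ 64 * x := by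
    rw [hGdef]
    push_cast
    apply max_le
    · linarith
    · linarith
  have hc1 : (0 : ℝ) ≤ c1 := Nat.cast_nonneg _
  have hc0 : (0 : ℝ) ≤ c0 := Nat.cast_nonneg _
  calc (S.card : ℝ) ≤ (c1 : ℝ) * G + c0 := h1
    _ ≤ (c1 : ℝ) * (64 * x) + c0 * x := by
        have h2 := mul_le_mul_of_nonneg_left hGx hc1
        have h3 := mul_le_mul_of_nonneg_left hx hc0
        linarith
    _ = (64 * c1 + c0) * x := by ring

/-- the two sided statement: upper bound for all `a`, lower bound for `a = b - 1`. -/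
theorem order_of (hup : ∃ C : ℝ, ∀ a b : ℕ, 1 ≤ a → a < b → 16 ≤ b →
      ∃ S : Finset ℕ, (∀ n ∈ S, 2 ≤ n) ∧ ∑ n ∈ S, (1 : ℚ) / n = (a : ℚ) / b ∧
        (S.card : ℝ) ≤ C * Real.log (Real.log b)) :
    ∃ c C : ℝ, 0 < c ∧ ∀ b : ℕ, 16 ≤ b →
      (∀ a : ℕ, 1 ≤ a → a < b →
        ∃ S : Finset ℕ, (∀ n ∈ S, 2 ≤ n) ∧ ∑ n ∈ S, (1 : ℚ) / n = (a : ℚ) / b ∧
          (S.card : ℝ) ≤ C * Real.log (Real.log b)) ∧
      (∀ S : Finset ℕ, (∀ n ∈ S, 2 ≤ n) → ∑ n ∈ S, (1 : ℚ) / n = ((b : ℚ) - 1) / b →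
        c * Real.log (Real.log b) ≤ (S.card : ℝ)) := by
  obtain ⟨C, hC⟩ := hup
  have hl8 : 0 < Real.log 8 := Real.log_pos (by norm_num)
  refine ⟨1 / Real.log 8, C, by positivity, ?_⟩
  intro b hb
  refine ⟨fun a ha hab => hC a b ha hab hb, ?_⟩
  intro S hS hsum
  have := lower_bound b (by omega) S (fun n hn => le_trans (by norm_num) (hS n hn)) hsum
  rw [div_mul_eq_mul_div, one_mul, div_le_iff₀ hl8, mul_comm]
  exact this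

end Vale.Agent.Lib.P012
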