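import Vale.Agent.Lib.P012.Defs3
import Vale.Agent.Lib.P012.PrimeCount
import Vale.Agent.Lib.P012.StageFull

/-! Module D of P012 v3: a reservoir of `24 h` primes inside one short multiplicative window. -/

open Classical

namespace Vale.Agent.Lib.P012

/-- the class of a number: its binary length and its position inside the dyadic block -/
def wclass (h p : ℕ) : ℕ × ℕ :=
  (Nat.log 2 p, (p - 2 ^ Nat.log 2 p) * (2 * h) / 2 ^ Nat.log 2 p)

lemma wclass_close (h p q : ℕ) (hq : q ≠ 0) (hqp : q ≤ p)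
    (hc : wclass h p = wclass h q) : 2 * h * p ≤ (2 * h + 1) * q := by
  unfold wclass at hc
  have h1 : Nat.log 2 p = Nat.log 2 q := congrArg Prod.fst hc
  have h2 : (p - 2 ^ Nat.log 2 p) * (2 * h) / 2 ^ Nat.log 2 p
      = (q - 2 ^ Nat.log 2 q) * (2 * h) / 2 ^ Nat.log 2 q := congrArg Prod.snd hc
  rw [h1] at h2
  set k := Nat.log 2 q with hk
  have hkq : 2 ^ k ≤ q := Nat.pow_log_le_self 2 hq
  have hpos : 0 < 2 ^ k := by positivity
  -- write both numerators through the common quotient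
  set c := (q - 2 ^ k) * (2 * h) / 2 ^ k with hcdef
  have hp1 : (p - 2 ^ k) * (2 * h) < 2 ^ k * (c + 1) := by
    have := Nat.lt_mul_div_succ ((p - 2 ^ k) * (2 * h)) hpos
    rw [h2] at this
    exact this
  have hq1 : 2 ^ k * c ≤ (q - 2 ^ k) * (2 * h) := Nat.mul_div_le _ _
  obtain ⟨x, hx⟩ : ∃ x, q = 2 ^ k + x := ⟨q - 2 ^ k, by omega⟩
  obtain ⟨y, hy⟩ : ∃ y, p = 2 ^ k + y := ⟨p - 2 ^ k, by omega⟩
  have ex : q - 2 ^ k = x := by omega
  have ey : p - 2 ^ k = y := by omega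
  rw [ex] at hq1
  rw [ey] at hp1
  rw [hx, hy]
  nlinarith

theorem exists_reservoir (h z : ℕ) (hh : 1 ≤ h) (hz1 : 1 ≤ z)
    (hz : 2 ^ 12 * z ^ 2 * h ^ 2 ≤ 2 ^ z) :
    ∃ (GA GB : Fin 6 → Finset ℕ) (t : ℕ), 1 ≤ t ∧
      (∀ i, ∀ p ∈ GA i, p.Prime ∧ t ≤ p ∧ 2 * h * p ≤ (2 * h + 1) * t ∧ p ≤ 2 ^ z) ∧
      (∀ i, ∀ p ∈ GB i, p.Prime ∧ t ≤ p ∧ 2 * h * p ≤ (2 * h + 1) * t ∧ p ≤ 2 ^ z) ∧
      (∀ i, (GA i).card = 2 * h) ∧ (∀ i, (GB i).card = 2 * h) ∧
      (∀ i j, i ≠ j → Disjoint (GA i) (GA j)) ∧ (∀ i j, i ≠ j → Disjoint (GB i) (GB j)) ∧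
      (∀ i j, Disjoint (GA i) (GB j)) := by
  set P : Finset ℕ := (Finset.range (2 ^ z + 1)).filter Nat.Prime with hP
  have hPcard : P.card = Nat.primeCounting (2 ^ z) := card_primes_le _
  have hlow := primeCounting_lower z hz1
  -- enough primes
  have hbig : 2 ^ 12 * z * h ^ 2 ≤ P.card + 1 := by
    rw [hPcard]
    have : z * (2 ^ 12 * z * h ^ 2) ≤ z * (Nat.primeCounting (2 ^ z) + 1) := by
      calc z * (2 ^ 12 * z * h ^ 2) = 2 ^ 12 * z ^ 2 * h ^ 2 := by ring
        _ ≤ 2 ^ z := hz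
        _ ≤ _ := hlow
    exact Nat.le_of_mul_le_mul_left this hz1
  set T : Finset (ℕ × ℕ) := (Finset.range (z + 1)) ×ˢ (Finset.range (2 * h)) with hT
  have hTcard : T.card = (z + 1) * (2 * h) := by
    rw [hT, Finset.card_product, Finset.card_range, Finset.card_range]
  have hmaps : ∀ p ∈ P, wclass h p ∈ T := by
    intro p hp
    have hpp : p.Prime := (Finset.mem_filter.1 hp).2
    have hple : p ≤ 2 ^ z := Nat.lt_succ_iff.1 (Finset.mem_range.1 (Finset.mem_filter.1 hp).1)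
    have hp0 : p ≠ 0 := hpp.ne_zero
    unfold wclass
    rw [hT, Finset.mem_product, Finset.mem_range, Finset.mem_range]
    constructor
    · have : Nat.log 2 p ≤ Nat.log 2 (2 ^ z) := Nat.log_mono_right hple
      rw [Nat.log_pow (by norm_num)] at this
      show Nat.log 2 p < z + 1
      omega
    · show (p - 2 ^ Nat.log 2 p) * (2 * h) / 2 ^ Nat.log 2 p < 2 * h
      have h1 : p < 2 ^ (Nat.log 2 p + 1) := Nat.lt_pow_succ_log_self (by norm_num) p
      have h2 : 2 ^ Nat.log 2 p ≤ p := Nat.pow_log_le_self 2 hp0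
      have hpos : 0 < 2 ^ Nat.log 2 p := by positivity
      rw [Nat.div_lt_iff_lt_mul hpos]
      rw [pow_succ] at h1
      have h3 : p - 2 ^ Nat.log 2 p < 2 ^ Nat.log 2 p := by omega
      calc (p - 2 ^ Nat.log 2 p) * (2 * h) < 2 ^ Nat.log 2 p * (2 * h) :=
            Nat.mul_lt_mul_of_pos_right h3 (by omega)
        _ = 2 * h * 2 ^ Nat.log 2 p := by ring
  have hTne : T.Nonempty := by
    rw [← Finset.card_pos, hTcard]
    positivity
  have hn : T.card * (24 * h) ≤ P.card := by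
    rw [hTcard]
    have h1 : (z + 1) * (2 * h) * (24 * h) ≤ 96 * z * h ^ 2 := by nlinarith [sq_nonneg h]
    have h2 : 1 ≤ z * h ^ 2 := by
      have : 1 ≤ h ^ 2 := Nat.one_le_pow _ _ hh
      nlinarith
    have h3 : 2 ^ 12 * z * h ^ 2 = 4096 * (z * h ^ 2) := by ring
    have h4 : 96 * z * h ^ 2 = 96 * (z * h ^ 2) := by ring
    omega
  obtain ⟨y, _, hy⟩ := Finset.exists_le_card_fiber_of_mul_le_card_of_maps_to hmaps hTne hn
  set C : Finset ℕ := P.filter (fun p => wclass h p = y) with hC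
  have hCne : C.Nonempty := by
    rw [← Finset.card_pos]
    omega
  set t := C.min' hCne with ht
  have htC : t ∈ C := Finset.min'_mem _ _
  have htP : t.Prime := (Finset.mem_filter.1 (Finset.mem_filter.1 htC).1).2
  have hprop : ∀ p ∈ C, p.Prime ∧ t ≤ p ∧ 2 * h * p ≤ (2 * h + 1) * t ∧ p ≤ 2 ^ z := by
    intro p hp
    have hpP := (Finset.mem_filter.1 hp).1
    have htp : t ≤ p := Finset.min'_le _ _ hp
    refine ⟨(Finset.mem_filter.1 hpP).2, htp, ?_,
      Nat.lt_succ_iff.1 (Finset.mem_range.1 (Finset.mem_filter.1 hpP).1)⟩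
    apply wclass_close h p t htP.ne_zero htp
    rw [(Finset.mem_filter.1 hp).2, (Finset.mem_filter.1 htC).2]
  obtain ⟨G, hGsub, hGcard, hGdisj⟩ := exists_groups (2 * h) 12 C (by omega)
  let ia : Fin 6 → Fin 12 := fun i => ⟨2 * i.val, by omega⟩
  let ib : Fin 6 → Fin 12 := fun i => ⟨2 * i.val + 1, by omega⟩
  refine ⟨fun i => G (ia i), fun i => G (ib i), t, htP.one_lt.le,
    fun i p hp => hprop p (hGsub _ hp), fun i p hp => hprop p (hGsub _ hp),
    fun i => hGcard _, fun i => hGcard _, ?_, ?_, ?_⟩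
  · intro i j hij
    apply hGdisj
    intro he
    apply hij
    have := congrArg Fin.val he
    simp only [ia] at this
    exact Fin.ext (by omega)
  · intro i j hij
    apply hGdisj
    intro he
    apply hij
    have := congrArg Fin.val he
    simp only [ib] at this
    exact Fin.ext (by omega)
  · intro i j
    apply hGdisj
    intro he
    have := congrArg Fin.val he
    simp only [ia, ib] at this
    omega

end Vale.Agent.Lib.P012
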