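import Vale.Agent.Lib.P012.Numeric3
import Vale.Agent.Lib.P012.GoodCover
import Vale.Agent.Lib.P012.GoodInterval
import Vale.Agent.Lib.P012.Window
import Vale.Agent.Lib.P012.Block
import Vale.Agent.Lib.P012.Digit
import Vale.Agent.Lib.P012.Assemble3
import Vale.Agent.Lib.P012.Main3

/-! P012 v3: final assembly, `N(b) ≪ log log b`. -/

open Classical

namespace Vale.Agent.Lib.P012

/-- number of unit fractions used at scale `G` -/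
def TT3 (G : ℕ) : ℕ := 2 * G + 1 + 2 * (6 * (17 * G + 16 * (146 * G + 1000)) + 4096 * G)

theorem prod_groups_le (GA : Fin 6 → Finset ℕ) (h z : ℕ) (hc : ∀ i, (GA i).card = 2 * h)
    (hz : ∀ i, ∀ p ∈ GA i, p ≤ 2 ^ z) : ∏ i, ∏ p ∈ GA i, p ≤ 2 ^ (12 * (h * z)) := by
  have h1 : ∀ i ∈ (Finset.univ : Finset (Fin 6)), ∏ p ∈ GA i, p ≤ 2 ^ (z * (2 * h)) := by
    intro i _
    rw [pow_mul, ← hc i]
    exact Finset.prod_le_pow_card (GA i) (fun p => p) (2 ^ z) (hz i)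
  calc ∏ i, ∏ p ∈ GA i, p ≤ (2 ^ (z * (2 * h))) ^ (Finset.univ : Finset (Fin 6)).card :=
        Finset.prod_le_pow_card _ _ _ h1
    _ = 2 ^ (12 * (h * z)) := by
        rw [Finset.card_univ, Fintype.card_fin, ← pow_mul]; congr 1; ring

theorem num_res (G : ℕ) (hG : 64 ≤ G) :
    2 ^ 12 * (3 * G + 20) ^ 2 * (2 ^ G) ^ 2 ≤ 2 ^ (3 * G + 20) := by
  have hsq := sq_le_two_pow G hG
  have e1 : 2 ^ (3 * G + 20) = 2 ^ 12 * (2 ^ 8 * 2 ^ G) * (2 ^ G) ^ 2 := by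
    rw [← pow_mul, ← pow_add, ← pow_add, ← pow_add]; congr 1; ring
  rw [e1]
  apply Nat.mul_le_mul_right
  apply Nat.mul_le_mul_left
  nlinarith

theorem num_F (G : ℕ) : (2 ^ G - 1).factorial ≤ 2 ^ (G * 2 ^ G) := by
  have hh1 : 1 ≤ 2 ^ G := Nat.one_le_two_pow
  calc (2 ^ G - 1).factorial ≤ (2 ^ G - 1) ^ (2 ^ G - 1) := Nat.factorial_le_pow _
    _ ≤ (2 ^ G) ^ (2 ^ G - 1) := Nat.pow_le_pow_left (Nat.sub_le _ _) _
    _ ≤ (2 ^ G) ^ (2 ^ G) := Nat.pow_le_pow_right hh1 (Nat.sub_le _ _)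
    _ = 2 ^ (G * 2 ^ G) := by rw [← pow_mul]

theorem num_Y (G F RB : ℕ) (hFle : F ≤ 2 ^ (G * 2 ^ G))
    (hRBle : RB ≤ 2 ^ (24 * (2 ^ G * (3 * G + 20)))) :
    2 * (F * RB) ≤ 2 ^ (2 ^ G * (73 * G + 480) + 1) := by
  calc 2 * (F * RB) ≤ 2 * (2 ^ (G * 2 ^ G) * 2 ^ (24 * (2 ^ G * (3 * G + 20)))) :=
        Nat.mul_le_mul_left _ (Nat.mul_le_mul hFle hRBle)
    _ = 2 ^ (2 ^ G * (73 * G + 480) + 1) := by
        rw [← pow_add, pow_succ, mul_comm]; congr 2; ring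

theorem num_Yt (G Y : ℕ) (hG : 64 ≤ G) (hY : Y ≤ 2 ^ (2 ^ G * (73 * G + 480) + 1)) :
    Y ≤ 2 ^ 2 ^ (2 * G) := by
  have hsq := sq_le_two_pow G hG
  refine hY.trans (Nat.pow_le_pow_right (by norm_num) ?_)
  have : 2 ^ (2 * G) = 2 ^ G * 2 ^ G := by rw [← pow_add]; congr 1; ring
  rw [this]
  have h1 : 73 * G + 481 ≤ 2 ^ G := by nlinarith
  have hh1 : 1 ≤ 2 ^ G := Nat.one_le_two_pow
  calc 2 ^ G * (73 * G + 480) + 1 ≤ 2 ^ G * (73 * G + 480) + 2 ^ G := by omega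
    _ = 2 ^ G * (73 * G + 481) := by ring
    _ ≤ 2 ^ G * 2 ^ G := Nat.mul_le_mul_left _ h1

theorem num_mb (G Y b : ℕ) (hY : Y ≤ 2 ^ (2 ^ G * (73 * G + 480) + 1)) (hb : b ≤ 2 ^ 2 ^ G) :
    b * Y ^ 2 < 2 ^ (2 ^ G * (146 * G + 961) + 3) := by
  calc b * Y ^ 2 ≤ 2 ^ 2 ^ G * (2 ^ (2 ^ G * (73 * G + 480) + 1)) ^ 2 :=
        Nat.mul_le_mul hb (Nat.pow_le_pow_left hY 2)
    _ = 2 ^ (2 ^ G * (146 * G + 961) + 2) := by
        rw [← pow_mul, ← pow_add]; congr 1; ring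
    _ < 2 ^ (2 ^ G * (146 * G + 961) + 3) := Nat.pow_lt_pow_right (by norm_num) (by omega)

theorem num_reach (G : ℕ) (hG : 64 ≤ G) :
    2 ^ G * (146 * G + 961) + 3 ≤
      fstep (4096 * G ^ 2) (2 ^ G) (17 * G + 16 * (146 * G + 1000)) := by
  have hh1 : 1 ≤ 2 ^ G := Nat.one_le_two_pow
  apply fstep_reach
  · nlinarith
  · exact Nat.le_mul_of_pos_right _ (by positivity)
  · have e2 : 2 ^ G = 16 * 2 ^ (G - 4) := by
      have : (16 : ℕ) = 2 ^ 4 := by norm_num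
      rw [this, ← pow_add]; congr 1; omega
    have e3 : 2 ^ G / 16 = 2 ^ (G - 4) := by rw [e2]; simp
    rw [e3, e2]
    have : 1 ≤ 2 ^ (G - 4) := Nat.one_le_two_pow
    nlinarith

theorem num_Qu (G L : ℕ) (hG : 64 ≤ G) (hL : L ≤ 2 ^ G) :
    2 ^ 17 * (L + 1) ≤ 2 ^ (6 * (11 * G)) := by
  have hh1 : 1 ≤ 2 ^ G := Nat.one_le_two_pow
  calc 2 ^ 17 * (L + 1) ≤ 2 ^ 17 * 2 ^ (G + 1) := by
        apply Nat.mul_le_mul_left
        rw [pow_succ]; omega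
    _ = 2 ^ (17 + (G + 1)) := by rw [← pow_add]
    _ ≤ 2 ^ (6 * (11 * G)) := Nat.pow_le_pow_right (by norm_num) (by omega)

/-- digits exist in every short interval -/
theorem digits_exist (G : ℕ) (hG : 64 ≤ G) (GA GB : Fin 6 → Finset ℕ) (t : ℕ) (ht : 1 ≤ t)
    (hGA : ∀ i, ∀ p ∈ GA i, p.Prime ∧ t ≤ p ∧ 2 * 2 ^ G * p ≤ (2 * 2 ^ G + 1) * t ∧
      p ≤ 2 ^ (3 * G + 20))
    (hGB : ∀ i, ∀ p ∈ GB i, p.Prime ∧ t ≤ p ∧ 2 * 2 ^ G * p ≤ (2 * 2 ^ G + 1) * t ∧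
      p ≤ 2 ^ (3 * G + 20))
    (hcA : ∀ i, (GA i).card = 2 * 2 ^ G) (hcB : ∀ i, (GB i).card = 2 * 2 ^ G)
    (hdA : ∀ i j, i ≠ j → Disjoint (GA i) (GA j)) (hdB : ∀ i j, i ≠ j → Disjoint (GB i) (GB j))
    (hdAB : ∀ i j, Disjoint (GA i) (GB j))
    (X0 : ℕ) (hl1 : 4096 * G ^ 2 ≤ Nat.log 2 X0) (hl2 : Nat.log 2 X0 ≤ 2 ^ G) :
    ∃ Q, X0 - 2 ^ (Nat.log 2 X0 - Nat.log 2 X0 / 16) < Q ∧ Q ≤ X0 ∧
      Digit ((∏ i, ∏ p ∈ GA i, p) * ∏ i, ∏ p ∈ GB i, p) Q := by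
  have hh1 : 1 ≤ 2 ^ G := Nat.one_le_two_pow
  have hpA : ∀ i, ∀ p ∈ GA i, p.Prime := fun i p hp => (hGA i p hp).1
  have hpB : ∀ i, ∀ p ∈ GB i, p.Prime := fun i p hp => (hGB i p hp).1
  have hcardA : ∀ i, 2 ^ 2 ^ G ≤ (kp (GA i) (2 ^ G)).card := by
    intro i
    rw [card_kp (hpA i), hcA i]
    exact pow_le_choose_mul 2 (2 ^ G)
  have hcardB : ∀ i, 2 ^ 2 ^ G ≤ (kp (GB i) (2 ^ G)).card := by
    intro i
    rw [card_kp (hpB i), hcB i]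
    exact pow_le_choose_mul 2 (2 ^ G)
  have hAne : ∀ i, (kp (GA i) (2 ^ G)).Nonempty := fun i => by
    rw [← Finset.card_pos]
    exact lt_of_lt_of_le (by positivity) (hcardA i)
  have hBne : ∀ i, (kp (GB i) (2 ^ G)).Nonempty := fun i => by
    rw [← Finset.card_pos]
    exact lt_of_lt_of_le (by positivity) (hcardB i)
  have hAW : ∀ i, ∀ x ∈ kp (GA i) (2 ^ G), x < 2 ^ ((3 * G + 20) * 2 ^ G + 1) := by
    intro i x hx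
    have := le_of_mem_kp (fun p hp => (hGA i p hp).2.2.2) hx
    exact lt_of_le_of_lt this (Nat.pow_lt_pow_right (by norm_num) (by omega))
  have hBW : ∀ i, ∀ x ∈ kp (GB i) (2 ^ G), x < 2 ^ ((3 * G + 20) * 2 ^ G + 1) := by
    intro i x hx
    have := le_of_mem_kp (fun p hp => (hGB i p hp).2.2.2) hx
    exact lt_of_le_of_lt this (Nat.pow_lt_pow_right (by norm_num) (by omega))
  obtain ⟨l, hl⟩ : ∃ l, l = Nat.log 2 X0 := ⟨_, rfl⟩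
  rw [← hl] at hl1 hl2 ⊢
  have hX0 : X0 ≠ 0 := by
    rintro rfl
    simp at hl
    rw [hl] at hl1
    nlinarith
  have hs : 2 ^ (l - l / 16) ≤ X0 := by
    rw [hl]
    exact (Nat.pow_le_pow_right (by norm_num) (Nat.sub_le _ _)).trans (Nat.pow_log_le_self 2 hX0)
  have hmain := numeric3_main G l hG hl1
  rw [hl] at hmain
  obtain ⟨Q, hQ1, hQ2, hQ3⟩ := good_in_interval (fun i => kp (GA i) (2 ^ G))
    (fun i => kp (GB i) (2 ^ G)) ((3 * G + 20) * 2 ^ G + 1) (11 * G) X0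
    (2 ^ (l - l / 16)) (by omega) hAW hBW hs (numeric3_sieve G l hG hl1)
    (by rw [hl]; exact hmain)
  refine ⟨Q, hQ1, hQ2, ?_⟩
  have hQ0 : 1 ≤ Q := by omega
  have hlQ : Nat.log 2 Q ≤ 2 ^ G := by
    rw [hl] at hl2
    exact (Nat.log_mono_right hQ2).trans hl2
  have hexp : 2 ^ (5 * Nat.log 2 Q / 6) ≤ 2 ^ 2 ^ G :=
    Nat.pow_le_pow_right (by norm_num) (by omega)
  obtain ⟨x, y, hx, hy, hdvd⟩ := good_cover _ _ hAne hBne (6 * (11 * G)) Q (by omega) hQ0 hQ3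
    (fun i => hexp.trans (hcardA i)) (fun i => hexp.trans (hcardB i)) (num_Qu G _ hG hlQ)
  exact block GA GB t (2 ^ G) ht hh1
    (fun i p hp => ⟨(hGA i p hp).1, (hGA i p hp).2.1, (hGA i p hp).2.2.1⟩)
    (fun i p hp => ⟨(hGB i p hp).1, (hGB i p hp).2.1, (hGB i p hp).2.2.1⟩)
    hdA hdB hdAB x y hx hy Q hQ0 hdvd

/-- all numerators below `2^m` have short expansions -/
theorem expa_all (G RB : ℕ) (hG : 64 ≤ G) (hRB1 : 1 ≤ RB)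
    (hdig : ∀ X0, 4096 * G ^ 2 ≤ Nat.log 2 X0 → Nat.log 2 X0 ≤ 2 ^ G →
      ∃ Q, X0 - 2 ^ (Nat.log 2 X0 - Nat.log 2 X0 / 16) < Q ∧ Q ≤ X0 ∧ Digit RB Q)
    (M0 E : ℕ) (hM0 : 1 ≤ M0) (hE : E < 2 ^ (2 ^ G * (146 * G + 961) + 3)) :
    Expa E (M0 * 2 ^ (2 ^ G * (146 * G + 961) + 3) * (2 ^ G - 1).factorial * RB)
      (6 * (17 * G + 16 * (146 * G + 1000)) + 4096 * G) := by
  have hsq := sq_le_two_pow G hG
  have hreach := num_reach G hG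
  obtain ⟨m, hm⟩ : ∃ m : ℕ, m = 2 ^ G * (146 * G + 961) + 3 := ⟨_, rfl⟩
  obtain ⟨F, hF⟩ : ∃ F : ℕ, F = (2 ^ G - 1).factorial := ⟨_, rfl⟩
  have hF1 : 1 ≤ F := by rw [hF]; exact Nat.succ_le_of_lt (Nat.factorial_pos _)
  have hlm : 4096 * G ^ 2 ≤ m := by
    rw [hm]
    have : 2 ^ G * 1 ≤ 2 ^ G * (146 * G + 961) := Nat.mul_le_mul_left _ (by omega)
    omega
  rw [← hm] at hE hreach ⊢
  rw [← hF]
  have htail : ∀ E, E < 2 ^ (4096 * G ^ 2) → Expa E (M0 * 2 ^ m * F * RB) (4096 * G) := by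
    intro E hE
    have e1 : (2 ^ G) ^ (4096 * G) = 2 ^ (4096 * G ^ 2) := by
      rw [← pow_mul]; congr 1; ring
    apply tail_expa (2 ^ G) (4096 * G) _ E
    · calc 2 = 2 ^ 1 := by norm_num
        _ ≤ 2 ^ G := Nat.pow_le_pow_right (by norm_num) (by omega)
    · have : 0 < 2 ^ m := by positivity
      exact Nat.mul_pos (Nat.mul_pos (Nat.mul_pos hM0 this) hF1) hRB1
    · rw [e1, ← hF]
      have h1 : 2 ^ (4096 * G ^ 2) ∣ 2 ^ m := pow_dvd_pow 2 hlm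
      have h2 : F * 2 ^ (4096 * G ^ 2) ∣ F * 2 ^ m := Nat.mul_dvd_mul_left _ h1
      refine h2.trans ⟨M0 * RB, by ring⟩
    · rw [e1]; exact hE
  exact expansion RB F m (4096 * G ^ 2) (2 ^ G) (4096 * G) M0 hRB1 hF1 hM0 (by nlinarith) hsq
    hdig htail _ E (lt_of_lt_of_le hE (Nat.pow_le_pow_right (by norm_num) hreach)) hE

theorem egyptian_G3 (G : ℕ) (hG : 64 ≤ G) (a b : ℕ) (ha : 1 ≤ a) (hab : a < b)
    (hb : b ≤ 2 ^ 2 ^ G) :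
    ∃ S : Finset ℕ, (∀ n ∈ S, 2 ≤ n) ∧ ∑ n ∈ S, (1 : ℚ) / n = (a : ℚ) / b ∧ S.card ≤ TT3 G := by
  have hh1 : 1 ≤ 2 ^ G := Nat.one_le_two_pow
  obtain ⟨GA, GB, t, ht, hGA, hGB, hcA, hcB, hdA, hdB, hdAB⟩ :=
    exists_reservoir (2 ^ G) (3 * G + 20) hh1 (by omega) (num_res G hG)
  have hdig := digits_exist G hG GA GB t ht hGA hGB hcA hcB hdA hdB hdAB
  have hRBle : (∏ i, ∏ p ∈ GA i, p) * ∏ i, ∏ p ∈ GB i, p ≤ 2 ^ (24 * (2 ^ G * (3 * G + 20))) := by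
    have h1 := prod_groups_le GA (2 ^ G) (3 * G + 20) hcA (fun i p hp => (hGA i p hp).2.2.2)
    have h2 := prod_groups_le GB (2 ^ G) (3 * G + 20) hcB (fun i p hp => (hGB i p hp).2.2.2)
    calc _ ≤ 2 ^ (12 * (2 ^ G * (3 * G + 20))) * 2 ^ (12 * (2 ^ G * (3 * G + 20))) :=
          Nat.mul_le_mul h1 h2
      _ = 2 ^ (24 * (2 ^ G * (3 * G + 20))) := by rw [← pow_add]; congr 1; ring
  have hRB1 : 1 ≤ (∏ i, ∏ p ∈ GA i, p) * ∏ i, ∏ p ∈ GB i, p := by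
    apply Nat.succ_le_of_lt
    apply Nat.mul_pos
    · exact Finset.prod_pos fun i _ => Finset.prod_pos fun p hp => (hGA i p hp).1.pos
    · exact Finset.prod_pos fun i _ => Finset.prod_pos fun p hp => (hGB i p hp).1.pos
  obtain ⟨RB, hRB⟩ : ∃ RB : ℕ, RB = (∏ i, ∏ p ∈ GA i, p) * ∏ i, ∏ p ∈ GB i, p := ⟨_, rfl⟩
  rw [← hRB] at hdig hRBle hRB1
  have hY := num_Y G _ RB (num_F G) hRBle
  exact egyptian_of_expa _ RB _ (2 * G) _ a b (Nat.succ_le_of_lt (Nat.factorial_pos _)) hRB1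
    (num_Yt G _ hG hY) (num_mb G _ b hY hb) (fun M0 E h1 h2 => expa_all G RB hG hRB1 hdig M0 E h1 h2)
    ha hab

theorem main3 : ∃ C : ℝ, ∀ a b : ℕ, 1 ≤ a → a < b → 16 ≤ b →
    ∃ S : Finset ℕ, (∀ n ∈ S, 2 ≤ n) ∧ ∑ n ∈ S, (1 : ℚ) / n = (a : ℚ) / b ∧
      (S.card : ℝ) ≤ C * Real.log (Real.log b) := by
  refine ⟨TT3 64 + 4 * 36446, ?_⟩
  intro a b ha hab hb
  obtain ⟨hx, hKx⟩ := clog_clog_le b hb
  set K := Nat.clog 2 (Nat.clog 2 b) with hK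
  set x := Real.log (Real.log b) with hxdef
  have hbK : b ≤ 2 ^ 2 ^ (max 64 K) := by
    calc b ≤ 2 ^ Nat.clog 2 b := Nat.le_pow_clog (by norm_num) b
      _ ≤ 2 ^ (2 ^ K) := Nat.pow_le_pow_right (by norm_num) (Nat.le_pow_clog (by norm_num) _)
      _ ≤ 2 ^ 2 ^ (max 64 K) := Nat.pow_le_pow_right (by norm_num)
          (Nat.pow_le_pow_right (by norm_num) (le_max_right _ _))
  obtain ⟨S, hS2, hSs, hSc⟩ := egyptian_G3 (max 64 K) (le_max_left _ _) a b ha hab hbK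
  refine ⟨S, hS2, hSs, ?_⟩
  have h1 : (S.card : ℝ) ≤ (TT3 (max 64 K) : ℝ) := by exact_mod_cast hSc
  have h2 : TT3 (max 64 K) ≤ TT3 64 + 36446 * K := by
    unfold TT3
    rcases le_total 64 K with h | h
    · rw [max_eq_right h]; omega
    · rw [max_eq_left h]; omega
  have h3 : (TT3 (max 64 K) : ℝ) ≤ (TT3 64 : ℝ) + 36446 * K := by exact_mod_cast h2
  have hT : (0 : ℝ) ≤ (TT3 64 : ℝ) := Nat.cast_nonneg _
  nlinarith

end Vale.Agent.Lib.P012
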