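import Vale.Agent.Lib.P012.Defs

/-! Module B of P012: the stage lemma `prac_mul` and the base case `prac_primorial`. -/

namespace Vale.Agent.Lib.P012

open Finset

/-- gluing a set of divisors of `N` and `Q` times a set of divisors of `N` -/
theorem glue {N Q : ℕ} (hNpos : 0 < N) (hQ : Nat.Coprime N Q) (hQ2 : 2 ≤ Q)
    {D S' : Finset ℕ} (hD : D ⊆ N.divisors) (hS' : S' ⊆ N.divisors) :
    (D ∪ S'.image (fun e => Q * e)) ⊆ (N * Q).divisors ∧
      (D ∪ S'.image (fun e => Q * e)).card ≤ S'.card + D.card ∧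
      ∑ d ∈ D ∪ S'.image (fun e => Q * e), d = ∑ d ∈ D, d + Q * ∑ e ∈ S', e := by
  have hQpos : 0 < Q := by omega
  have hdisj : Disjoint D (S'.image (fun e => Q * e)) := by
    rw [Finset.disjoint_left]
    intro d hd hd'
    obtain ⟨e, _, rfl⟩ := Finset.mem_image.1 hd'
    have h1 : Q * e ∣ N := Nat.dvd_of_mem_divisors (hD hd)
    have h2 : Q ∣ N := (Dvd.intro _ rfl).trans h1
    have h3 : Q ∣ 1 := by
      have := Nat.dvd_gcd h2 (dvd_refl Q)
      rwa [hQ] at this
    have := Nat.le_of_dvd one_pos h3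
    omega
  refine ⟨?_, ?_, ?_⟩
  · intro d hd
    rw [Nat.mem_divisors]
    refine ⟨?_, (Nat.mul_pos hNpos hQpos).ne'⟩
    rcases Finset.mem_union.1 hd with h | h
    · exact (Nat.dvd_of_mem_divisors (hD h)).trans (Dvd.intro _ rfl)
    · obtain ⟨e, he, rfl⟩ := Finset.mem_image.1 h
      rw [mul_comm N Q]
      exact Nat.mul_dvd_mul_left Q (Nat.dvd_of_mem_divisors (hS' he))
  · calc (D ∪ S'.image (fun e => Q * e)).card ≤ D.card + (S'.image (fun e => Q * e)).card :=
        Finset.card_union_le _ _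
      _ ≤ D.card + S'.card := Nat.add_le_add_left Finset.card_image_le _
      _ = S'.card + D.card := Nat.add_comm _ _
  · rw [Finset.sum_union hdisj, Finset.sum_image, Finset.mul_sum]
    intro a _ b _ hab
    exact Nat.eq_of_mul_eq_mul_left hQpos hab

theorem prac_mul {N T Q s : ℕ} (hN : Prac N T) (hNpos : 0 < N) (hQ : Nat.Coprime N Q) (hQ2 : 2 ≤ Q)
    (hcov : ∀ m : ℕ, ∃ D : Finset ℕ, D ⊆ N.divisors ∧ D.card ≤ s ∧ ∑ d ∈ D, d ≤ N ∧
      (∑ d ∈ D, d) ≡ m [MOD Q]) :
    Prac (N * Q) (T + s) := by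
  have hQpos : 0 < Q := by omega
  intro m hm
  by_cases hmN : m ≤ N
  · obtain ⟨S, hS, hc, hsum⟩ := hN m hmN
    refine ⟨S, ?_, by omega, hsum⟩
    intro d hd
    rw [Nat.mem_divisors]
    exact ⟨(Nat.dvd_of_mem_divisors (hS hd)).trans (Dvd.intro _ rfl),
      (Nat.mul_pos hNpos hQpos).ne'⟩
  · obtain ⟨D, hD, hDc, hDs, hmod⟩ := hcov m
    have hle : ∑ d ∈ D, d ≤ m := by omega
    have hdvd : Q ∣ m - ∑ d ∈ D, d := (Nat.modEq_iff_dvd' hle).1 hmod
    obtain ⟨m', hm'⟩ := hdvd
    have hm'N : m' ≤ N := by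
      have h1 : Q * m' ≤ Q * N := by
        calc Q * m' = m - ∑ d ∈ D, d := hm'.symm
          _ ≤ m := Nat.sub_le _ _
          _ ≤ N * Q := hm
          _ = Q * N := Nat.mul_comm _ _
      exact Nat.le_of_mul_le_mul_left h1 hQpos
    obtain ⟨S', hS', hc', hsum'⟩ := hN m' hm'N
    obtain ⟨g1, g2, g3⟩ := glue hNpos hQ hQ2 hD hS'
    refine ⟨D ∪ S'.image (fun e => Q * e), g1, by omega, ?_⟩
    rw [g3, hsum', ← hm']
    omega

theorem primorial_succ_prime {y : ℕ} (hp : (y + 1).Prime) :
    primorial (y + 1) = primorial y * (y + 1) := by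
  unfold primorial
  rw [Finset.range_add_one (n := y + 1), Finset.filter_insert, if_pos hp, Finset.prod_insert, mul_comm]
  simp

theorem primorial_succ_not_prime {y : ℕ} (hp : ¬ (y + 1).Prime) :
    primorial (y + 1) = primorial y := by
  unfold primorial
  rw [Finset.range_add_one (n := y + 1), Finset.filter_insert, if_neg hp]

theorem primorial_sums (y : ℕ) :
    ∀ m ≤ primorial y, ∃ S : Finset ℕ, S ⊆ (primorial y).divisors ∧ ∑ d ∈ S, d = m := by
  induction y with
  | zero =>
    intro m hm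
    rw [primorial_zero] at hm ⊢
    interval_cases m
    · exact ⟨∅, by simp, by simp⟩
    · exact ⟨{1}, by simp, by simp⟩
  | succ y ih =>
    by_cases hp : (y + 1).Prime
    · rw [primorial_succ_prime hp]
      intro m hm
      have hpos : 0 < y + 1 := Nat.succ_pos y
      have hNpos := primorial_pos y
      have hcop : Nat.Coprime (primorial y) (y + 1) := by
        rw [Nat.coprime_comm, Nat.Prime.coprime_iff_not_dvd hp, hp.dvd_primorial_iff]
        omega
      have h1 : m / (y + 1) ≤ primorial y := by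
        rw [Nat.div_le_iff_le_mul_add_pred hpos]
        calc m ≤ primorial y * (y + 1) := hm
          _ = (y + 1) * primorial y := Nat.mul_comm _ _
          _ ≤ (y + 1) * primorial y + (y + 1 - 1) := Nat.le_add_right _ _
      have h2 : m % (y + 1) ≤ primorial y := by
        have := Nat.mod_lt m hpos
        have := le_primorial_self (n := y)
        omega
      obtain ⟨S1, hS1, hs1⟩ := ih _ h1
      obtain ⟨S2, hS2, hs2⟩ := ih _ h2
      obtain ⟨g1, _, g3⟩ := glue hNpos hcop hp.two_le hS2 hS1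
      refine ⟨_, g1, ?_⟩
      rw [g3, hs1, hs2]
      exact Nat.mod_add_div m (y + 1)
    · rw [primorial_succ_not_prime hp]
      exact ih

/-- base case -/
theorem prac_primorial (y : ℕ) : Prac (primorial y) (primorial y).divisors.card := by
  intro m hm
  obtain ⟨S, hS, hs⟩ := primorial_sums y m hm
  exact ⟨S, hS, Finset.card_le_card hS, hs⟩

end Vale.Agent.Lib.P012
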