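import Vale.Agent.Lib.P012.Numeric
import Vale.Agent.Lib.P012.Stage
import Vale.Agent.Lib.P012.PrimeCount
import Vale.Agent.Lib.P012.StageFull

/-! Module G2 of P012: iterating the stage. -/

namespace Vale.Agent.Lib.P012

lemma Prac.mono {N T T' : ℕ} (h : Prac N T) (hT : T ≤ T') : Prac N T' := by
  intro m hm
  obtain ⟨S, h1, h2, h3⟩ := h m hm
  exact ⟨S, h1, h2.trans hT, h3⟩

lemma zz_mono {a b : ℕ} (h : a ≤ b) : zz a ≤ zz b := by
  unfold zz; omega

lemma phase_aux (k : ℕ) (hk : 14 ≤ k) (t : ℕ) :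
    ∀ (P : Finset ℕ) (T : ℕ), (∀ p ∈ P, p.Prime) → 2 ^ k ≤ P.card → (∀ p ∈ P, p ≤ 2 ^ zz k) →
      Prac (∏ p ∈ P, p) T → 2 ^ (k + 1) ≤ P.card + t * ((2 ^ (k - 4) - 1) / zz k) →
      ∃ P' : Finset ℕ, (∀ p ∈ P', p.Prime) ∧ 2 ^ (k + 1) ≤ P'.card ∧ (∀ p ∈ P', p ≤ 2 ^ zz k) ∧
        Prac (∏ p ∈ P', p) (T + 6 * t) := by
  induction t with
  | zero =>
    intro P T hP hcard hz hprac hbig
    exact ⟨P, hP, by simpa using hbig, hz, by simpa using hprac⟩
  | succ t ih =>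
    intro P T hP hcard hz hprac hbig
    by_cases hlt : P.card < 2 ^ (k + 1)
    · obtain ⟨h1, h2, h3, h4, h5, h6, h7, _⟩ := numeric_phase k P.card hk hcard hlt
      obtain ⟨S, hS, hdis, hSc, hSz, hpr⟩ := stage_full P hP T _ _ _ _ h1 hz
        (by unfold zz; omega) h2 h3 h4 h5 h6 h7 hprac
      have hc : (P ∪ S).card = P.card + (2 ^ (k - 4) - 1) / zz k := by
        rw [Finset.card_union_of_disjoint hdis, hSc]
      obtain ⟨P', a1, a2, a3, a4⟩ := ih (P ∪ S) (T + 6)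
        (by
          intro p hp
          rcases Finset.mem_union.1 hp with h | h
          · exact hP p h
          · exact hS p h)
        (by rw [hc]; omega)
        (by
          intro p hp
          rcases Finset.mem_union.1 hp with h | h
          · exact hz p h
          · exact hSz p h)
        hpr
        (by
          rw [hc]
          have : (t + 1) * ((2 ^ (k - 4) - 1) / zz k)
              = t * ((2 ^ (k - 4) - 1) / zz k) + (2 ^ (k - 4) - 1) / zz k := by ring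
          omega)
      exact ⟨P', a1, a2, a3, a4.mono (by omega)⟩
    · exact ⟨P, hP, by omega, hz, hprac.mono (by omega)⟩

theorem phase (k : ℕ) (hk : 14 ≤ k) (P : Finset ℕ) (hP : ∀ p ∈ P, p.Prime) (T : ℕ)
    (hcard : 2 ^ k ≤ P.card) (hz : ∀ p ∈ P, p ≤ 2 ^ zz k) (hprac : Prac (∏ p ∈ P, p) T) :
    ∃ P' : Finset ℕ, (∀ p ∈ P', p.Prime) ∧ 2 ^ (k + 1) ≤ P'.card ∧ (∀ p ∈ P', p ≤ 2 ^ zz (k + 1)) ∧
      Prac (∏ p ∈ P', p) (T + 6 * (32 * zz k)) := by
  have hnum := (numeric_phase k (2 ^ k) hk le_rfl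
    (Nat.pow_lt_pow_right (by norm_num) (by omega))).2.2.2.2.2.2.2
  obtain ⟨P', a1, a2, a3, a4⟩ := phase_aux k hk (32 * zz k) P T hP hcard hz hprac (by
    have : 2 ^ (k + 1) = 2 ^ k + 2 ^ k := by rw [pow_succ]; ring
    have hnum' : 2 ^ k ≤ 32 * zz k * ((2 ^ (k - 4) - 1) / zz k) := hnum
    omega)
  exact ⟨P', a1, a2, fun p hp => (a3 p hp).trans
    (Nat.pow_le_pow_right (by norm_num) (zz_mono (by omega))), a4⟩

lemma exists_prac_aux : ∃ T0 : ℕ, ∀ K : ℕ, 14 ≤ K → ∃ P : Finset ℕ, (∀ p ∈ P, p.Prime) ∧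
    2 ^ K ≤ P.card ∧ (∀ p ∈ P, p ≤ 2 ^ zz K) ∧ Prac (∏ p ∈ P, p) (T0 + 192 * (K * zz K)) := by
  refine ⟨(primorial (2 ^ 20)).divisors.card, ?_⟩
  intro K hK
  induction K, hK using Nat.le_induction with
  | base =>
    refine ⟨(Finset.range (2 ^ 20 + 1)).filter Nat.Prime, ?_, ?_, ?_, ?_⟩
    · intro p hp
      exact (Finset.mem_filter.1 hp).2
    · have h1 := primeCounting_lower 20 (by norm_num)
      have h2 : Nat.primeCounting (2 ^ 20)
          = ((Finset.range (2 ^ 20 + 1)).filter Nat.Prime).card := by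
        rw [Nat.primeCounting, Nat.primeCounting', Nat.count_eq_card_filter_range]
      rw [← h2]
      norm_num at h1 ⊢
      omega
    · intro p hp
      have h1 := Finset.mem_range.1 (Finset.mem_filter.1 hp).1
      have h2 : 2 ^ 20 ≤ 2 ^ zz 14 := Nat.pow_le_pow_right (by norm_num) (by unfold zz; omega)
      omega
    · exact (prac_primorial (2 ^ 20)).mono (by omega)
  | succ K hK ih =>
    obtain ⟨P, b1, b2, b3, b4⟩ := ih
    obtain ⟨P', a1, a2, a3, a4⟩ := phase K hK P b1 _ b2 b3 b4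
    refine ⟨P', a1, a2, a3, a4.mono ?_⟩
    have h1 : zz K ≤ zz (K + 1) := zz_mono (by omega)
    have h2 : (K + 1) * zz K ≤ (K + 1) * zz (K + 1) := Nat.mul_le_mul_left _ h1
    have h3 : (K + 1) * zz K = K * zz K + zz K := by ring
    omega

theorem exists_prac :
    ∃ T0 : ℕ, ∀ K : ℕ, ∃ N : ℕ, 2 ^ (2 ^ K) ≤ N ∧ Prac N (T0 + 192 * (K * zz K)) := by
  obtain ⟨T0, h⟩ := exists_prac_aux
  have hprod : ∀ P : Finset ℕ, (∀ p ∈ P, p.Prime) → 2 ^ P.card ≤ ∏ p ∈ P, p := by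
    intro P hP
    exact Finset.pow_card_le_prod P (fun p => p) 2 (fun p hp => (hP p hp).two_le)
  refine ⟨T0 + 192 * (14 * zz 14), ?_⟩
  intro K
  rcases le_total 14 K with hK | hK
  · obtain ⟨P, b1, b2, _, b4⟩ := h K hK
    exact ⟨_, (Nat.pow_le_pow_right (by norm_num) b2).trans (hprod P b1), b4.mono (by omega)⟩
  · obtain ⟨P, b1, b2, _, b4⟩ := h 14 le_rfl
    refine ⟨_, le_trans (Nat.pow_le_pow_right (by norm_num) (le_trans ?_ b2)) (hprod P b1),
      b4.mono (by omega)⟩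
    exact Nat.pow_le_pow_right (by norm_num) hK

end Vale.Agent.Lib.P012
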