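import Mathlib

/-! Module M6 of P012 v2: the numeric facts of one phase of the reservoir scheme. -/

namespace Vale.Agent.Lib.P012

def yy (G : ℕ) : ℕ := 7 * G + 64
def zz2 (G : ℕ) : ℕ := 2 * yy G
def jj (G e : ℕ) : ℕ := (G - e) * 2 ^ e / zz2 G

lemma aux_lin_le_pow (e : ℕ) (he : 9 ≤ e) : 28 * e + 128 ≤ 2 ^ e := by
  induction e, he using Nat.le_induction with
  | base => norm_num
  | succ m hm ih =>
    rw [pow_succ]
    omega

lemma zz2_le_pow (G : ℕ) : zz2 G ≤ 2 ^ (G + 8) := by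
  have h : G < 2 ^ G := Nat.lt_two_pow_self
  rw [pow_add]
  unfold zz2 yy
  norm_num
  omega

lemma zz2_le_x (G e : ℕ) (hG : 64 ≤ G) (he5 : 5 ≤ e) (heG : e < G) :
    zz2 G ≤ (G - e) * 2 ^ e := by
  have hz : zz2 G = 14 * G + 128 := by unfold zz2 yy; ring
  rw [hz]
  by_cases h : 2 * e ≤ G
  · have h32 : 2 ^ 5 ≤ 2 ^ e := Nat.pow_le_pow_right (by norm_num) he5
    have h1 : (G - e) * 2 ^ 5 ≤ (G - e) * 2 ^ e := Nat.mul_le_mul_left _ h32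
    have h2 : (G - e) * 2 ^ 5 = 32 * (G - e) := by norm_num [mul_comm]
    omega
  · have h9 : 9 ≤ e := by omega
    have h1 := aux_lin_le_pow e h9
    have h2 : 1 * 2 ^ e ≤ (G - e) * 2 ^ e := Nat.mul_le_mul_right _ (by omega)
    omega

theorem numeric2 (G e n : ℕ) (hG : 64 ≤ G) (he5 : 5 ≤ e) (heG : e < G) (hn : n ≤ 256 * 2 ^ G) :
    1 ≤ jj G e ∧ zz2 G * jj G e ≤ (G - e) * 2 ^ e ∧ (G - e) * 2 ^ e ≤ 2 * zz2 G * jj G e ∧
      jj G e ≤ 2 ^ e ∧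
      0 < 2 ^ zz2 G / (2 * zz2 G) ∧ 2 ^ zz2 G / (2 * zz2 G) ≤ 2 ^ zz2 G ∧
      zz2 G * ((2 ^ zz2 G / (2 * zz2 G) + jj G e) + (n + 12 * 2 ^ G + (2 ^ yy G + 1)) + 1)
        ≤ 2 ^ zz2 G ∧
      4 * 37 ^ 6 * jj G e * (2 ^ zz2 G) ^ 4 * (jj G e * (zz2 G * 2 ^ e + 1)) ^ 6
        ≤ (2 ^ zz2 G / (2 * zz2 G)) ^ 6 := by
  obtain ⟨z, hzdef'⟩ : ∃ z, z = zz2 G := ⟨_, rfl⟩
  obtain ⟨y, hydef'⟩ : ∃ y, y = yy G := ⟨_, rfl⟩
  obtain ⟨j, hjdef⟩ : ∃ j, j = jj G e := ⟨_, rfl⟩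
  obtain ⟨M, hMdef⟩ : ∃ M, M = 2 ^ z / (2 * z) := ⟨_, rfl⟩
  obtain ⟨x, hxdef⟩ : ∃ x, x = (G - e) * 2 ^ e := ⟨_, rfl⟩
  have hzx : z ≤ x := by rw [hzdef', hxdef]; exact zz2_le_x G e hG he5 heG
  have hzk : z ≤ 2 ^ (G + 8) := by rw [hzdef']; exact zz2_le_pow G
  have hjx : j = x / z := by rw [hjdef, hxdef, hzdef']; rfl
  have hzdef : z = 14 * G + 128 := by rw [hzdef']; unfold zz2 yy; ring
  have hydef : y = 7 * G + 64 := by rw [hydef']; rfl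
  rw [← hzdef', ← hydef', ← hjdef, ← hMdef, ← hxdef]
  clear hzdef' hydef' hjdef
  have hzpos : 0 < z := by omega
  have hzj1 : z * j ≤ x := by rw [hjx]; exact Nat.mul_div_le _ _
  have hzj2 : x < z * j + z := by
    have := Nat.lt_mul_div_succ x hzpos
    rw [Nat.mul_add, Nat.mul_one, ← hjx] at this
    exact this
  have hj1 : 1 ≤ j := by rw [hjx]; exact Nat.div_pos hzx hzpos
  have hzjz : z * 1 ≤ z * j := Nat.mul_le_mul_left _ hj1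
  have hje : j ≤ 2 ^ e := by
    rw [hjx]
    apply Nat.div_le_of_le_mul
    rw [hxdef]
    exact Nat.mul_le_mul_right _ (by omega)
  have heG2 : 2 * 2 ^ e ≤ 2 ^ G := by
    rw [← pow_succ']
    exact Nat.pow_le_pow_right (by norm_num) (by omega)
  have hjG : j ≤ 2 ^ G := by omega
  have hzM1 : 2 * z * M ≤ 2 ^ z := by rw [hMdef]; exact Nat.mul_div_le _ _
  have hzM2 : 2 ^ z < 2 * z * M + 2 * z := by
    have := Nat.lt_mul_div_succ (2 ^ z) (by omega : 0 < 2 * z)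
    rw [Nat.mul_add, Nat.mul_one, ← hMdef] at this
    exact this
  have hz2 : 2 * z ≤ 2 ^ z := by
    have h : z - 1 < 2 ^ (z - 1) := Nat.lt_two_pow_self
    have e1 : z = (z - 1) + 1 := by omega
    have : 2 ^ z = 2 * 2 ^ (z - 1) := by
      conv_lhs => rw [e1, pow_succ]
      ring
    omega
  have hM : 0 < M := by rw [hMdef]; exact Nat.div_pos hz2 (by omega)
  refine ⟨hj1, hzj1, ?_, hje, hM, by rw [hMdef]; exact Nat.div_le_self _ _, ?_, ?_⟩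
  · have e1 : 2 * z * j = z * j + z * j := by ring
    omega
  · -- the pool inequality
    have hGpos : 1 ≤ 2 ^ G := Nat.one_le_two_pow
    have hGy : 512 * 2 ^ G ≤ 2 ^ y := by
      have : (512 : ℕ) * 2 ^ G = 2 ^ (G + 9) := by rw [pow_add]; ring
      rw [this]
      exact Nat.pow_le_pow_right (by norm_num) (by omega)
    have h1 : z * (j + (n + 12 * 2 ^ G + (2 ^ y + 1)) + 1) ≤ 2 ^ (G + 8) * 2 ^ (y + 1) := by
      apply Nat.mul_le_mul hzk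
      have : 2 ^ (y + 1) = 2 * 2 ^ y := by rw [pow_succ]; ring
      omega
    have h2 : 2 ^ (G + 8) * 2 ^ (y + 1) * 2 ≤ 2 ^ z := by
      rw [← pow_add, ← pow_succ]
      exact Nat.pow_le_pow_right (by norm_num) (by omega)
    have h3 : z * ((M + j) + (n + 12 * 2 ^ G + (2 ^ y + 1)) + 1)
        = z * M + z * (j + (n + 12 * 2 ^ G + (2 ^ y + 1)) + 1) := by ring
    have h4 : 2 * z * M = 2 * (z * M) := by ring
    omega
  · -- the main inequality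
    have hM4 : 2 ^ z ≤ 4 * z * M := by
      have : 2 * z * 1 ≤ 2 * z * M := Nat.mul_le_mul_left _ hM
      have e1 : 4 * z * M = 2 * z * M + 2 * z * M := by ring
      omega
    have hze : z * 2 ^ e + 1 ≤ 2 ^ (G + 8) * 2 ^ G := by
      have h1 : z * (2 * 2 ^ e) ≤ 2 ^ (G + 8) * 2 ^ G := Nat.mul_le_mul hzk heG2
      have h2 : z * (2 * 2 ^ e) = z * 2 ^ e + z * 2 ^ e := by ring
      have h3 : 1 * 1 ≤ z * 2 ^ e := Nat.mul_le_mul hzpos Nat.one_le_two_pow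
      omega
    have hprod : j * (z * 2 ^ e + 1) ≤ 2 ^ (3 * G + 8) := by
      calc j * (z * 2 ^ e + 1) ≤ 2 ^ G * (2 ^ (G + 8) * 2 ^ G) := Nat.mul_le_mul hjG hze
        _ = 2 ^ (3 * G + 8) := by rw [← pow_add, ← pow_add]; congr 1; ring
    have h37 : 4 * 37 ^ 6 ≤ 2 ^ 34 := by norm_num
    have hL : 4 * 37 ^ 6 * j * (2 ^ z) ^ 4 * (j * (z * 2 ^ e + 1)) ^ 6
        ≤ 2 ^ 34 * 2 ^ G * (2 ^ z) ^ 4 * (2 ^ (3 * G + 8)) ^ 6 := by
      gcongr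
    have h4z : (4 * z) ^ 6 ≤ (2 ^ (G + 10)) ^ 6 := by
      apply Nat.pow_le_pow_left
      have : 2 ^ (G + 10) = 4 * 2 ^ (G + 8) := by rw [pow_add, pow_add]; ring
      omega
    have hfin : 2 ^ 34 * 2 ^ G * (2 ^ z) ^ 4 * (2 ^ (3 * G + 8)) ^ 6 * (2 ^ (G + 10)) ^ 6
        ≤ (2 ^ z) ^ 6 := by
      rw [← pow_mul, ← pow_mul, ← pow_mul, ← pow_mul, ← pow_add, ← pow_add, ← pow_add, ← pow_add]
      exact Nat.pow_le_pow_right (by norm_num) (by omega)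
    have hpos : 0 < (4 * z) ^ 6 := by positivity
    apply Nat.le_of_mul_le_mul_right _ hpos
    calc 4 * 37 ^ 6 * j * (2 ^ z) ^ 4 * (j * (z * 2 ^ e + 1)) ^ 6 * (4 * z) ^ 6
        ≤ 2 ^ 34 * 2 ^ G * (2 ^ z) ^ 4 * (2 ^ (3 * G + 8)) ^ 6 * (2 ^ (G + 10)) ^ 6 :=
          Nat.mul_le_mul hL h4z
      _ ≤ (2 ^ z) ^ 6 := hfin
      _ ≤ (4 * z * M) ^ 6 := Nat.pow_le_pow_left hM4 6
      _ = M ^ 6 * (4 * z) ^ 6 := by ring

end Vale.Agent.Lib.P012
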