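import Vale.Agent.Lib.P012.StageGen
import Vale.Agent.Lib.P012.Numeric2
import Vale.Agent.Lib.P012.PrimeCount

/-! Module M7 of P012 v2: iteration of the gap stages. -/

namespace Vale.Agent.Lib.P012

open Finset

/-- disjoint groups of equal size inside a big set -/
theorem groups_exist (g : ℕ) : ∀ (k : ℕ) (P : Finset ℕ), k * g ≤ P.card →
    ∃ G : Fin k → Finset ℕ, (∀ i, G i ⊆ P) ∧ (∀ i, (G i).card = g) ∧
      (∀ i i', i ≠ i' → Disjoint (G i) (G i')) := by
  intro k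
  induction k with
  | zero => intro P _; exact ⟨fun i => i.elim0, fun i => i.elim0, fun i => i.elim0, fun i => i.elim0⟩
  | succ k ih =>
    intro P hP
    have hg : g ≤ P.card := by
      have : (k + 1) * g = k * g + g := by ring
      omega
    obtain ⟨t, htP, htc⟩ := Finset.exists_subset_card_eq hg
    have hc : k * g ≤ (P \ t).card := by
      have h1 := Finset.card_sdiff_add_card_eq_card htP
      have : (k + 1) * g = k * g + g := by ring
      omega
    obtain ⟨G, hG1, hG2, hG3⟩ := ih (P \ t) hc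
    refine ⟨Fin.cons t G, ?_, ?_, ?_⟩
    · intro i
      refine Fin.cases ?_ (fun i => ?_) i
      · simpa using htP
      · simpa using (hG1 i).trans Finset.sdiff_subset
    · intro i
      refine Fin.cases ?_ (fun i => ?_) i
      · simpa using htc
      · simpa using hG2 i
    · intro i i'
      refine Fin.cases ?_ (fun i => ?_) i
      · refine Fin.cases ?_ (fun i' => ?_) i'
        · intro h; exact absurd rfl h
        · intro _
          simp only [Fin.cons_zero, Fin.cons_succ]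
          exact Finset.disjoint_of_subset_right (hG1 i') Finset.disjoint_sdiff
      · refine Fin.cases ?_ (fun i' => ?_) i'
        · intro _
          simp only [Fin.cons_zero, Fin.cons_succ]
          exact (Finset.disjoint_of_subset_right (hG1 i) Finset.disjoint_sdiff).symm
        · intro h
          simp only [Fin.cons_succ]
          exact hG3 i i' (fun e => h (by rw [e]))

/-- exponent of the power of two in the base case -/
def EE (G : ℕ) : ℕ := 128 * yy G + 3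

/-- the fixed data: free primes and their twelve groups -/
structure Setup (G : ℕ) (P0 : Finset ℕ) (Gr : Fin 12 → Finset ℕ) : Prop where
  prime : ∀ p ∈ P0, p.Prime
  le : ∀ p ∈ P0, p ≤ 2 ^ zz2 G
  big : ∀ p ∈ P0, 2 ^ yy G < p
  card : P0.card = 12 * 2 ^ G
  sub : ∀ l, Gr l ⊆ P0
  gcard : ∀ l, (Gr l).card = 2 ^ G
  disj : ∀ l l', l ≠ l' → Disjoint (Gr l) (Gr l')

theorem zz2_pos (G : ℕ) : 1 ≤ zz2 G := by unfold zz2 yy; omega

theorem exists_setup (G : ℕ) (hG : 64 ≤ G) : ∃ P0 Gr, Setup G P0 Gr := by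
  obtain ⟨_, _, _, _, _, _, hpool, _⟩ := numeric2 G 5 0 hG (le_refl 5) (by omega) (Nat.zero_le _)
  have h : zz2 G * (12 * 2 ^ G + (Finset.range (2 ^ yy G + 1)).card + 1) ≤ 2 ^ zz2 G := by
    rw [Finset.card_range]
    refine le_trans (Nat.mul_le_mul_left _ ?_) hpool
    omega
  obtain ⟨R, hRp, hRz, hRd, hRc⟩ := exists_pool (Finset.range (2 ^ yy G + 1)) (zz2 G) (12 * 2 ^ G)
    (zz2_pos G) h
  obtain ⟨P0, hP0R, hP0c⟩ := Finset.exists_subset_card_eq hRc
  obtain ⟨Gr, h1, h2, h3⟩ := groups_exist (2 ^ G) 12 P0 (by rw [hP0c])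
  refine ⟨P0, Gr, ⟨fun p hp => hRp p (hP0R hp), fun p hp => hRz p (hP0R hp), ?_, hP0c, h1, h2, h3⟩⟩
  intro p hp
  by_contra hcon
  have : p ∈ Finset.range (2 ^ yy G + 1) := Finset.mem_range.2 (by omega)
  exact (Finset.disjoint_left.1 hRd this) (hP0R hp)

/-- the state of the iteration: `P` is the set of new primes -/
structure St (G : ℕ) (P0 P : Finset ℕ) (T : ℕ) : Prop where
  prime : ∀ p ∈ P, p.Prime
  le : ∀ p ∈ P, p ≤ 2 ^ zz2 G
  big : ∀ p ∈ P, 2 ^ yy G < p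
  disj : Disjoint P0 P
  rep : RepTo (2 ^ EE G * (∏ p ∈ P0, p) * ∏ p ∈ P, p) (2 ^ EE G * ∏ p ∈ P, p) T

theorem pow_card_le_prod {P : Finset ℕ} {y : ℕ} (h : ∀ p ∈ P, 2 ^ y < p) :
    2 ^ (y * P.card) ≤ ∏ p ∈ P, p := by
  rw [pow_mul, ← Finset.prod_const]
  exact Finset.prod_le_prod' fun p hp => (h p hp).le

theorem prod_le_pow_card' {P : Finset ℕ} {z : ℕ} (h : ∀ p ∈ P, p ≤ 2 ^ z) :
    ∏ p ∈ P, p ≤ 2 ^ (z * P.card) := by
  rw [pow_mul, ← Finset.prod_const]
  exact Finset.prod_le_prod' h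

theorem stage_step (G e : ℕ) (hG : 64 ≤ G) (he5 : 5 ≤ e) (heG : e < G) (P0 : Finset ℕ)
    (Gr : Fin 12 → Finset ℕ) (hS : Setup G P0 Gr) (P : Finset ℕ) (T : ℕ) (hSt : St G P0 P T)
    (hU : P.card ≤ 256 * 2 ^ G) (hL : 4 * 2 ^ e ≤ 128 + P.card) :
    ∃ P', P'.card = P.card + jj G e ∧ St G P0 P' (T + 6) := by
  obtain ⟨hj1, hzj, _, _, hMp0, hMp2, hpool, hnum⟩ := numeric2 G e P.card hG he5 heG hU
  set z := zz2 G with hz
  set y := yy G with hy
  set j := jj G e with hj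
  set Mp := 2 ^ z / (2 * z) with hMp
  have hzy : z = 2 * y := rfl
  set Y := ∏ p ∈ P0, p with hY
  have hYpos : 0 < Y := Finset.prod_pos fun p hp => (hS.prime p hp).pos
  have hPpos : 0 < ∏ p ∈ P, p := Finset.prod_pos fun p hp => (hSt.prime p hp).pos
  have hNpos : 0 < 2 ^ EE G * Y * ∏ p ∈ P, p :=
    Nat.mul_pos (Nat.mul_pos (Nat.two_pow_pos _) hYpos) hPpos
  -- the pool
  have hcardex : (P ∪ P0 ∪ Finset.range (2 ^ y + 1)).card ≤ P.card + 12 * 2 ^ G + (2 ^ y + 1) := by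
    refine (Finset.card_union_le _ _).trans ?_
    rw [Finset.card_range]
    have := Finset.card_union_le P P0
    rw [hS.card] at this
    omega
  have hpool' : z * ((Mp + j) + (P ∪ P0 ∪ Finset.range (2 ^ y + 1)).card + 1) ≤ 2 ^ z := by
    refine le_trans (Nat.mul_le_mul_left _ ?_) hpool
    omega
  obtain ⟨R, hRp, hRz, hRd, hRc⟩ := exists_pool (P ∪ P0 ∪ Finset.range (2 ^ y + 1)) z (Mp + j)
    (zz2_pos G) hpool'
  have hRnot : ∀ q ∈ R, q ∉ P ∧ q ∉ P0 ∧ 2 ^ y < q := by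
    intro q hq
    have h1 : q ∉ P ∪ P0 ∪ Finset.range (2 ^ y + 1) := fun h => (Finset.disjoint_left.1 hRd h) hq
    simp only [Finset.mem_union, Finset.mem_range, not_or] at h1
    exact ⟨h1.1.1, h1.1.2, by omega⟩
  have hRN : ∀ q ∈ R, Nat.Coprime (2 ^ EE G * Y * ∏ p ∈ P, p) q := by
    intro q hq
    obtain ⟨h1, h2, h3⟩ := hRnot q hq
    have hqp := hRp q hq
    apply Nat.Coprime.mul_left
    · apply Nat.Coprime.mul_left
      · apply Nat.Coprime.pow_left
        rw [Nat.coprime_primes Nat.prime_two hqp]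
        have : 1 ≤ 2 ^ y := Nat.one_le_two_pow
        have h4 : 2 ≤ 2 ^ y := by
          calc 2 = 2 ^ 1 := by norm_num
            _ ≤ 2 ^ y := Nat.pow_le_pow_right (by norm_num) (by rw [hy]; unfold yy; omega)
        omega
      · apply Nat.Coprime.prod_left
        intro p hp
        rw [Nat.coprime_primes (hS.prime p hp) hqp]
        rintro rfl
        exact h2 hp
    · apply Nat.Coprime.prod_left
      intro p hp
      rw [Nat.coprime_primes (hSt.prime p hp) hqp]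
      rintro rfl
      exact h1 hp
  have hsize : 6 * 2 ^ (2 * (z * 2 ^ e)) ≤ 2 ^ EE G * ∏ p ∈ P, p := by
    have h1 := pow_card_le_prod hSt.big
    calc 6 * 2 ^ (2 * (z * 2 ^ e)) ≤ 2 ^ 3 * 2 ^ (2 * (z * 2 ^ e)) :=
          Nat.mul_le_mul_right _ (by norm_num)
      _ = 2 ^ (3 + 2 * (z * 2 ^ e)) := by rw [pow_add]
      _ ≤ 2 ^ (EE G + y * P.card) := by
          apply Nat.pow_le_pow_right (by norm_num)
          have h2 : y * (4 * 2 ^ e) ≤ y * (128 + P.card) := Nat.mul_le_mul_left _ hL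
          have h3 : 2 * (z * 2 ^ e) = y * (4 * 2 ^ e) := by rw [hzy]; ring
          have h4 : y * (128 + P.card) = 128 * y + y * P.card := by ring
          unfold EE
          omega
      _ = 2 ^ EE G * 2 ^ (y * P.card) := by rw [pow_add]
      _ ≤ 2 ^ EE G * ∏ p ∈ P, p := Nat.mul_le_mul_left _ h1
  have hcard : 2 ^ (z * j) ≤ (2 ^ G).choose (2 ^ e) := by
    have h1 := pow_le_choose_mul (2 ^ (G - e)) (2 ^ e)
    rw [← pow_add, ← pow_mul, Nat.sub_add_cancel heG.le] at h1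
    exact le_trans (Nat.pow_le_pow_right (by norm_num) hzj) h1
  obtain ⟨S, hSR, hSc, hrep⟩ := stage_gen (2 ^ EE G * Y * ∏ p ∈ P, p) (2 ^ EE G * ∏ p ∈ P, p) T
    hNpos hSt.rep P0 hS.prime (Dvd.dvd.mul_right (Dvd.intro_left _ rfl) _) Gr hS.sub hS.disj
    (2 ^ G) z (2 ^ e) j Mp hS.gcard hS.le Nat.one_le_two_pow hsize hcard hj1 hMp0 hMp2 R hRp hRz
    hRN hRc hnum
  have hPS : Disjoint P S := by
    rw [Finset.disjoint_left]
    intro q hq hq'
    exact (hRnot q (hSR hq')).1 hq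
  refine ⟨P ∪ S, ?_, ⟨?_, ?_, ?_, ?_, ?_⟩⟩
  · rw [Finset.card_union_of_disjoint hPS, hSc]
  · intro p hp
    rcases Finset.mem_union.1 hp with h | h
    · exact hSt.prime p h
    · exact hRp p (hSR h)
  · intro p hp
    rcases Finset.mem_union.1 hp with h | h
    · exact hSt.le p h
    · exact hRz p (hSR h)
  · intro p hp
    rcases Finset.mem_union.1 hp with h | h
    · exact hSt.big p h
    · exact (hRnot p (hSR h)).2.2
  · rw [Finset.disjoint_union_right]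
    refine ⟨hSt.disj, ?_⟩
    rw [Finset.disjoint_left]
    intro q hq hq'
    exact (hRnot q (hSR hq')).2.1 hq
  · rw [Finset.prod_union hPS, ← mul_assoc, ← mul_assoc]
    exact hrep

theorem stage_iter (G e : ℕ) (hG : 64 ≤ G) (he5 : 5 ≤ e) (heG : e < G) (P0 : Finset ℕ)
    (Gr : Fin 12 → Finset ℕ) (hS : Setup G P0 Gr) : ∀ (s : ℕ) (P : Finset ℕ) (T : ℕ),
    St G P0 P T → P.card + s * jj G e ≤ 256 * 2 ^ G → 4 * 2 ^ e ≤ 128 + P.card →
    ∃ P', P'.card = P.card + s * jj G e ∧ St G P0 P' (T + 6 * s) := by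
  intro s
  induction s with
  | zero => intro P T hSt _ _; exact ⟨P, by simp, by simpa using hSt⟩
  | succ s ih =>
    intro P T hSt hU hL
    have e1 : (s + 1) * jj G e = s * jj G e + jj G e := by ring
    obtain ⟨P1, hc1, hSt1⟩ := ih P T hSt (by omega) hL
    obtain ⟨P2, hc2, hSt2⟩ := stage_step G e hG he5 heG P0 Gr hS P1 _ hSt1 (by omega) (by omega)
    refine ⟨P2, by omega, ?_⟩
    have e2 : T + 6 * (s + 1) = T + 6 * s + 6 := by ring
    rw [e2]
    exact hSt2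

/-- number of stages of phase `e` -/
def ss (G e : ℕ) : ℕ := 8 * zz2 G / (G - e) + 1

theorem ss_jj_bounds (G e : ℕ) (hG : 64 ≤ G) (he5 : 5 ≤ e) (heG : e < G) :
    4 * 2 ^ e ≤ ss G e * jj G e ∧ ss G e * jj G e ≤ 9 * 2 ^ e := by
  obtain ⟨_, hzj, hzj2, hje, _, _, _, _⟩ := numeric2 G e 0 hG he5 heG (Nat.zero_le _)
  have hd : 0 < G - e := by omega
  have hz : 0 < zz2 G := zz2_pos G
  have h1 : 8 * zz2 G < (G - e) * ss G e := by
    unfold ss
    exact Nat.lt_mul_div_succ _ hd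
  have h2 : (G - e) * (8 * zz2 G / (G - e)) ≤ 8 * zz2 G := Nat.mul_div_le _ _
  constructor
  · -- 2 z (G-e) * (4 * 2^e) ≤ 2 z (G-e) * (s j)
    have h3 : (2 * zz2 G * (G - e)) * (4 * 2 ^ e) ≤ (2 * zz2 G * (G - e)) * (ss G e * jj G e) := by
      calc (2 * zz2 G * (G - e)) * (4 * 2 ^ e) = (8 * zz2 G) * ((G - e) * 2 ^ e) := by ring
        _ ≤ ((G - e) * ss G e) * (2 * zz2 G * jj G e) := Nat.mul_le_mul h1.le hzj2
        _ = (2 * zz2 G * (G - e)) * (ss G e * jj G e) := by ring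
    exact Nat.le_of_mul_le_mul_left h3 (Nat.mul_pos (Nat.mul_pos (by norm_num) hz) hd)
  · have h3 : (G - e) * ((8 * zz2 G / (G - e)) * jj G e) ≤ (G - e) * (8 * 2 ^ e) := by
      calc (G - e) * ((8 * zz2 G / (G - e)) * jj G e)
          = ((G - e) * (8 * zz2 G / (G - e))) * jj G e := by ring
        _ ≤ (8 * zz2 G) * jj G e := Nat.mul_le_mul_right _ h2
        _ = 8 * (zz2 G * jj G e) := by ring
        _ ≤ 8 * ((G - e) * 2 ^ e) := Nat.mul_le_mul_left _ hzj
        _ = (G - e) * (8 * 2 ^ e) := by ring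
    have h4 := Nat.le_of_mul_le_mul_left h3 hd
    unfold ss
    rw [Nat.add_mul, one_mul]
    omega

/-- cumulative number of stages after `n` phases -/
def LL (G n : ℕ) : ℕ := ∑ m ∈ Finset.range n, ss G (5 + m)

theorem phases (G : ℕ) (hG : 64 ≤ G) (P0 : Finset ℕ) (Gr : Fin 12 → Finset ℕ)
    (hS : Setup G P0 Gr) : ∀ n : ℕ, n ≤ G - 5 →
    ∃ P, St G P0 P (EE G + 1 + 6 * LL G n) ∧ 4 * 2 ^ (5 + n) ≤ 128 + P.card ∧
      P.card ≤ 9 * 2 ^ (5 + n) := by
  intro n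
  induction n with
  | zero =>
    intro _
    refine ⟨∅, ⟨by simp, by simp, by simp, by simp, ?_⟩, by norm_num, by simp⟩
    have hYpos : 0 < ∏ p ∈ P0, p := Finset.prod_pos fun p hp => (hS.prime p hp).pos
    simpa [LL] using repTo_two_pow (EE G) (∏ p ∈ P0, p) hYpos
  | succ n ih =>
    intro hn
    obtain ⟨P, hSt, hL, hU⟩ := ih (by omega)
    obtain ⟨hb1, hb2⟩ := ss_jj_bounds G (5 + n) hG (by omega) (by omega)
    have hpow : 2 ^ (5 + (n + 1)) = 2 * 2 ^ (5 + n) := by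
      rw [← add_assoc, pow_succ]; ring
    have hpowG : 2 ^ (5 + (n + 1)) ≤ 2 ^ G := Nat.pow_le_pow_right (by norm_num) (by omega)
    obtain ⟨P', hc, hSt'⟩ := stage_iter G (5 + n) hG (by omega) (by omega) P0 Gr hS (ss G (5 + n)) P _
      hSt (by omega) hL
    refine ⟨P', ?_, by omega, by omega⟩
    have e1 : EE G + 1 + 6 * LL G (n + 1) = EE G + 1 + 6 * LL G n + 6 * ss G (5 + n) := by
      unfold LL
      rw [Finset.sum_range_succ]
      ring
    rw [e1]
    exact hSt'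

theorem LL_eq (G : ℕ) : LL G (G - 5) = ∑ m ∈ Finset.range (G - 5), (8 * zz2 G / (m + 1) + 1) := by
  unfold LL ss
  rw [← Finset.sum_range_reflect]
  refine Finset.sum_congr rfl fun m hm => ?_
  have := Finset.mem_range.1 hm
  have e : G - (5 + (G - 5 - 1 - m)) = m + 1 := by omega
  rw [e]

def TT (G : ℕ) : ℕ :=
  (128 * yy G + 4) + 6 * (∑ m ∈ Finset.range (G - 5), (8 * zz2 G / (m + 1) + 1) + 200 * zz2 G)

theorem twelve_zz2_le (G : ℕ) (hG : 64 ≤ G) : 12 * zz2 G ≤ 2 ^ G := by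
  have h1 : G - 12 < 2 ^ (G - 12) := Nat.lt_two_pow_self
  have h2 : 2 ^ G = 4096 * 2 ^ (G - 12) := by
    have : G = 12 + (G - 12) := by omega
    conv_lhs => rw [this, pow_add]
    norm_num
  unfold zz2 yy
  omega

theorem exists_repTo (G : ℕ) (hG : 64 ≤ G) :
    ∃ N M Y : ℕ, 0 < N ∧ N = M * Y ∧ 1 ≤ Y ∧ Y ≤ 2 ^ 2 ^ (2 * G) ∧ 2 ^ 2 ^ G * Y ^ 2 ≤ M ∧
      RepTo N M (TT G) := by
  obtain ⟨P0, Gr, hS⟩ := exists_setup G hG
  obtain ⟨P, hSt, hL, hU⟩ := phases G hG P0 Gr hS (G - 5) (le_refl _)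
  have e5 : 5 + (G - 5) = G := by omega
  rw [e5] at hL hU
  obtain ⟨_, hzj, hzj2, _, _, _, _, _⟩ := numeric2 G (G - 1) 0 hG (by omega) (by omega)
    (Nat.zero_le _)
  have e1 : G - (G - 1) = 1 := by omega
  rw [e1, one_mul] at hzj hzj2
  have hpow : 2 ^ G = 2 * 2 ^ (G - 1) := by
    have : G = (G - 1) + 1 := by omega
    conv_lhs => rw [this, pow_succ]
    ring
  have hsj : 200 * zz2 G * jj G (G - 1) = 200 * (zz2 G * jj G (G - 1)) := by ring
  have hsj2 : 2 * zz2 G * jj G (G - 1) = 2 * (zz2 G * jj G (G - 1)) := by ring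
  obtain ⟨P', hc, hSt'⟩ := stage_iter G (G - 1) hG (by omega) (by omega) P0 Gr hS (200 * zz2 G) P _
    hSt (by omega) (by omega)
  have hcl : 50 * 2 ^ G ≤ P'.card := by omega
  set Y := ∏ p ∈ P0, p with hY
  have hYpos : 0 < Y := Finset.prod_pos fun p hp => (hS.prime p hp).pos
  have hPpos : 0 < ∏ p ∈ P', p := Finset.prod_pos fun p hp => (hSt'.prime p hp).pos
  have hYle : Y ≤ 2 ^ (zz2 G * (12 * 2 ^ G)) := by
    have := prod_le_pow_card' hS.le
    rwa [hS.card] at this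
  refine ⟨2 ^ EE G * Y * ∏ p ∈ P', p, 2 ^ EE G * ∏ p ∈ P', p, Y,
    Nat.mul_pos (Nat.mul_pos (Nat.two_pow_pos _) hYpos) hPpos, by ring, hYpos, ?_, ?_, ?_⟩
  · refine hYle.trans (Nat.pow_le_pow_right (by norm_num) ?_)
    calc zz2 G * (12 * 2 ^ G) = (12 * zz2 G) * 2 ^ G := by ring
      _ ≤ 2 ^ G * 2 ^ G := Nat.mul_le_mul_right _ (twelve_zz2_le G hG)
      _ = 2 ^ (2 * G) := by rw [← pow_add]; congr 1; omega
  · have h1 := pow_card_le_prod hSt'.big
    calc 2 ^ 2 ^ G * Y ^ 2 ≤ 2 ^ 2 ^ G * (2 ^ (zz2 G * (12 * 2 ^ G))) ^ 2 :=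
          Nat.mul_le_mul_left _ (Nat.pow_le_pow_left hYle 2)
      _ = 2 ^ (2 ^ G + zz2 G * (12 * 2 ^ G) * 2) := by rw [← pow_mul, ← pow_add]
      _ ≤ 2 ^ (yy G * P'.card) := by
          apply Nat.pow_le_pow_right (by norm_num)
          have h2 : yy G * (50 * 2 ^ G) ≤ yy G * P'.card := Nat.mul_le_mul_left _ hcl
          have h3 : zz2 G * (12 * 2 ^ G) * 2 = 48 * (yy G * 2 ^ G) := by unfold zz2; ring
          have h4 : yy G * (50 * 2 ^ G) = 50 * (yy G * 2 ^ G) := by ring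
          have h5 : 2 ^ G ≤ yy G * 2 ^ G := Nat.le_mul_of_pos_left _ (by unfold yy; omega)
          omega
      _ ≤ ∏ p ∈ P', p := h1
      _ ≤ 2 ^ EE G * ∏ p ∈ P', p := Nat.le_mul_of_pos_left _ (Nat.two_pow_pos _)
  · have e2 : TT G = EE G + 1 + 6 * LL G (G - 5) + 6 * (200 * zz2 G) := by
      unfold TT EE
      rw [LL_eq]
      ring
    rw [e2]
    exact hSt'.rep

end Vale.Agent.Lib.P012
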