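import Vale.Agent.Lib.P012.Iterate
import Vale.Agent.Lib.P012.Egyptian

/-! Module H of P012: the final statement. -/

namespace Vale.Agent.Lib.P012

/-- `K = clog 2 (clog 2 b)` is at most `4 log log b` for `b ≥ 16`, and `1 ≤ log log b`. -/
lemma clog_clog_le (b : ℕ) (hb : 16 ≤ b) :
    1 ≤ Real.log (Real.log b) ∧
      (Nat.clog 2 (Nat.clog 2 b) : ℝ) ≤ 4 * Real.log (Real.log b) := by
  set L := Nat.clog 2 b with hL
  set K := Nat.clog 2 L with hK
  have hl2a : (0.6931471803 : ℝ) < Real.log 2 := Real.log_two_gt_d9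
  have hl2pos : (0 : ℝ) < Real.log 2 := by linarith
  have hbR : (16 : ℝ) ≤ (b : ℝ) := by exact_mod_cast hb
  have hbpos : (0 : ℝ) < (b : ℝ) := by linarith
  -- y = log b ≥ 4 log 2
  have hy : 4 * Real.log 2 ≤ Real.log b := by
    have : Real.log 16 = 4 * Real.log 2 := by
      rw [show (16 : ℝ) = 2 ^ 4 by norm_num, Real.log_pow]; norm_num
    rw [← this]
    exact Real.log_le_log (by norm_num) hbR
  have hye : Real.exp 1 ≤ Real.log b := by
    have := Real.exp_one_lt_d9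
    linarith
  have hypos : 0 < Real.log b := by linarith
  have hx : 1 ≤ Real.log (Real.log b) := by
    rw [Real.le_log_iff_exp_le hypos]
    exact hye
  refine ⟨hx, ?_⟩
  -- L ≥ 4 > 1
  have hL4 : 4 ≤ L := by
    have h1 : Nat.clog 2 16 ≤ Nat.clog 2 b := Nat.clog_mono_right 2 hb
    have h2 : Nat.clog 2 16 = 4 := by
      rw [show 16 = 2 ^ 4 by norm_num, Nat.clog_pow 2 4 (by norm_num)]
    omega
  have h1 : 2 ^ (L - 1) < b := Nat.pow_pred_clog_lt_self (by norm_num) (by omega)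
  have h2 : 2 ^ (K - 1) < L := Nat.pow_pred_clog_lt_self (by norm_num) (by omega)
  have hK1 : 1 ≤ K := by
    have : 0 < Nat.clog 2 L := Nat.clog_pos (by norm_num) (by omega)
    omega
  -- real versions
  have h1R : ((L : ℝ) - 1) * Real.log 2 < Real.log b := by
    have : ((2 : ℝ) ^ (L - 1)) < (b : ℝ) := by exact_mod_cast h1
    have h3 := Real.log_lt_log (by positivity) this
    rw [Real.log_pow] at h3
    have : ((L - 1 : ℕ) : ℝ) = (L : ℝ) - 1 := by
      rw [Nat.cast_sub (by omega)]; simp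
    rwa [this] at h3
  have hLpos : (0 : ℝ) < (L : ℝ) := by
    have : 0 < L := by omega
    exact_mod_cast this
  have h2R : ((K : ℝ) - 1) * Real.log 2 < Real.log L := by
    have : ((2 : ℝ) ^ (K - 1)) < (L : ℝ) := by exact_mod_cast h2
    have h3 := Real.log_lt_log (by positivity) this
    rw [Real.log_pow] at h3
    have : ((K - 1 : ℕ) : ℝ) = (K : ℝ) - 1 := by
      rw [Nat.cast_sub hK1]; simp
    rwa [this] at h3
  -- L ≤ 2 y
  have hL2 : (L : ℝ) ≤ 2 * Real.log b := by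
    nlinarith
  have hlogL : Real.log L ≤ Real.log 2 + Real.log (Real.log b) := by
    rw [← Real.log_mul (by norm_num) hypos.ne']
    exact Real.log_le_log hLpos hL2
  -- conclusion
  nlinarith

theorem main : ∃ C : ℝ, ∀ a b : ℕ, 1 ≤ a → a < b → 16 ≤ b →
    ∃ S : Finset ℕ, (∀ n ∈ S, 2 ≤ n) ∧ ∑ n ∈ S, (1 : ℚ) / n = (a : ℚ) / b ∧
      (S.card : ℝ) ≤ C * (Real.log (Real.log b)) ^ 2 := by
  obtain ⟨T0, h⟩ := exists_prac
  refine ⟨2 * T0 + 384 * (13 * 16 + 128 * 4), ?_⟩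
  intro a b ha hab hb
  obtain ⟨hx, hKx⟩ := clog_clog_le b hb
  set K := Nat.clog 2 (Nat.clog 2 b) with hK
  set x := Real.log (Real.log b) with hxdef
  obtain ⟨N, hN, hprac⟩ := h K
  have hbN : b ≤ N := by
    calc b ≤ 2 ^ Nat.clog 2 b := Nat.le_pow_clog (by norm_num) b
      _ ≤ 2 ^ (2 ^ K) := Nat.pow_le_pow_right (by norm_num) (Nat.le_pow_clog (by norm_num) _)
      _ ≤ N := hN
  obtain ⟨S, hS2, hSc, hSs⟩ := egyptian_of_prac hprac ha hab hbN
  refine ⟨S, hS2, hSs, ?_⟩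
  have h1 : (S.card : ℝ) ≤ 2 * (T0 + 192 * (K * (13 * K + 128))) := by
    have : S.card ≤ 2 * (T0 + 192 * (K * (13 * K + 128))) := hSc
    exact_mod_cast this
  have hK0 : (0 : ℝ) ≤ (K : ℝ) := Nat.cast_nonneg K
  have hT0 : (0 : ℝ) ≤ (T0 : ℝ) := Nat.cast_nonneg T0
  have hxx : x ≤ x ^ 2 := by nlinarith
  have h1x : 1 ≤ x ^ 2 := by nlinarith
  have hKK : (K : ℝ) * K ≤ 16 * x ^ 2 := by nlinarith
  have hK4 : (K : ℝ) ≤ 4 * x ^ 2 := by linarith
  nlinarith

end Vale.Agent.Lib.P012
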