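import Vale.Agent.Lib.P012.Assemble2
import Vale.Agent.Lib.P012.Main

/-! Module M8b of P012 v2: the bound on `TT` and the final statement `main2`. -/

namespace Vale.Agent.Lib.P012

/-- the harmonic type sum in `TT` -/
lemma sum_div_le (z n : ℕ) :
    ((∑ m ∈ Finset.range n, (z / (m + 1) + 1) : ℕ) : ℝ) ≤ z * (1 + Real.log n) + n := by
  have h1 : ((∑ m ∈ Finset.range n, (z / (m + 1) + 1) : ℕ) : ℝ)
      ≤ ∑ m ∈ Finset.range n, ((z : ℝ) * ((m + 1 : ℕ) : ℝ)⁻¹ + 1) := by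
    push_cast
    apply Finset.sum_le_sum
    intro m _
    have := @Nat.cast_div_le ℝ _ _ _ z (m + 1)
    push_cast at this
    rw [div_eq_mul_inv] at this
    linarith
  have h2 : ∑ m ∈ Finset.range n, ((z : ℝ) * ((m + 1 : ℕ) : ℝ)⁻¹ + 1)
      = z * ((harmonic n : ℚ) : ℝ) + n := by
    rw [Finset.sum_add_distrib, ← Finset.mul_sum]
    simp [harmonic]
  have h3 : ((harmonic n : ℚ) : ℝ) ≤ 1 + Real.log n := harmonic_le_one_add_log n
  have hz : (0 : ℝ) ≤ z := Nat.cast_nonneg z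
  calc _ ≤ _ := h1
    _ = _ := h2
    _ ≤ _ := by nlinarith

theorem TT_le : ∃ C : ℝ, ∀ G : ℕ, 64 ≤ G →
    ((2 * G + 1 + 2 * TT G : ℕ) : ℝ) ≤ C * G * Real.log G := by
  refine ⟨50000, ?_⟩
  intro G hG
  have hGR : (64 : ℝ) ≤ (G : ℝ) := by exact_mod_cast hG
  have hlog1 : 1 ≤ Real.log G := by
    rw [Real.le_log_iff_exp_le (by linarith)]
    have := Real.exp_one_lt_d9
    linarith
  have hs := sum_div_le (8 * zz2 G) (G - 5)
  have hlog2 : Real.log ((G - 5 : ℕ) : ℝ) ≤ Real.log G := by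
    apply Real.log_le_log
    · have : 0 < G - 5 := by omega
      exact_mod_cast this
    · have : G - 5 ≤ G := by omega
      exact_mod_cast this
  have hG5 : ((G - 5 : ℕ) : ℝ) ≤ G := by
    have : G - 5 ≤ G := by omega
    exact_mod_cast this
  have hz : ((zz2 G : ℕ) : ℝ) = 14 * G + 128 := by
    unfold zz2 yy; push_cast; ring
  have hy : ((yy G : ℕ) : ℝ) = 7 * G + 64 := by
    unfold yy; push_cast; ring
  set Sg := ∑ m ∈ Finset.range (G - 5), (8 * zz2 G / (m + 1) + 1) with hSg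
  have hTT : ((TT G : ℕ) : ℝ) = (128 * (7 * G + 64) + 4) + 6 * ((Sg : ℝ) + 200 * (14 * G + 128)) := by
    unfold TT
    rw [← hSg]
    push_cast
    rw [hz, hy]
  have hs2 : (Sg : ℝ) ≤ 8 * (14 * G + 128) * (1 + Real.log G) + G := by
    have h8 : ((8 * zz2 G : ℕ) : ℝ) = 8 * (14 * G + 128) := by
      push_cast; rw [hz]
    rw [h8] at hs
    have hpos : (0 : ℝ) ≤ 8 * (14 * (G : ℝ) + 128) := by positivity
    calc (Sg : ℝ) ≤ 8 * (14 * G + 128) * (1 + Real.log ((G - 5 : ℕ) : ℝ)) + ((G - 5 : ℕ) : ℝ) := hs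
      _ ≤ _ := by
        have := mul_le_mul_of_nonneg_left hlog2 hpos
        nlinarith
  push_cast
  rw [hTT]
  have hGl : (G : ℝ) ≤ G * Real.log G := by nlinarith
  have h64 : (64 : ℝ) ≤ G * Real.log G := by linarith
  nlinarith

theorem main2 : ∃ C : ℝ, ∀ a b : ℕ, 1 ≤ a → a < b → 2 ^ 32 ≤ b →
    ∃ S : Finset ℕ, (∀ n ∈ S, 2 ≤ n) ∧ ∑ n ∈ S, (1 : ℚ) / n = (a : ℚ) / b ∧
      (S.card : ℝ) ≤ C * Real.log (Real.log b) * Real.log (Real.log (Real.log b)) := by
  obtain ⟨C, hC⟩ := TT_le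
  refine ⟨|C| * 64 * 6, ?_⟩
  intro a b ha hab hb
  have hb16 : 16 ≤ b := le_trans (by norm_num) hb
  obtain ⟨hx, hKx⟩ := clog_clog_le b hb16
  set K := Nat.clog 2 (Nat.clog 2 b) with hK
  set x := Real.log (Real.log b) with hxdef
  set G := max 64 K with hGdef
  have hG64 : 64 ≤ G := le_max_left _ _
  have hKG : K ≤ G := le_max_right _ _
  have hbG : b ≤ 2 ^ 2 ^ G := by
    calc b ≤ 2 ^ Nat.clog 2 b := Nat.le_pow_clog (by norm_num) b
      _ ≤ 2 ^ (2 ^ K) := Nat.pow_le_pow_right (by norm_num) (Nat.le_pow_clog (by norm_num) _)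
      _ ≤ 2 ^ 2 ^ G := Nat.pow_le_pow_right (by norm_num) (Nat.pow_le_pow_right (by norm_num) hKG)
  obtain ⟨S, hS2, hSs, hSc⟩ := egyptian_G G hG64 a b ha hab hbG
  refine ⟨S, hS2, hSs, ?_⟩
  have h1 : (S.card : ℝ) ≤ ((2 * G + 1 + 2 * TT G : ℕ) : ℝ) := by exact_mod_cast hSc
  have h2 := hC G hG64
  -- numerics
  have hl2a : (0.6931471803 : ℝ) < Real.log 2 := Real.log_two_gt_d9
  have hl2b : Real.log 2 < (0.6931471808 : ℝ) := Real.log_two_lt_d9
  have hbR : ((2 : ℝ) ^ 32) ≤ (b : ℝ) := by exact_mod_cast hb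
  have hy : 32 * Real.log 2 ≤ Real.log b := by
    have : Real.log ((2 : ℝ) ^ 32) = 32 * Real.log 2 := by
      rw [Real.log_pow]; norm_num
    rw [← this]
    exact Real.log_le_log (by positivity) hbR
  have he1 : Real.exp 1 < 2.7182818286 := Real.exp_one_lt_d9
  have he3 : Real.exp 3 ≤ Real.log b := by
    have : Real.exp 3 = Real.exp 1 ^ 3 := by
      rw [← Real.exp_nat_mul]; norm_num
    rw [this]
    have h0 : 0 < Real.exp 1 := Real.exp_pos 1
    have : Real.exp 1 ^ 3 ≤ 2.7182818286 ^ 3 := by gcongr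
    have h3 : (2.7182818286 : ℝ) ^ 3 ≤ 22 := by norm_num
    linarith
  have hypos : 0 < Real.log b := lt_of_lt_of_le (Real.exp_pos 3) he3
  have hx3 : 3 ≤ x := by
    rw [hxdef, Real.le_log_iff_exp_le hypos]
    exact he3
  have hlx : 1 ≤ Real.log x := by
    rw [Real.le_log_iff_exp_le (by linarith)]
    linarith
  have hGx : (G : ℝ) ≤ 64 * x := by
    rw [hGdef]
    push_cast
    apply max_le
    · linarith
    · linarith
  have hGpos : (0 : ℝ) < G := by
    have : 0 < G := by omega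
    exact_mod_cast this
  have hlogG : Real.log G ≤ 6 * Real.log x := by
    have h3 : Real.log G ≤ Real.log (64 * x) := Real.log_le_log hGpos hGx
    rw [Real.log_mul (by norm_num) (by linarith)] at h3
    have h4 : Real.log 64 = 6 * Real.log 2 := by
      rw [show (64 : ℝ) = 2 ^ 6 by norm_num, Real.log_pow]; norm_num
    rw [h4] at h3
    linarith
  have hlogG0 : 0 ≤ Real.log G := Real.log_nonneg (by
    have : (64 : ℝ) ≤ G := by exact_mod_cast hG64
    linarith)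
  calc (S.card : ℝ) ≤ C * G * Real.log G := le_trans h1 h2
    _ ≤ |C| * G * Real.log G := by
        have := le_abs_self C
        gcongr
    _ ≤ |C| * (64 * x) * (6 * Real.log x) := by
        have := abs_nonneg C
        gcongr
    _ = |C| * 64 * 6 * x * Real.log x := by ring

end Vale.Agent.Lib.P012
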