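import Vale.Agent.Lib.P012.Defs

/-! Module G1 of P012: the numeric facts of one phase. -/

namespace Vale.Agent.Lib.P012

/-- the size parameter used in phase `k` -/
def zz (k : ℕ) : ℕ := 13 * k + 128

lemma two_zz_le (k : ℕ) (hk : 14 ≤ k) : 2 * zz k ≤ 2 ^ (k - 4) := by
  induction k, hk using Nat.le_induction with
  | base => norm_num [zz]
  | succ m hm ih =>
    have e : m + 1 - 4 = (m - 4) + 1 := by omega
    rw [e, pow_succ]
    unfold zz at *
    omega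

lemma zz_le_pow (k : ℕ) : zz k ≤ 2 ^ (k + 8) := by
  have h : k < 2 ^ k := Nat.lt_two_pow_self
  rw [pow_add]
  unfold zz
  norm_num
  omega

/-- numeric facts for phase `k ≥ 14`: with `n = P.card ∈ [2^k, 2^(k+1))`, `g = 2^(k-4)`, `z = zz k`,
`j = (g-1)/z`, `M = 2^z/(2z)` all hypotheses of `stage_full` hold and `2^k ≤ 32 * z * j`. -/
theorem numeric_phase (k n : ℕ) (hk : 14 ≤ k) (hn1 : 2 ^ k ≤ n) (hn2 : n < 2 ^ (k + 1)) :
    let g := 2 ^ (k - 4); let z := zz k; let j := (g - 1) / z; let M := 2 ^ z / (2 * z)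
    12 * g ≤ n ∧ 1 ≤ j ∧ z * j + 1 ≤ g ∧ 0 < M ∧ M ≤ 2 ^ z ∧ z * (M + j + n + 1) ≤ 2 ^ z ∧
      4 * 37 ^ 6 * j * (2 ^ z) ^ 4 * (j * (z * n + 1)) ^ 6 ≤ M ^ 6 ∧ 2 ^ k ≤ 32 * z * j := by
  intro g z j M
  have hzdef : z = 13 * k + 128 := rfl
  have hzpos : 0 < z := by omega
  have hg16 : 16 * g = 2 ^ k := by
    have e : k = (k - 4) + 4 := by omega
    show 16 * 2 ^ (k - 4) = 2 ^ k
    conv_rhs => rw [e, pow_add]
    ring
  have h2z : 2 * z ≤ g := two_zz_le k hk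
  have hgpos : 0 < g := by omega
  have hzj1 : z * j ≤ g - 1 := Nat.mul_div_le _ _
  have hzj2 : g - 1 < z * j + z := by
    have := Nat.lt_mul_div_succ (g - 1) hzpos
    rw [Nat.mul_add, Nat.mul_one] at this
    exact this
  have hj1 : 1 ≤ j := by
    rw [Nat.one_le_iff_ne_zero]
    intro h0
    rw [h0] at hzj2
    omega
  have hjg : j ≤ g := by
    have : j * 1 ≤ z * j := by rw [mul_comm z j]; exact Nat.mul_le_mul_left _ hzpos
    omega
  have hzM1 : 2 * z * M ≤ 2 ^ z := Nat.mul_div_le _ _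
  have hzM2 : 2 ^ z < 2 * z * M + 2 * z := by
    have := Nat.lt_mul_div_succ (2 ^ z) (by omega : 0 < 2 * z)
    rw [Nat.mul_add, Nat.mul_one] at this
    exact this
  have hz2 : 2 * z ≤ 2 ^ z := by
    have h : z - 1 < 2 ^ (z - 1) := Nat.lt_two_pow_self
    have e : z = (z - 1) + 1 := by omega
    have : 2 ^ z = 2 * 2 ^ (z - 1) := by
      conv_lhs => rw [e, pow_succ]
      ring
    omega
  have hM : 0 < M := Nat.div_pos hz2 (by omega)
  have hzk : z ≤ 2 ^ (k + 8) := zz_le_pow k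
  refine ⟨by omega, hj1, by omega, hM, Nat.div_le_self _ _, ?_, ?_, ?_⟩
  · -- z * (M + j + n + 1) ≤ 2 ^ z
    have h1 : z * (j + n + 1) ≤ 2 ^ (k + 8) * 2 ^ (k + 2) := by
      apply Nat.mul_le_mul hzk
      have : 2 ^ (k + 2) = 4 * 2 ^ k := by rw [pow_add]; ring
      have h3 : 2 ^ (k + 1) = 2 * 2 ^ k := by rw [pow_succ]; ring
      omega
    have h2 : 2 ^ (k + 8) * 2 ^ (k + 2) * 2 ≤ 2 ^ z := by
      rw [← pow_add, ← pow_succ]
      exact Nat.pow_le_pow_right (by norm_num) (by omega)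
    have h3 : z * (M + j + n + 1) = z * M + z * (j + n + 1) := by ring
    have h4 : 2 * z * M = 2 * (z * M) := by ring
    omega
  · -- the main inequality
    have hM4 : 2 ^ z ≤ 4 * z * M := by
      have : 2 * z * 1 ≤ 2 * z * M := Nat.mul_le_mul_left _ hM
      have e : 4 * z * M = 2 * z * M + 2 * z * M := by ring
      omega
    have hjk : j ≤ 2 ^ (k - 4) := hjg
    have hprod : j * (z * n + 1) ≤ 2 ^ (2 * k - 2) := by
      have e1 : j * (z * n + 1) = (z * j) * n + j := by ring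
      have h1 : (z * j) * n ≤ (g - 1) * 2 ^ (k + 1) :=
        Nat.mul_le_mul hzj1 hn2.le
      have h2 : j ≤ 2 ^ (k + 1) := by
        have h3 : 2 ^ (k + 1) = 2 * 2 ^ k := by rw [pow_succ]; ring
        omega
      have h3 : (g - 1) * 2 ^ (k + 1) + 2 ^ (k + 1) = g * 2 ^ (k + 1) := by
        have : g = (g - 1) + 1 := by omega
        conv_rhs => rw [this]
        ring
      have h4 : g * 2 ^ (k + 1) ≤ 2 ^ (2 * k - 2) := by
        show 2 ^ (k - 4) * 2 ^ (k + 1) ≤ _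
        rw [← pow_add]
        exact Nat.pow_le_pow_right (by norm_num) (by omega)
      omega
    have h37 : 4 * 37 ^ 6 ≤ 2 ^ 34 := by norm_num
    have hL : 4 * 37 ^ 6 * j * (2 ^ z) ^ 4 * (j * (z * n + 1)) ^ 6
        ≤ 2 ^ 34 * 2 ^ (k - 4) * (2 ^ z) ^ 4 * (2 ^ (2 * k - 2)) ^ 6 := by
      gcongr
    have h4z : (4 * z) ^ 6 ≤ (2 ^ (k + 10)) ^ 6 := by
      apply Nat.pow_le_pow_left
      have : 2 ^ (k + 10) = 4 * 2 ^ (k + 8) := by rw [pow_add, pow_add]; ring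
      omega
    have hfin : 2 ^ 34 * 2 ^ (k - 4) * (2 ^ z) ^ 4 * (2 ^ (2 * k - 2)) ^ 6 * (2 ^ (k + 10)) ^ 6
        ≤ (2 ^ z) ^ 6 := by
      rw [← pow_mul, ← pow_mul, ← pow_mul, ← pow_mul, ← pow_add, ← pow_add, ← pow_add, ← pow_add]
      exact Nat.pow_le_pow_right (by norm_num) (by omega)
    have hpos : 0 < (4 * z) ^ 6 := by positivity
    apply Nat.le_of_mul_le_mul_right _ hpos
    calc 4 * 37 ^ 6 * j * (2 ^ z) ^ 4 * (j * (z * n + 1)) ^ 6 * (4 * z) ^ 6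
        ≤ 2 ^ 34 * 2 ^ (k - 4) * (2 ^ z) ^ 4 * (2 ^ (2 * k - 2)) ^ 6 * (2 ^ (k + 10)) ^ 6 :=
          Nat.mul_le_mul hL h4z
      _ ≤ (2 ^ z) ^ 6 := hfin
      _ ≤ (4 * z * M) ^ 6 := Nat.pow_le_pow_left hM4 6
      _ = M ^ 6 * (4 * z) ^ 6 := by ring
  · -- 2 ^ k ≤ 32 * z * j
    have e : 32 * z * j = 32 * (z * j) := by ring
    omega

end Vale.Agent.Lib.P012
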