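import Vale.Agent.Lib.P012.Defs3

/-! P012 v3: the numerical inequalities for the parameters
`h = LY = 2^G`, `z = 3G+20`, `W = z h + 1`, `u' = 11 G`, `lmin = 4096 G^2`. -/

namespace Vale.Agent.Lib.P012

theorem sq_le_two_pow (G : ℕ) (hG : 64 ≤ G) : 4096 * G ^ 2 ≤ 2 ^ G := by
  induction G, hG using Nat.le_induction with
  | base => norm_num
  | succ n hn ih => rw [pow_succ 2 n]; nlinarith

theorem LL_le (G : ℕ) (hG : 64 ≤ G) : LL (6 * (11 * G)) ≤ 4 * G + 6 := by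
  have h1 : 6 * (11 * G) < 2 ^ (G + 1) := by
    have := sq_le_two_pow G hG
    rw [pow_succ]; nlinarith
  have h2 : Nat.log 2 (6 * (11 * G)) < G + 1 := Nat.log_lt_of_lt_pow (by omega) h1
  unfold LL; omega

theorem numeric3_sieve (G l : ℕ) (hG : 64 ≤ G) (h1 : 4096 * G ^ 2 ≤ l) :
    4 ^ (LL (6 * (11 * G)) + 1) * 2 ^ (12 * (6 * (11 * G)) * LL (6 * (11 * G)))
      ≤ 2 ^ (l - l / 16) := by
  have hL := LL_le G hG
  set c := LL (6 * (11 * G)) with hc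
  have h4 : (4:ℕ) ^ (c + 1) = 2 ^ (2 * (c + 1)) := by rw [pow_mul]; norm_num
  rw [h4, ← pow_add]
  apply Nat.pow_le_pow_right (by norm_num)
  have h5 : 12 * (6 * (11 * G)) * c ≤ 12 * (6 * (11 * G)) * (4 * G + 6) :=
    Nat.mul_le_mul_left _ hL
  have h6 : 3840 * G ^ 2 ≤ l - l / 16 := by omega
  nlinarith

theorem one_add_pow_le3 (y : ℝ) (hy : 0 ≤ y) : ∀ j : ℕ, 2 * (j : ℝ) * y ≤ 1 →
    (1 + y) ^ j ≤ 1 + 2 * (j : ℝ) * y := by
  intro j
  induction j with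
  | zero => intro _; simp
  | succ j ih =>
    intro h
    push_cast at h
    have h' : 2 * (j : ℝ) * y ≤ 1 := by nlinarith
    have := ih h'
    rw [pow_succ]
    push_cast
    have hj : (0 : ℝ) ≤ j := Nat.cast_nonneg j
    nlinarith [mul_nonneg hj hy, mul_nonneg (mul_nonneg hj hy) hy]

theorem numeric3_main (G l : ℕ) (hG : 64 ≤ G) (h1 : 4096 * G ^ 2 ≤ l) :
    12 * (((2 ^ (l - l / 16) : ℕ) : ℝ) *
            ((1 + 1 / 2 ^ (11 * G)) ^ (((3 * G + 20) * 2 ^ G + 1) / (6 * (11 * G))) - 1)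
          + 3 * 2 ^ (5 * l / 6) *
            ((((3 * G + 20) * 2 ^ G + 1) / (6 * (11 * G)) + 1 : ℕ) : ℝ) ^
              ((l + 1) / (6 * (11 * G))))
      < ((2 ^ (l - l / 16) : ℕ) : ℝ) / 4 ^ (LL (6 * (11 * G)) + 1) := by
  set w := ((3 * G + 20) * 2 ^ G + 1) / (6 * (11 * G)) with hw
  set K := (l + 1) / (6 * (11 * G)) with hK
  set c := LL (6 * (11 * G)) with hc
  have hL : c ≤ 4 * G + 6 := LL_le G hG
  have hw1 : w ≤ 2 ^ G := by
    rw [hw]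
    apply Nat.div_le_of_le_mul
    have : 1 ≤ 2 ^ G := Nat.one_le_two_pow
    nlinarith
  have hw2 : w + 1 ≤ 2 ^ (G + 1) := by
    have : 1 ≤ 2 ^ G := Nat.one_le_two_pow
    rw [pow_succ]; omega
  have hK1 : K * (6 * (11 * G)) ≤ l + 1 := Nat.div_mul_le_self _ _
  have hK2 : 33 * ((G + 1) * K) ≤ l + 1 := by nlinarith
  have hlG : 262144 * G ≤ l := by nlinarith
  set e := l - l / 16 with he
  -- the sieve density
  have hD : (4 : ℝ) ^ (c + 1) ≤ 2 ^ (8 * G + 14) := by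
    have h4 : (4 : ℝ) ^ (c + 1) = 2 ^ (2 * (c + 1)) := by rw [pow_mul]; norm_num
    rw [h4]
    exact pow_le_pow_right₀ (by norm_num) (by omega)
  have hs : ((2 ^ e : ℕ) : ℝ) = 2 ^ e := by push_cast; rfl
  rw [hs]
  have hspos : (0 : ℝ) < 2 ^ e := by positivity
  have hR : (2 : ℝ) ^ e / 2 ^ (8 * G + 14) ≤ 2 ^ e / 4 ^ (c + 1) :=
    div_le_div_of_nonneg_left hspos.le (by positivity) hD
  refine lt_of_lt_of_le ?_ hR
  -- first term
  have hy : (0 : ℝ) ≤ 1 / 2 ^ (11 * G) := by positivity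
  have hwR : (w : ℝ) ≤ 2 ^ G := by exact_mod_cast hw1
  have h11 : (2 : ℝ) ^ (11 * G) = 2 ^ G * 2 ^ (10 * G) := by rw [← pow_add]; congr 1; ring
  have hG0 : (0 : ℝ) < 2 ^ G := by positivity
  have hG1 : (0 : ℝ) < 2 ^ (10 * G) := by positivity
  have hwy : 2 * (w : ℝ) * (1 / 2 ^ (11 * G)) ≤ 2 / 2 ^ (10 * G) := by
    rw [h11]
    calc 2 * (w : ℝ) * (1 / (2 ^ G * 2 ^ (10 * G))) = ((w : ℝ) / 2 ^ G) * (2 / 2 ^ (10 * G)) := by
          field_simp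
      _ ≤ 1 * (2 / 2 ^ (10 * G)) := by
          apply mul_le_mul_of_nonneg_right ((div_le_one hG0).2 hwR) (by positivity)
      _ = 2 / 2 ^ (10 * G) := one_mul _
  have h48 : (48 : ℝ) * 2 ^ (8 * G + 14) ≤ 2 ^ (10 * G) := by
    calc (48 : ℝ) * 2 ^ (8 * G + 14) ≤ 2 ^ 6 * 2 ^ (8 * G + 14) := by
          apply mul_le_mul_of_nonneg_right (by norm_num) (by positivity)
      _ = 2 ^ (6 + (8 * G + 14)) := by rw [← pow_add]
      _ ≤ 2 ^ (10 * G) := pow_le_pow_right₀ (by norm_num) (by omega)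
  have hP : (0 : ℝ) < 2 ^ (8 * G + 14) := by positivity
  have h2le : 2 / (2 : ℝ) ^ (10 * G) ≤ 1 := by
    rw [div_le_one hG1]
    have h1P : (1 : ℝ) ≤ 2 ^ (8 * G + 14) := one_le_pow₀ (by norm_num)
    linarith
  have hX : (1 + 1 / (2 : ℝ) ^ (11 * G)) ^ w - 1 ≤ 2 / 2 ^ (10 * G) := by
    have := one_add_pow_le3 _ hy w (hwy.trans h2le)
    linarith
  have hY : (((w + 1 : ℕ) : ℝ)) ^ K ≤ 2 ^ ((G + 1) * K) := by
    rw [pow_mul]
    apply pow_le_pow_left₀ (by positivity)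
    exact_mod_cast hw2
  rw [lt_div_iff₀ hP]
  have hT1 : 12 * ((2 : ℝ) ^ e * ((1 + 1 / (2 : ℝ) ^ (11 * G)) ^ w - 1)) * 2 ^ (8 * G + 14)
      ≤ 2 ^ e / 2 := by
    have h3 : (2 : ℝ) ^ e * ((1 + 1 / (2 : ℝ) ^ (11 * G)) ^ w - 1) ≤ 2 ^ e * (2 / 2 ^ (10 * G)) :=
      mul_le_mul_of_nonneg_left hX hspos.le
    calc 12 * ((2 : ℝ) ^ e * ((1 + 1 / (2 : ℝ) ^ (11 * G)) ^ w - 1)) * 2 ^ (8 * G + 14)
        ≤ 12 * ((2 : ℝ) ^ e * (2 / 2 ^ (10 * G))) * 2 ^ (8 * G + 14) := by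
          apply mul_le_mul_of_nonneg_right _ hP.le
          linarith
      _ = (2 ^ e / 2) * ((48 * 2 ^ (8 * G + 14)) / 2 ^ (10 * G)) := by field_simp; ring
      _ ≤ (2 ^ e / 2) * 1 := by
          apply mul_le_mul_of_nonneg_left ((div_le_one hG1).2 h48) (by positivity)
      _ = 2 ^ e / 2 := mul_one _
  have hT2 : 12 * (3 * (2 : ℝ) ^ (5 * l / 6) * (((w + 1 : ℕ) : ℝ)) ^ K) * 2 ^ (8 * G + 14)
      < 2 ^ e / 2 := by
    have hpos : (0 : ℝ) < 2 ^ (5 * l / 6) * 2 ^ ((G + 1) * K) * 2 ^ (8 * G + 14) := by positivity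
    calc 12 * (3 * (2 : ℝ) ^ (5 * l / 6) * (((w + 1 : ℕ) : ℝ)) ^ K) * 2 ^ (8 * G + 14)
        ≤ 12 * (3 * (2 : ℝ) ^ (5 * l / 6) * 2 ^ ((G + 1) * K)) * 2 ^ (8 * G + 14) := by
          apply mul_le_mul_of_nonneg_right _ hP.le
          apply mul_le_mul_of_nonneg_left _ (by norm_num)
          apply mul_le_mul_of_nonneg_left hY (by positivity)
      _ = 36 * (2 ^ (5 * l / 6) * 2 ^ ((G + 1) * K) * 2 ^ (8 * G + 14)) := by ring
      _ < 2 ^ 6 * (2 ^ (5 * l / 6) * 2 ^ ((G + 1) * K) * 2 ^ (8 * G + 14)) := by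
          apply mul_lt_mul_of_pos_right (by norm_num) hpos
      _ = 2 ^ (6 + 5 * l / 6 + (G + 1) * K + (8 * G + 14) + 1) / 2 := by
          rw [pow_succ, pow_add, pow_add, pow_add]; ring
      _ ≤ 2 ^ e / 2 := by
          apply div_le_div_of_nonneg_right _ (by norm_num)
          apply pow_le_pow_right₀ (by norm_num)
          omega
  nlinarith [hT1, hT2]

end Vale.Agent.Lib.P012
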