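import Vale.Agent.Lib.P012.Stage

/-! Module M1 of P012 v2: representations up to a bound `M` (a gap `N / M` is allowed). -/

namespace Vale.Agent.Lib.P012

open Finset

/-- every `m ≤ M` is a sum of at most `T` distinct divisors of `N` -/
def RepTo (N M T : ℕ) : Prop := ∀ m ≤ M, Rep N T m

theorem repTo_mul {N M T Q s : ℕ} (hN : RepTo N M T) (hNpos : 0 < N) (hQ : Nat.Coprime N Q)
    (hQ2 : 2 ≤ Q)
    (hcov : ∀ m : ℕ, ∃ D : Finset ℕ, D ⊆ N.divisors ∧ D.card ≤ s ∧ ∑ d ∈ D, d ≤ M ∧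
      (∑ d ∈ D, d) ≡ m [MOD Q]) :
    RepTo (N * Q) (M * Q) (T + s) := by
  have hQpos : 0 < Q := by omega
  intro m hm
  by_cases hmN : m ≤ M
  · obtain ⟨S, hS, hc, hsum⟩ := hN m hmN
    refine ⟨S, ?_, by omega, hsum⟩
    intro d hd
    rw [Nat.mem_divisors]
    exact ⟨(Nat.dvd_of_mem_divisors (hS hd)).trans (Dvd.intro _ rfl),
      (Nat.mul_pos hNpos hQpos).ne'⟩
  · obtain ⟨D, hD, hDc, hDs, hmod⟩ := hcov m
    have hle : ∑ d ∈ D, d ≤ m := by omega
    have hdvd : Q ∣ m - ∑ d ∈ D, d := (Nat.modEq_iff_dvd' hle).1 hmod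
    obtain ⟨m', hm'⟩ := hdvd
    have hm'N : m' ≤ M := by
      have h1 : Q * m' ≤ Q * M := by
        calc Q * m' = m - ∑ d ∈ D, d := hm'.symm
          _ ≤ m := Nat.sub_le _ _
          _ ≤ M * Q := hm
          _ = Q * M := Nat.mul_comm _ _
      exact Nat.le_of_mul_le_mul_left h1 hQpos
    obtain ⟨S', hS', hc', hsum'⟩ := hN m' hm'N
    obtain ⟨g1, g2, g3⟩ := glue hNpos hQ hQ2 hD hS'
    refine ⟨D ∪ S'.image (fun e => Q * e), g1, by omega, ?_⟩
    rw [g3, hsum', ← hm']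
    omega

/-- binary digits -/
theorem binary_digits (E : ℕ) : ∀ m < 2 ^ E, ∃ I ⊆ Finset.range E, ∑ i ∈ I, 2 ^ i = m := by
  induction E with
  | zero =>
    intro m hm
    have : m = 0 := by simpa using hm
    exact ⟨∅, by simp, by simp [this]⟩
  | succ E ih =>
    intro m hm
    rw [pow_succ] at hm
    by_cases h : m < 2 ^ E
    · obtain ⟨I, hI, hs⟩ := ih m h
      exact ⟨I, hI.trans (Finset.range_subset_range.2 (Nat.le_succ E)), hs⟩
    · obtain ⟨I, hI, hs⟩ := ih (m - 2 ^ E) (by omega)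
      have hE : E ∉ I := fun hE => by simpa using hI hE
      refine ⟨insert E I, ?_, ?_⟩
      · intro i hi
        rcases Finset.mem_insert.1 hi with rfl | hi
        · simp
        · exact Finset.mem_range.2 (Nat.lt_succ_of_lt (Finset.mem_range.1 (hI hi)))
      · rw [Finset.sum_insert hE, hs]
        omega

theorem repTo_two_pow (E Y : ℕ) (hY : 0 < Y) : RepTo (2 ^ E * Y) (2 ^ E) (E + 1) := by
  intro m hm
  have hNne : 2 ^ E * Y ≠ 0 := (Nat.mul_pos (Nat.two_pow_pos E) hY).ne'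
  rcases Nat.lt_or_ge m (2 ^ E) with h | h
  · obtain ⟨I, hI, hs⟩ := binary_digits E m h
    refine ⟨I.image (fun i => 2 ^ i), ?_, ?_, ?_⟩
    · intro d hd
      obtain ⟨i, hi, rfl⟩ := Finset.mem_image.1 hd
      rw [Nat.mem_divisors]
      exact ⟨(pow_dvd_pow 2 (Finset.mem_range.1 (hI hi)).le).trans (Dvd.intro _ rfl), hNne⟩
    · calc (I.image (fun i => 2 ^ i)).card ≤ I.card := Finset.card_image_le
        _ ≤ (Finset.range E).card := Finset.card_le_card hI
        _ = E := Finset.card_range E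
        _ ≤ E + 1 := Nat.le_succ E
    · rw [Finset.sum_image, hs]
      intro a _ b _ hab
      exact Nat.pow_right_injective (le_refl 2) hab
  · have : m = 2 ^ E := le_antisymm hm h
    refine ⟨{2 ^ E}, ?_, by simp, by simp [this]⟩
    intro d hd
    rw [Finset.mem_singleton] at hd
    rw [hd, Nat.mem_divisors]
    exact ⟨Dvd.intro _ rfl, hNne⟩

end Vale.Agent.Lib.P012
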