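import Mathlib

namespace Vale.Agent.Lib.P012

open Finset

/-- number of `n` in `(a, a+s]` that have no divisor in `P` -/
def roughCount (a s : ℕ) (P : Finset ℕ) : ℕ :=
  ((Finset.Ioc a (a + s)).filter (fun n => ∀ p ∈ P, ¬ p ∣ n)).card

theorem roughCount_le (a s : ℕ) (P : Finset ℕ) : roughCount a s P ≤ s := by
  unfold roughCount
  calc _ ≤ (Finset.Ioc a (a + s)).card := Finset.card_filter_le _ _
    _ = s := by simp

theorem roughCount_empty (a s : ℕ) : roughCount a s ∅ = s := by
  unfold roughCount
  simp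

/-- Buchstab recursion -/
theorem roughCount_insert (a s p : ℕ) (P : Finset ℕ) (hp : p.Prime) (hP : ∀ q ∈ P, q.Prime)
    (hpP : p ∉ P) :
    roughCount a s (insert p P) + roughCount (a / p) ((a + s) / p - a / p) P = roughCount a s P := by
  classical
  unfold roughCount
  have hsplit : ((Finset.Ioc a (a + s)).filter (fun n => ∀ q ∈ P, ¬ q ∣ n)).card =
      (((Finset.Ioc a (a + s)).filter (fun n => ∀ q ∈ P, ¬ q ∣ n)).filter (fun n => ¬ p ∣ n)).card +
      (((Finset.Ioc a (a + s)).filter (fun n => ∀ q ∈ P, ¬ q ∣ n)).filter (fun n => p ∣ n)).card := by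
    rw [add_comm ((Finset.filter (fun n => ¬ p ∣ n) _).card)]
    exact (Finset.card_filter_add_card_filter_not (fun n => p ∣ n)).symm
  rw [hsplit]
  congr 1
  · congr 1
    ext n
    simp only [Finset.mem_filter, Finset.mem_insert, forall_eq_or_imp]
    tauto
  · have hle : a / p ≤ (a + s) / p := Nat.div_le_div_right (Nat.le_add_right a s)
    rw [Nat.add_sub_cancel' hle]
    apply Finset.card_bij (fun n _ => p * n)
    · intro n hn
      simp only [Finset.mem_filter, Finset.mem_Ioc] at hn ⊢
      obtain ⟨⟨h1, h2⟩, h3⟩ := hn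
      refine ⟨⟨⟨?_, ?_⟩, ?_⟩, Dvd.intro _ rfl⟩
      · exact ((Nat.div_lt_iff_lt_mul hp.pos).mp h1).trans_eq (mul_comm _ _)
      · have := (Nat.le_div_iff_mul_le hp.pos).mp h2
        rwa [mul_comm] at this
      · intro q hq hdvd
        have hqp : q ≠ p := fun h => hpP (h ▸ hq)
        rcases ((hP q hq).dvd_mul).mp hdvd with h | h
        · exact hqp ((Nat.prime_dvd_prime_iff_eq (hP q hq) hp).mp h)
        · exact h3 q hq h
    · intro n _ m _ h
      exact Nat.eq_of_mul_eq_mul_left hp.pos h
    · intro n hn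
      simp only [Finset.mem_filter, Finset.mem_Ioc] at hn
      obtain ⟨⟨⟨h1, h2⟩, h3⟩, ⟨m, rfl⟩⟩ := hn
      refine ⟨m, ?_, rfl⟩
      simp only [Finset.mem_filter, Finset.mem_Ioc]
      refine ⟨⟨?_, ?_⟩, ?_⟩
      · apply (Nat.div_lt_iff_lt_mul hp.pos).mpr
        rwa [mul_comm]
      · apply (Nat.le_div_iff_mul_le hp.pos).mpr
        rwa [mul_comm]
      · intro q hq hdvd
        exact h3 q hq (Dvd.dvd.mul_left hdvd p)


theorem pow_succ_add_le (S x : ℝ) (hS : 0 ≤ S) (hx : 0 ≤ x) (n : ℕ) :
    S ^ (n + 1) + (n + 1) * S ^ n * x ≤ (S + x) ^ (n + 1) := by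
  induction n with
  | zero => simp
  | succ n ih =>
    have h1 : (S + x) * (S ^ (n + 1) + (n + 1) * S ^ n * x) ≤ (S + x) * (S + x) ^ (n + 1) :=
      mul_le_mul_of_nonneg_left ih (by positivity)
    have h2 : 0 ≤ (n + 1) * S ^ n * x ^ 2 := by positivity
    calc S ^ (n + 1 + 1) + ((n + 1 : ℕ) + 1 : ℝ) * S ^ (n + 1) * x
        ≤ (S + x) * (S ^ (n + 1) + (n + 1) * S ^ n * x) := by
          have h3 : (S + x) * (S ^ (n + 1) + (n + 1) * S ^ n * x) =
              S ^ (n + 1 + 1) + ((n : ℝ) + 1 + 1) * S ^ (n + 1) * x + (n + 1) * S ^ n * x ^ 2 := by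
            ring
          rw [h3]
          push_cast
          linarith
      _ ≤ (S + x) * (S + x) ^ (n + 1) := h1
      _ = (S + x) ^ (n + 1 + 1) := by ring

/-- the density `∏ (1 - 1/p)` -/
noncomputable def sW (P : Finset ℕ) : ℝ := ∏ p ∈ P, (1 - 1 / (p : ℝ))

/-- the sum `∑ 1/p` -/
noncomputable def sS (P : Finset ℕ) : ℝ := ∑ p ∈ P, 1 / (p : ℝ)

theorem sW_nonneg (P : Finset ℕ) (hP : ∀ q ∈ P, q.Prime) : 0 ≤ sW P := by
  apply Finset.prod_nonneg
  intro p hp
  have : (1 : ℝ) ≤ p := by exact_mod_cast (hP p hp).one_lt.le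
  have h2 : 1 / (p : ℝ) ≤ 1 := by
    rw [div_le_one (by linarith)]
    exact this
  linarith

theorem sW_le_one (P : Finset ℕ) (hP : ∀ q ∈ P, q.Prime) : sW P ≤ 1 := by
  apply Finset.prod_le_one
  · intro p hp
    have : (1 : ℝ) ≤ p := by exact_mod_cast (hP p hp).one_lt.le
    have h2 : 1 / (p : ℝ) ≤ 1 := by
      rw [div_le_one (by linarith)]
      exact this
    linarith
  · intro p hp
    have : (0 : ℝ) ≤ 1 / (p : ℝ) := by positivity
    linarith

theorem sS_nonneg (P : Finset ℕ) : 0 ≤ sS P := by
  apply Finset.sum_nonneg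
  intro p _
  positivity

theorem sS_le_card (P : Finset ℕ) (hP : ∀ q ∈ P, q.Prime) : sS P ≤ P.card := by
  unfold sS
  calc ∑ p ∈ P, 1 / (p : ℝ) ≤ ∑ _p ∈ P, (1 : ℝ) := by
        apply Finset.sum_le_sum
        intro p hp
        have : (1 : ℝ) ≤ p := by exact_mod_cast (hP p hp).one_lt.le
        rw [div_le_one (by linarith)]
        exact this
    _ = P.card := by simp

theorem sieve_abs (r : ℕ) : ∀ (P : Finset ℕ), (∀ q ∈ P, q.Prime) → ∀ a s : ℕ,
    |(roughCount a s P : ℝ) - s * sW P| ≤
      s * (sS P ^ r / r.factorial) + (2 * (P.card : ℝ) + 2) ^ (r + 1) := by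
  induction r with
  | zero =>
    intro P hP a s
    have h1 : (roughCount a s P : ℝ) ≤ s := by exact_mod_cast roughCount_le a s P
    have h2 : (0 : ℝ) ≤ roughCount a s P := Nat.cast_nonneg _
    have h3 := sW_nonneg P hP
    have h4 := sW_le_one P hP
    have h5 : (0 : ℝ) ≤ s := Nat.cast_nonneg _
    have h6 : (0 : ℝ) ≤ (2 * (P.card : ℝ) + 2) ^ (0 + 1) := by positivity
    have h7 : (s : ℝ) * sW P ≤ s := by nlinarith
    have h8 : 0 ≤ (s : ℝ) * sW P := by positivity
    rw [abs_le]
    simp only [pow_zero, Nat.factorial_zero, Nat.cast_one, div_one, mul_one]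
    constructor <;> linarith
  | succ r ih =>
    intro P
    induction P using Finset.induction_on with
    | empty =>
      intro _ a s
      rw [roughCount_empty]
      simp only [sW, Finset.prod_empty, mul_one, sub_self, abs_zero]
      have := sS_nonneg ∅
      positivity
    | insert p P hpP ihP =>
      intro hP a s
      have hp : p.Prime := hP p (Finset.mem_insert_self p P)
      have hP' : ∀ q ∈ P, q.Prime := fun q hq => hP q (Finset.mem_insert_of_mem hq)
      have hrec := roughCount_insert a s p P hp hP' hpP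
      set s' := (a + s) / p - a / p with hs'
      have e1 := ihP hP' a s
      have e2 := ih P hP' (a / p) s'
      have hpr : (0 : ℝ) < p := by exact_mod_cast hp.pos
      -- s' is close to s / p
      have hle : a / p ≤ (a + s) / p := Nat.div_le_div_right (Nat.le_add_right a s)
      have hs'c : (s' : ℝ) = ((a + s) / p : ℕ) - (a / p : ℕ) := by
        rw [hs', Nat.cast_sub hle]
      have d1 : ((a / p : ℕ) : ℝ) ≤ a / p := Nat.cast_div_le
      have d2 : (((a + s) / p : ℕ) : ℝ) ≤ ((a + s : ℕ) : ℝ) / p := Nat.cast_div_le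
      have d3 : (a : ℝ) / p < (a / p : ℕ) + 1 := by
        rw [div_lt_iff₀ hpr]
        have := Nat.lt_div_mul_add hp.pos (a := a)
        have h : a < (a / p + 1) * p := by
          rw [add_mul, one_mul]; exact this
        exact_mod_cast h
      have d4 : ((a + s : ℕ) : ℝ) / p < ((a + s) / p : ℕ) + 1 := by
        rw [div_lt_iff₀ hpr]
        have := Nat.lt_div_mul_add hp.pos (a := a + s)
        have h : a + s < ((a + s) / p + 1) * p := by
          rw [add_mul, one_mul]; exact this
        exact_mod_cast h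
      have d5 : ((a + s : ℕ) : ℝ) / p = a / p + s / p := by
        push_cast; ring
      have hclose : |(s' : ℝ) - s / p| ≤ 1 := by
        rw [abs_le, hs'c]
        constructor <;> linarith
      have hcl := abs_le.mp hclose
      have hW0 := sW_nonneg P hP'
      have hW1 := sW_le_one P hP'
      have hS0 := sS_nonneg P
      have hWins : sW (insert p P) = sW P - sW P / p := by
        unfold sW
        rw [Finset.prod_insert hpP]
        ring
      have hSins : sS (insert p P) = sS P + 1 / p := by
        unfold sS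
        rw [Finset.sum_insert hpP]
        ring
      have hcard : ((insert p P).card : ℝ) = P.card + 1 := by
        rw [Finset.card_insert_of_notMem hpP]; push_cast; ring
      have hcount : (roughCount a s (insert p P) : ℝ) =
          roughCount a s P - roughCount (a / p) s' P := by
        have : (roughCount a s (insert p P) : ℝ) + roughCount (a / p) s' P = roughCount a s P := by
          exact_mod_cast hrec
        linarith
      set k : ℝ := (P.card : ℝ) with hk
      have hk0 : 0 ≤ k := Nat.cast_nonneg _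
      set Br : ℝ := sS P ^ r / r.factorial with hBr
      set Br1 : ℝ := sS P ^ (r + 1) / (r + 1).factorial with hBr1
      have hBr0 : 0 ≤ Br := by positivity
      -- bound on Br
      have hBrk : Br ≤ (2 * k + 2) ^ r := by
        have h1 : sS P ≤ 2 * k + 2 := by
          have := sS_le_card P hP'
          linarith
        have h2 : sS P ^ r ≤ (2 * k + 2) ^ r := pow_le_pow_left₀ hS0 h1 r
        have h3 : (1 : ℝ) ≤ r.factorial := by exact_mod_cast Nat.one_le_iff_ne_zero.mpr (Nat.factorial_ne_zero r)
        calc Br ≤ sS P ^ r := div_le_self (by positivity) h3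
          _ ≤ _ := h2
      -- the B inequality
      have hB : Br1 + Br / p ≤ (sS P + 1 / p) ^ (r + 1) / (r + 1).factorial := by
        have h1 := pow_succ_add_le (sS P) (1 / p) hS0 (by positivity) r
        have hf : ((r + 1).factorial : ℝ) = (r + 1) * r.factorial := by
          rw [Nat.factorial_succ]; push_cast; ring
        have hf0 : (0 : ℝ) < r.factorial := by exact_mod_cast Nat.factorial_pos r
        have hf1 : (0 : ℝ) < (r + 1).factorial := by exact_mod_cast Nat.factorial_pos (r + 1)
        rw [hBr1, hBr, le_div_iff₀ hf1, add_mul, div_mul_cancel₀ _ hf1.ne']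
        have h2 : sS P ^ r / (r.factorial : ℝ) / p * ((r + 1).factorial : ℝ) =
            (r + 1) * sS P ^ r * (1 / p) := by
          rw [hf]; field_simp
        rw [h2]
        exact h1
      -- the C inequality
      have hC : (2 * k + 2) ^ (r + 1 + 1) + (2 * k + 2) ^ (r + 1) + Br + 1 ≤
          (2 * (k + 1) + 2) ^ (r + 1 + 1) := by
        have h1 : (2 * k + 2) ^ (r + 1) ≤ (2 * (k + 1) + 2) ^ (r + 1) :=
          pow_le_pow_left₀ (by positivity) (by linarith) _
        have h2 : (2 * (k + 1) + 2) ^ (r + 1 + 1) = (2 * k + 4) * (2 * (k + 1) + 2) ^ (r + 1) := by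
          ring
        have h3 : (2 * k + 2) ^ (r + 1 + 1) = (2 * k + 2) * (2 * k + 2) ^ (r + 1) := by ring
        have h4 : (2 * k + 2) ^ (r + 1) = (2 * k + 2) * (2 * k + 2) ^ r := by ring
        have h5 : (1 : ℝ) ≤ (2 * k + 2) ^ r := one_le_pow₀ (by linarith)
        have h6 : 0 ≤ (2 * k + 2) ^ (r + 1) := by positivity
        rw [h2, h3]
        nlinarith
      have hs0 : (0 : ℝ) ≤ s := Nat.cast_nonneg _
      have e1' := abs_le.mp e1
      have e2' := abs_le.mp e2
      have hs'le : (s' : ℝ) * Br ≤ (s / p) * Br + Br := by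
        have : (s' : ℝ) * Br ≤ (s / p + 1) * Br := mul_le_mul_of_nonneg_right (by linarith) hBr0
        linarith
      have hdW : |((s' : ℝ) - s / p) * sW P| ≤ 1 := by
        rw [abs_mul, abs_of_nonneg hW0]
        calc |(s' : ℝ) - s / p| * sW P ≤ 1 * 1 := mul_le_mul hclose hW1 hW0 (by norm_num)
          _ = 1 := by norm_num
      have hdW' := abs_le.mp hdW
      have hmain : (s : ℝ) * (Br1 + Br / p) ≤
          s * ((sS P + 1 / p) ^ (r + 1) / (r + 1).factorial) :=
        mul_le_mul_of_nonneg_left hB hs0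
      rw [hcount, hWins, hSins, hcard, abs_le]
      have hexp : (roughCount a s P : ℝ) - roughCount (a / p) s' P - s * (sW P - sW P / p) =
          ((roughCount a s P : ℝ) - s * sW P) - ((roughCount (a / p) s' P : ℝ) - s' * sW P)
            - ((s' : ℝ) - s / p) * sW P := by ring
      rw [hexp]
      have hx : (s : ℝ) * (Br1 + Br / p) = s * Br1 + (s / p) * Br := by ring
      have g1 := e1'.1
      have g2 := e1'.2
      have g3 := e2'.1
      have g4 := e2'.2
      have g5 := hdW'.1
      have g6 := hdW'.2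
      constructor <;> linarith

theorem sieve_lower (P : Finset ℕ) (hP : ∀ q ∈ P, q.Prime) (r a s : ℕ) :
    (s : ℝ) * (sW P - sS P ^ r / r.factorial) - (2 * (P.card : ℝ) + 2) ^ (r + 1) ≤
      roughCount a s P := by
  have h := abs_le.mp (sieve_abs r P hP a s)
  nlinarith [h.1]

end Vale.Agent.Lib.P012
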