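import Vale.Agent.Lib.P012.Defs

namespace Vale.Agent.Lib.P012

open Finset

/-- (F1) disjoint groups of equal size inside a big set -/
theorem exists_groups (g : ℕ) : ∀ (k : ℕ) (P : Finset ℕ), k * g ≤ P.card →
    ∃ G : Fin k → Finset ℕ, (∀ i, G i ⊆ P) ∧ (∀ i, (G i).card = g) ∧
      (∀ i i', i ≠ i' → Disjoint (G i) (G i')) := by
  intro k
  induction k with
  | zero => intro P _; exact ⟨fun i => i.elim0, fun i => i.elim0, fun i => i.elim0, fun i => i.elim0⟩
  | succ k ih =>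
    intro P hP
    have hg : g ≤ P.card := by
      have : (k + 1) * g = k * g + g := by ring
      omega
    obtain ⟨t, htP, htc⟩ := Finset.exists_subset_card_eq hg
    have hc : k * g ≤ (P \ t).card := by
      have h1 := Finset.card_sdiff_add_card_eq_card htP
      have : (k + 1) * g = k * g + g := by ring
      omega
    obtain ⟨G, hG1, hG2, hG3⟩ := ih (P \ t) hc
    refine ⟨Fin.cons t G, ?_, ?_, ?_⟩
    · intro i
      refine Fin.cases ?_ (fun i => ?_) i
      · simpa using htP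
      · simpa using (hG1 i).trans Finset.sdiff_subset
    · intro i
      refine Fin.cases ?_ (fun i => ?_) i
      · simpa using htc
      · simpa using hG2 i
    · intro i i'
      refine Fin.cases ?_ (fun i => ?_) i
      · refine Fin.cases ?_ (fun i' => ?_) i'
        · intro h; exact absurd rfl h
        · intro _
          simp only [Fin.cons_zero, Fin.cons_succ]
          exact Finset.disjoint_of_subset_right (hG1 i') Finset.disjoint_sdiff
      · refine Fin.cases ?_ (fun i' => ?_) i'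
        · intro _
          simp only [Fin.cons_zero, Fin.cons_succ]
          exact (Finset.disjoint_of_subset_right (hG1 i) Finset.disjoint_sdiff).symm
        · intro h
          simp only [Fin.cons_succ]
          exact hG3 i i' (fun e => h (by rw [e]))

/-- (F2) the divisors `> 1` of the product of a set of primes -/
def dv (G : Finset ℕ) : Finset ℕ := (G.powerset.erase ∅).image (fun U => ∏ p ∈ U, p)

theorem mem_dv {G : Finset ℕ} {x : ℕ} :
    x ∈ dv G ↔ ∃ U ⊆ G, U.Nonempty ∧ ∏ p ∈ U, p = x := by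
  unfold dv
  simp only [Finset.mem_image, Finset.mem_erase, Finset.mem_powerset]
  constructor
  · rintro ⟨U, ⟨h1, h2⟩, h3⟩
    exact ⟨U, h2, Finset.nonempty_iff_ne_empty.2 h1, h3⟩
  · rintro ⟨U, h2, h1, h3⟩
    exact ⟨U, ⟨Finset.nonempty_iff_ne_empty.1 h1, h2⟩, h3⟩

theorem card_dv {G : Finset ℕ} (hG : ∀ p ∈ G, p.Prime) : (dv G).card = 2 ^ G.card - 1 := by
  unfold dv
  rw [Finset.card_image_of_injOn, Finset.card_erase_of_mem (Finset.empty_mem_powerset G),
    Finset.card_powerset]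
  intro U hU V hV h
  have hU' : U ⊆ G := Finset.mem_powerset.1 (Finset.mem_of_mem_erase hU)
  have hV' : V ⊆ G := Finset.mem_powerset.1 (Finset.mem_of_mem_erase hV)
  have h1 := Nat.primeFactors_prod (fun p hp => hG p (hU' hp))
  have h2 := Nat.primeFactors_prod (fun p hp => hG p (hV' hp))
  simp only at h
  rw [← h1, ← h2, h]

theorem one_lt_of_mem_dv {G : Finset ℕ} (hG : ∀ p ∈ G, p.Prime) {x : ℕ} (hx : x ∈ dv G) :
    1 < x := by
  obtain ⟨U, hU, ⟨p, hp⟩, rfl⟩ := mem_dv.1 hx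
  have h1 : p ∣ ∏ p ∈ U, p := Finset.dvd_prod_of_mem _ hp
  have h2 : 0 < ∏ p ∈ U, p := Finset.prod_pos (fun q hq => (hG q (hU hq)).pos)
  have h3 := Nat.le_of_dvd h2 h1
  have h4 := (hG p (hU hp)).two_le
  omega

theorem dvd_of_mem_dv {G : Finset ℕ} {x : ℕ} (hx : x ∈ dv G) : x ∣ ∏ p ∈ G, p := by
  obtain ⟨U, hU, _, rfl⟩ := mem_dv.1 hx
  exact Finset.prod_dvd_prod_of_subset _ _ _ hU

theorem prod_le_two_pow {P : Finset ℕ} {z : ℕ} (hz : ∀ p ∈ P, p ≤ 2 ^ z) :
    ∏ p ∈ P, p ≤ 2 ^ (z * P.card) := by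
  calc ∏ p ∈ P, p ≤ ∏ _p ∈ P, 2 ^ z := Finset.prod_le_prod' hz
    _ = 2 ^ (z * P.card) := by rw [Finset.prod_const, ← pow_mul]

theorem lt_of_mem_dv {G P : Finset ℕ} (hP : ∀ p ∈ P, p.Prime) (hGP : G ⊆ P) {z : ℕ}
    (hz : ∀ p ∈ P, p ≤ 2 ^ z) {x : ℕ} (hx : x ∈ dv G) : x < 2 ^ (z * P.card + 1) := by
  have h1 : x ∣ ∏ p ∈ P, p := (dvd_of_mem_dv hx).trans (Finset.prod_dvd_prod_of_subset _ _ _ hGP)
  have h2 : 0 < ∏ p ∈ P, p := Finset.prod_pos (fun q hq => (hP q hq).pos)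
  have h3 := Nat.le_of_dvd h2 h1
  have h4 := prod_le_two_pow hz
  have h5 : 2 ^ (z * P.card) < 2 ^ (z * P.card + 1) := Nat.pow_lt_pow_right (by norm_num) (by omega)
  omega

/-- (F3) energy = diagonal + off-diagonal -/
theorem energy_eq (X : Finset ℕ) (d : ℕ) : energy X d = X.card + off X d := by
  unfold energy off
  rw [← Finset.diag_card X]
  rw [← Finset.card_union_of_disjoint]
  · congr 1
    ext ⟨a, b⟩
    simp only [Finset.mem_filter, Finset.mem_product, Finset.mem_union, Finset.mem_diag]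
    constructor
    · rintro ⟨⟨ha, hb⟩, h⟩
      by_cases hab : a = b
      · left; exact ⟨ha, hab⟩
      · right; exact ⟨⟨ha, hb⟩, hab, h⟩
    · rintro (⟨ha, hab⟩ | ⟨⟨ha, hb⟩, _, h⟩)
      · subst hab; exact ⟨⟨ha, ha⟩, Nat.ModEq.refl _⟩
      · exact ⟨⟨ha, hb⟩, h⟩
  · rw [Finset.disjoint_left]
    rintro ⟨a, b⟩ h1 h2
    simp only [Finset.mem_diag] at h1
    simp only [Finset.mem_filter] at h2
    exact h2.2.1 h1.2

theorem energy_le {X : Finset ℕ} {d z j u : ℕ} {θ : ℝ} (hθ : ((2 : ℝ) ^ z)⁻¹ ≤ θ) (hu : u ≤ j)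
    (hX : 2 ^ (z * j) ≤ X.card)
    (hoff : (off X d : ℝ) ≤ 36 * (X.card : ℝ) ^ 2 * θ ^ u) :
    (energy X d : ℝ) ≤ 37 * (X.card : ℝ) ^ 2 * θ ^ u := by
  rw [energy_eq]
  push_cast
  have hc : (2 : ℝ) ^ (z * j) ≤ X.card := by exact_mod_cast hX
  have h2 : (0 : ℝ) < (2 : ℝ) ^ z := by positivity
  have h1 : (((2 : ℝ) ^ z)⁻¹) ^ j ≤ θ ^ u := by
    calc (((2 : ℝ) ^ z)⁻¹) ^ j ≤ (((2 : ℝ) ^ z)⁻¹) ^ u := by
          apply pow_le_pow_of_le_one (by positivity) _ hu
          apply inv_le_one_of_one_le₀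
          exact one_le_pow₀ (by norm_num)
      _ ≤ θ ^ u := pow_le_pow_left₀ (by positivity) hθ u
  have h3 : 1 ≤ (X.card : ℝ) * θ ^ u := by
    calc (1 : ℝ) = (2 : ℝ) ^ (z * j) * (((2 : ℝ) ^ z)⁻¹) ^ j := by
          rw [pow_mul, inv_pow]; field_simp
      _ ≤ (X.card : ℝ) * θ ^ u := by
          apply mul_le_mul hc h1 (by positivity) (by positivity)
  have h4 : (0 : ℝ) ≤ X.card := by positivity
  nlinarith [mul_le_mul_of_nonneg_left h3 h4]

/-- (F4) the numeric smallness condition of the covering lemma -/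
theorem hsmall_of_num {z j M W : ℕ} (hM : 0 < M)
    (hnum : 4 * 37 ^ 6 * j * (2 ^ z) ^ 4 * (j * W) ^ 6 ≤ M ^ 6) :
    (37 : ℝ) ^ 6 * ((1 + ((2 ^ z : ℕ) : ℝ) ^ 4 * (((j : ℝ) * W) / M) ^ 6) ^ j - 1) < 1 := by
  have hMR : (0 : ℝ) < M := by exact_mod_cast hM
  set y : ℝ := ((2 ^ z : ℕ) : ℝ) ^ 4 * (((j : ℝ) * W) / M) ^ 6 with hy
  have hy0 : 0 ≤ y := by rw [hy]; positivity
  have hnumR : (4 : ℝ) * 37 ^ 6 * j * ((2 ^ z : ℕ) : ℝ) ^ 4 * ((j : ℝ) * W) ^ 6 ≤ (M : ℝ) ^ 6 := by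
    exact_mod_cast hnum
  have hjy : 4 * 37 ^ 6 * ((j : ℝ) * y) ≤ 1 := by
    rw [hy, div_pow]
    have hM6 : (0 : ℝ) < (M : ℝ) ^ 6 := by positivity
    have : 4 * 37 ^ 6 * ((j : ℝ) * (((2 ^ z : ℕ) : ℝ) ^ 4 * (((j : ℝ) * W) ^ 6 / (M : ℝ) ^ 6)))
        = (4 * 37 ^ 6 * j * ((2 ^ z : ℕ) : ℝ) ^ 4 * ((j : ℝ) * W) ^ 6) / (M : ℝ) ^ 6 := by
      field_simp
    rw [this, div_le_one hM6]
    exact hnumR
  have hjy0 : 0 ≤ (j : ℝ) * y := by positivity
  have hjy1 : |(j : ℝ) * y| ≤ 1 := by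
    rw [abs_of_nonneg hjy0]; nlinarith
  have h1 : (1 + y) ^ j ≤ Real.exp ((j : ℝ) * y) := by
    rw [Real.exp_nat_mul]
    apply pow_le_pow_left₀ (by positivity)
    have := Real.add_one_le_exp y; linarith
  have h2 := Real.abs_exp_sub_one_le hjy1
  rw [abs_of_nonneg hjy0] at h2
  have h3 := (abs_le.1 h2).2
  have h4 : (1 + y) ^ j - 1 ≤ 2 * ((j : ℝ) * y) := by linarith
  have h5 : (37 : ℝ) ^ 6 * ((1 + y) ^ j - 1) ≤ 37 ^ 6 * (2 * ((j : ℝ) * y)) :=
    mul_le_mul_of_nonneg_left h4 (by positivity)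
  linarith

theorem sum_le_prod_of_two_le {ι : Type*} (s : Finset ι) (f : ι → ℕ) (hf : ∀ i ∈ s, 2 ≤ f i) :
    ∑ i ∈ s, f i ≤ ∏ i ∈ s, f i := by
  classical
  induction s using Finset.induction_on with
  | empty => simp
  | insert a s ha ih =>
    rw [Finset.sum_insert ha, Finset.prod_insert ha]
    have h1 := ih (fun i hi => hf i (Finset.mem_insert_of_mem hi))
    have h2 := hf a (Finset.mem_insert_self a s)
    rcases s.eq_empty_or_nonempty with rfl | ⟨b, hb⟩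
    · simp
    · have h3 : 2 ≤ ∏ i ∈ s, f i := by
        have h4 : f b ∣ ∏ i ∈ s, f i := Finset.dvd_prod_of_mem f hb
        have h5 : 0 < ∏ i ∈ s, f i :=
          Finset.prod_pos (fun i hi => by have := hf i (Finset.mem_insert_of_mem hi); omega)
        have h6 := Nat.le_of_dvd h5 h4
        have h7 := hf b (Finset.mem_insert_of_mem hb)
        omega
      nlinarith

theorem coprime_prod_of_disjoint {A B : Finset ℕ} (hA : ∀ p ∈ A, p.Prime) (hB : ∀ p ∈ B, p.Prime)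
    (h : Disjoint A B) : Nat.Coprime (∏ p ∈ A, p) (∏ p ∈ B, p) := by
  apply Nat.Coprime.prod_left
  intro p hp
  apply Nat.Coprime.prod_right
  intro q hq
  apply (Nat.coprime_primes (hA p hp) (hB q hq)).2
  rintro rfl
  exact (Finset.disjoint_left.1 h hp) hq

/-- (F5) pairwise coprime divisors `> 1` coming from disjoint groups -/
theorem six_divisors {k : ℕ} {P : Finset ℕ} (hP : ∀ p ∈ P, p.Prime) (H : Fin k → Finset ℕ)
    (hH : ∀ i, H i ⊆ P) (hdis : ∀ i i', i ≠ i' → Disjoint (H i) (H i')) (c : Fin k → ℕ)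
    (hc1 : ∀ i, 1 < c i) (hc : ∀ i, c i ∣ ∏ p ∈ H i, p) :
    (Finset.univ.image c) ⊆ (∏ p ∈ P, p).divisors ∧ (Finset.univ.image c).card ≤ k ∧
      ∑ d ∈ Finset.univ.image c, d = ∑ i, c i ∧ ∑ i, c i ≤ ∏ p ∈ P, p := by
  have hPpos : 0 < ∏ p ∈ P, p := Finset.prod_pos (fun q hq => (hP q hq).pos)
  have hinj : Function.Injective c := by
    intro i i' h
    by_contra hne
    have h1 := coprime_prod_of_disjoint (fun p hp => hP p (hH i hp)) (fun p hp => hP p (hH i' hp))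
      (hdis i i' hne)
    have h2 : c i ∣ 1 := by
      rw [← Nat.Coprime.gcd_eq_one h1]
      exact Nat.dvd_gcd (hc i) (h ▸ hc i')
    have h3 := Nat.le_of_dvd one_pos h2
    have := hc1 i
    omega
  refine ⟨?_, ?_, ?_, ?_⟩
  · intro d hd
    obtain ⟨i, _, rfl⟩ := Finset.mem_image.1 hd
    rw [Nat.mem_divisors]
    exact ⟨(hc i).trans (Finset.prod_dvd_prod_of_subset _ _ _ (hH i)), hPpos.ne'⟩
  · calc (Finset.univ.image c).card ≤ (Finset.univ : Finset (Fin k)).card := Finset.card_image_le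
      _ = k := by simp
  · rw [Finset.sum_image (fun i _ i' _ h => hinj h)]
  · calc ∑ i, c i ≤ ∏ i, c i := sum_le_prod_of_two_le _ _ (fun i _ => hc1 i)
      _ ≤ ∏ i, ∏ p ∈ H i, p := by
          apply Finset.prod_le_prod' 
          intro i _
          exact Nat.le_of_dvd (Finset.prod_pos (fun q hq => (hP q (hH i hq)).pos)) (hc i)
      _ = ∏ p ∈ Finset.univ.biUnion H, p := by
          rw [Finset.prod_biUnion]
          intro i _ i' _ hne
          exact hdis i i' hne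
      _ ≤ ∏ p ∈ P, p := by
          apply Nat.le_of_dvd hPpos
          apply Finset.prod_dvd_prod_of_subset
          intro p hp
          obtain ⟨i, _, hi⟩ := Finset.mem_biUnion.1 hp
          exact hH i hi

end Vale.Agent.Lib.P012
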