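import Vale.Agent.Lib.P012.RepTo
import Vale.Agent.Lib.P012.KProd
import Vale.Agent.Lib.P012.Select
import Vale.Agent.Lib.P012.Fourier

/-! Module M5 of P012 v2: one stage with products of exactly `k` free primes. -/

namespace Vale.Agent.Lib.P012

open Finset

theorem energy_eq2 (X : Finset ℕ) (m : ℕ) : energy X m = X.card + off X m := by
  classical
  unfold energy off
  have h1 : ((X ×ˢ X).filter (fun p => p.1 ≡ p.2 [MOD m])) =
      ((X ×ˢ X).filter (fun p => p.1 = p.2)) ∪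
        ((X ×ˢ X).filter (fun p => p.1 ≠ p.2 ∧ p.1 ≡ p.2 [MOD m])) := by
    ext p
    simp only [Finset.mem_filter, Finset.mem_union]
    constructor
    · rintro ⟨h, h2⟩
      by_cases he : p.1 = p.2
      · exact Or.inl ⟨h, he⟩
      · exact Or.inr ⟨h, he, h2⟩
    · rintro (⟨h, he⟩ | ⟨h, _, h2⟩)
      · exact ⟨h, by rw [he]⟩
      · exact ⟨h, h2⟩
  rw [h1, Finset.card_union_of_disjoint]
  · congr 1
    have : ((X ×ˢ X).filter (fun p => p.1 = p.2)) = X.diag := by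
      ext p; simp only [Finset.mem_filter, Finset.mem_product, Finset.mem_diag]
      constructor
      · rintro ⟨⟨h, _⟩, he⟩; exact ⟨h, he⟩
      · rintro ⟨h, he⟩; exact ⟨⟨h, he ▸ h⟩, he⟩
    rw [this, Finset.diag_card]
  · rw [Finset.disjoint_filter]
    intro p _ h1 h2
    exact h2.1 h1

theorem coprime_prod_of_disjoint2 (G G' : Finset ℕ) (hG : ∀ p ∈ G, p.Prime)
    (hG' : ∀ p ∈ G', p.Prime) (hd : Disjoint G G') :
    Nat.Coprime (∏ p ∈ G, p) (∏ p ∈ G', p) := by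
  rw [Nat.coprime_prod_left_iff]
  intro p hp
  rw [Nat.coprime_prod_right_iff]
  intro q hq
  rw [Nat.coprime_primes (hG p hp) (hG' q hq)]
  rintro rfl
  exact (Finset.disjoint_left.mp hd hp) hq

theorem one_add_pow_le2 (y : ℝ) (hy : 0 ≤ y) : ∀ j : ℕ, 2 * (j : ℝ) * y ≤ 1 →
    (1 + y) ^ j ≤ 1 + 2 * (j : ℝ) * y := by
  intro j
  induction j with
  | zero => intro _; simp
  | succ j ih =>
    intro h
    push_cast at h ⊢
    have h' : 2 * (j : ℝ) * y ≤ 1 := by nlinarith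
    have := ih h'
    rw [pow_succ]
    have hj : (0 : ℝ) ≤ j := Nat.cast_nonneg j
    calc (1 + y) ^ j * (1 + y) ≤ (1 + 2 * (j : ℝ) * y) * (1 + y) := by
          apply mul_le_mul_of_nonneg_right this (by linarith)
      _ = 1 + 2 * j * y + y + (2 * j * y) * y := by ring
      _ ≤ 1 + 2 * j * y + y + 1 * y := by
          have : (2 * (j : ℝ) * y) * y ≤ 1 * y := mul_le_mul_of_nonneg_right h' hy
          linarith
      _ = 1 + 2 * ((j : ℝ) + 1) * y := by ring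

theorem energy_bound2 (X : Finset ℕ) (m t z j : ℕ) (c θ : ℝ) (hθ : 1 ≤ θ * 2 ^ z) (hθ0 : 0 ≤ θ)
    (ht : t ≤ j) (hX : 2 ^ (z * j) ≤ X.card) (hc : c ≤ 12)
    (hoff : (off X m : ℝ) ≤ 3 * c * (X.card : ℝ) ^ 2 * θ ^ t) :
    (energy X m : ℝ) ≤ 37 * (X.card : ℝ) ^ 2 * θ ^ t := by
  rw [energy_eq2]
  push_cast
  set x : ℝ := (X.card : ℝ) with hx
  have hx0 : 0 ≤ x := Nat.cast_nonneg _
  have h1 : ((2 : ℝ) ^ z) ^ t ≤ x := by
    have h2 : ((2 : ℝ) ^ z) ^ t ≤ ((2 : ℝ) ^ z) ^ j :=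
      pow_le_pow_right₀ (one_le_pow₀ (by norm_num)) ht
    have h3 : ((2 : ℝ) ^ z) ^ j ≤ x := by
      rw [← pow_mul, hx]
      exact_mod_cast hX
    linarith
  have hθt : 0 ≤ θ ^ t := pow_nonneg hθ0 t
  have h4 : 1 ≤ θ ^ t * x := by
    have h5 : (1 : ℝ) ≤ (θ * 2 ^ z) ^ t := one_le_pow₀ hθ
    rw [mul_pow] at h5
    have h6 : θ ^ t * ((2 : ℝ) ^ z) ^ t ≤ θ ^ t * x := mul_le_mul_of_nonneg_left h1 hθt
    linarith
  have h7 : x ≤ x ^ 2 * θ ^ t := by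
    have : x * 1 ≤ x * (θ ^ t * x) := mul_le_mul_of_nonneg_left h4 hx0
    nlinarith
  have h8 : 3 * c * x ^ 2 * θ ^ t ≤ 36 * x ^ 2 * θ ^ t := by
    have : 0 ≤ x ^ 2 * θ ^ t := by positivity
    nlinarith
  linarith

theorem stage_gen (N M T : ℕ) (hNpos : 0 < N) (hrep : RepTo N M T)
    (P0 : Finset ℕ) (hP0 : ∀ p ∈ P0, p.Prime) (hP0N : (∏ p ∈ P0, p) ∣ N)
    (Gr : Fin 12 → Finset ℕ) (hGsub : ∀ l, Gr l ⊆ P0)
    (hGdisj : ∀ l l', l ≠ l' → Disjoint (Gr l) (Gr l'))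
    (g z k j Mp : ℕ) (hGcard : ∀ l, (Gr l).card = g) (hP0z : ∀ p ∈ P0, p ≤ 2 ^ z)
    (hk : 1 ≤ k) (hsize : 6 * 2 ^ (2 * (z * k)) ≤ M) (hcard : 2 ^ (z * j) ≤ g.choose k)
    (hj : 1 ≤ j) (hMp : 0 < Mp) (hMp2 : Mp ≤ 2 ^ z)
    (R : Finset ℕ) (hRp : ∀ q ∈ R, q.Prime) (hRz : ∀ q ∈ R, q ≤ 2 ^ z)
    (hRN : ∀ q ∈ R, Nat.Coprime N q) (hRcard : Mp + j ≤ R.card)
    (hnum : 4 * 37 ^ 6 * j * (2 ^ z) ^ 4 * (j * (z * k + 1)) ^ 6 ≤ Mp ^ 6) :
    ∃ S ⊆ R, S.card = j ∧ RepTo (N * ∏ q ∈ S, q) (M * ∏ q ∈ S, q) (T + 6) := by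
  classical
  have hGp : ∀ l, ∀ p ∈ Gr l, p.Prime := fun l p hp => hP0 p (hGsub l hp)
  have hGz : ∀ l, ∀ p ∈ Gr l, p ≤ 2 ^ z := fun l p hp => hP0z p (hGsub l hp)
  let ia : Fin 6 → Fin 12 := fun i => ⟨2 * i.val, by omega⟩
  let ib : Fin 6 → Fin 12 := fun i => ⟨2 * i.val + 1, by omega⟩
  let A : Fin 6 → Finset ℕ := fun i => kp (Gr (ia i)) k
  let B : Fin 6 → Finset ℕ := fun i => kp (Gr (ib i)) k
  set W : ℕ := z * k + 1 with hW
  have hAcard : ∀ i, 2 ^ (z * j) ≤ (A i).card := by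
    intro i
    simp only [A]
    rw [card_kp (hGp _), hGcard]
    exact hcard
  have hBcard : ∀ i, 2 ^ (z * j) ≤ (B i).card := by
    intro i
    simp only [B]
    rw [card_kp (hGp _), hGcard]
    exact hcard
  let X : Fin 6 ⊕ Fin 6 → Finset ℕ := Sum.elim A B
  have hlt : 2 ^ (z * k) < 2 ^ W := Nat.pow_lt_pow_right (by norm_num) (by omega)
  have hXW : ∀ i, ∀ a ∈ X i, a < 2 ^ W := by
    intro i a ha
    rcases i with i | i
    · exact lt_of_le_of_lt (le_of_mem_kp (hGz _) ha) hlt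
    · exact lt_of_le_of_lt (le_of_mem_kp (hGz _) ha) hlt
  obtain ⟨S, hSR, hScard, hSoff⟩ := select X W j Mp R hRp hRcard hj hMp (by omega) hXW
  have hSp : ∀ q ∈ S, q.Prime := fun q hq => hRp q (hSR hq)
  have hSz : ∀ q ∈ S, q ≤ 2 ^ z := fun q hq => hRz q (hSR hq)
  refine ⟨S, hSR, hScard, ?_⟩
  set θ : ℝ := ((j : ℝ) * W) / Mp with hθ
  have hMr : (0 : ℝ) < Mp := by exact_mod_cast hMp
  have hjW : (1 : ℝ) ≤ (j : ℝ) * W := by
    have : 1 ≤ j * W := Nat.one_le_iff_ne_zero.mpr (by positivity)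
    exact_mod_cast this
  have hθ0 : 0 ≤ θ := by positivity
  have hθ1 : 1 ≤ θ * 2 ^ z := by
    have h1 : (Mp : ℝ) ≤ 2 ^ z := by exact_mod_cast hMp2
    rw [hθ, div_mul_eq_mul_div, le_div_iff₀ hMr]
    nlinarith
  have hen : ∀ i, ∀ U ⊆ S, 2 ^ (z * j) ≤ (X i).card →
      (energy (X i) (∏ q ∈ U, q) : ℝ) ≤ 37 * ((X i).card : ℝ) ^ 2 * θ ^ U.card := by
    intro i U hU hc
    apply energy_bound2 (X i) _ U.card z j (Fintype.card (Fin 6 ⊕ Fin 6) : ℝ) θ hθ1 hθ0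
      (hScard ▸ Finset.card_le_card hU) hc (by simp)
    exact hSoff U hU i
  have hsmall : (37 : ℝ) ^ 6 * ((1 + ((2 ^ z : ℕ) : ℝ) ^ 4 * θ ^ 6) ^ S.card - 1) < 1 := by
    set y : ℝ := ((2 ^ z : ℕ) : ℝ) ^ 4 * θ ^ 6 with hy
    have hy0 : 0 ≤ y := by positivity
    have hnumr : (4 : ℝ) * 37 ^ 6 * j * ((2 ^ z : ℕ) : ℝ) ^ 4 * ((j : ℝ) * W) ^ 6 ≤ (Mp : ℝ) ^ 6 := by
      exact_mod_cast hnum
    have hy1 : 4 * 37 ^ 6 * (j : ℝ) * y ≤ 1 := by
      rw [hy, hθ, div_pow]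
      have hM6 : (0 : ℝ) < (Mp : ℝ) ^ 6 := by positivity
      rw [← mul_div_assoc, ← mul_div_assoc, div_le_one hM6]
      calc 4 * 37 ^ 6 * (j : ℝ) * (((2 ^ z : ℕ) : ℝ) ^ 4 * ((j : ℝ) * W) ^ 6)
          = (4 : ℝ) * 37 ^ 6 * j * ((2 ^ z : ℕ) : ℝ) ^ 4 * ((j : ℝ) * W) ^ 6 := by ring
        _ ≤ _ := hnumr
    have hjy : 0 ≤ (j : ℝ) * y := by positivity
    have h2 : 2 * (j : ℝ) * y ≤ 1 := by nlinarith
    have h3 := one_add_pow_le2 y hy0 j h2
    rw [hScard]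
    nlinarith
  have hQ2 : 2 ≤ ∏ q ∈ S, q := by
    have hne : S.Nonempty := by
      rw [← Finset.card_pos]; omega
    obtain ⟨q, hq⟩ := hne
    have h1 : q ∣ ∏ q ∈ S, q := Finset.dvd_prod_of_mem _ hq
    have h2 : 0 < ∏ q ∈ S, q := Finset.prod_pos (fun q hq => (hSp q hq).pos)
    have h3 := Nat.le_of_dvd h2 h1
    have h4 := (hSp q hq).two_le
    omega
  have hcop : Nat.Coprime N (∏ q ∈ S, q) :=
    Nat.Coprime.prod_right fun q hq => hRN q (hSR hq)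
  apply repTo_mul hrep hNpos hcop hQ2
  intro m
  obtain ⟨a, b, ha, hb, hab⟩ := cover_fourier S hSp (2 ^ z) hSz A B
    (fun i => by
      rw [← Finset.card_pos]
      exact lt_of_lt_of_le (by positivity) (hAcard i))
    (fun i => by
      rw [← Finset.card_pos]
      exact lt_of_lt_of_le (by positivity) (hBcard i))
    37 θ (by norm_num) hθ0
    (fun i U hU => hen (Sum.inl i) U hU (hAcard i))
    (fun i U hU => hen (Sum.inr i) U hU (hBcard i)) hsmall m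
  -- the six divisors
  let H : Fin 6 → Finset ℕ := fun i => Gr (ia i) ∪ Gr (ib i)
  have hiab : ∀ i, ia i ≠ ib i := by
    intro i h
    have := congrArg Fin.val h
    simp only [ia, ib] at this
    omega
  have hHprod : ∀ i, ∏ p ∈ H i, p = (∏ p ∈ Gr (ia i), p) * ∏ p ∈ Gr (ib i), p := fun i =>
    Finset.prod_union (hGdisj _ _ (hiab i))
  have hHp : ∀ i, ∀ p ∈ H i, p.Prime := by
    intro i p hp
    rcases Finset.mem_union.mp hp with h | h
    · exact hGp _ p h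
    · exact hGp _ p h
  have hHdisj : ∀ i i', i ≠ i' → Disjoint (H i) (H i') := by
    intro i i' hik
    have hv : i.val ≠ i'.val := fun h => hik (Fin.ext h)
    have n1 : ia i ≠ ia i' := by
      intro h; have := congrArg Fin.val h; simp only [ia] at this; omega
    have n2 : ia i ≠ ib i' := by
      intro h; have := congrArg Fin.val h; simp only [ia, ib] at this; omega
    have n3 : ib i ≠ ia i' := by
      intro h; have := congrArg Fin.val h; simp only [ia, ib] at this; omega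
    have n4 : ib i ≠ ib i' := by
      intro h; have := congrArg Fin.val h; simp only [ib] at this; omega
    simp only [H, Finset.disjoint_union_left, Finset.disjoint_union_right]
    exact ⟨⟨hGdisj _ _ n1, hGdisj _ _ n3⟩, ⟨hGdisj _ _ n2, hGdisj _ _ n4⟩⟩
  let d : Fin 6 → ℕ := fun i => a i * b i
  have hdH : ∀ i, d i ∣ ∏ p ∈ H i, p := by
    intro i
    rw [hHprod]
    exact mul_dvd_mul (dvd_of_mem_kp (ha i)) (dvd_of_mem_kp (hb i))
  have hHsub : ∀ i, H i ⊆ P0 := fun i => Finset.union_subset (hGsub _) (hGsub _)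
  have hdN : ∀ i, d i ∣ N := fun i =>
    ((hdH i).trans (Finset.prod_dvd_prod_of_subset _ _ _ (hHsub i))).trans hP0N
  have hdinj : Function.Injective d := by
    intro i i' hik
    by_contra hne
    have hc := coprime_prod_of_disjoint2 (H i) (H i') (hHp i) (hHp i') (hHdisj i i' hne)
    have h1 : d i ∣ 1 := by
      have := Nat.dvd_gcd (hdH i) (hik ▸ hdH i')
      rwa [hc.gcd_eq_one] at this
    have h2 : a i ∣ 1 := (Dvd.intro _ rfl).trans h1
    have h3 : a i = 1 := Nat.dvd_one.mp h2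
    have h4 := one_lt_of_mem_kp (hGp _) hk (ha i)
    omega
  refine ⟨Finset.univ.image d, ?_, ?_, ?_, ?_⟩
  · intro x hx
    obtain ⟨i, _, rfl⟩ := Finset.mem_image.mp hx
    exact Nat.mem_divisors.mpr ⟨hdN i, hNpos.ne'⟩
  · exact le_trans Finset.card_image_le (by simp)
  · rw [Finset.sum_image (fun i _ i' _ h => hdinj h)]
    have h1 : ∀ i ∈ (Finset.univ : Finset (Fin 6)), d i ≤ 2 ^ (2 * (z * k)) := by
      intro i _
      calc d i = a i * b i := rfl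
        _ ≤ 2 ^ (z * k) * 2 ^ (z * k) :=
            Nat.mul_le_mul (le_of_mem_kp (hGz _) (ha i)) (le_of_mem_kp (hGz _) (hb i))
        _ = 2 ^ (2 * (z * k)) := by rw [← pow_add]; congr 1; omega
    have h2 := Finset.sum_le_card_nsmul _ _ _ h1
    simp only [Finset.card_univ, Fintype.card_fin, smul_eq_mul] at h2
    exact h2.trans hsize
  · rw [Finset.sum_image (fun i _ i' _ h => hdinj h)]
    exact hab

end Vale.Agent.Lib.P012
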